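import Vale.Agent.P011.H983.HeyIntG
import Vale.Agent.P011.Hey.Spec

/-!
# Every family of local splittings has a conjugate family which is integral almost everywhere
-/

open Module TensorProduct

set_option linter.unusedSectionVars false

namespace Vale.Agent.P011.H983.Hey

open Vale.Agent.P011.H738 Vale.Agent.P011.H271 Vale.Agent.P011.Hey

variable {k D : Type} [Field k] [GFF k] [Ring D] [Algebra k D] [IsSimpleRing D]
  [Algebra.IsCentral k D]

/-- A ring homomorphism over the completion as an algebra homomorphism. -/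
def toAlg {v : Place k} {n : ℕ} (g : D →+* Matrix (Fin n) (Fin n) v.comp)
    (hg : ∀ c : k, g (algebraMap k D c) = Matrix.scalar (Fin n) (algebraMap k v.comp c)) :
    D →ₐ[k] Matrix (Fin n) (Fin n) v.comp :=
  { g with
    commutes' := fun c => by
      refine (hg c).trans ?_
      rw [IsScalarTower.algebraMap_apply k v.comp (Matrix (Fin n) (Fin n) v.comp)]
      rfl }

theorem toAlg_apply {v : Place k} {n : ℕ} (g : D →+* Matrix (Fin n) (Fin n) v.comp)
    (hg : ∀ c : k, g (algebraMap k D c) = Matrix.scalar (Fin n) (algebraMap k v.comp c)) (x : D) :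
    toAlg g hg x = g x := rfl

/-- **(HY7)** From any family of local splittings, a family `Spl`, conjugate at every place. -/
theorem exists_spl {n : ℕ} (hn : n ≠ 0) (hfin : finrank k D = n ^ 2)
    (g : ∀ v : Place k, D →+* Matrix (Fin n) (Fin n) v.comp)
    (hg : ∀ v (c : k), g v (algebraMap k D c) = Matrix.scalar (Fin n) (algebraMap k v.comp c)) :
    ∃ s : Spl k D n, ∀ v, ∃ h : Matrix (Fin n) (Fin n) v.comp, IsUnit h.det ∧
      ∀ x, s.g v x = h⁻¹ * g v x * h := by
  classical
  have hfd : FiniteDimensional k D := Module.finite_of_finrank_pos (by rw [hfin]; positivity)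
  have hcard : Fintype.card (Fin n × Fin n) = n ^ 2 := by
    rw [Fintype.card_prod, Fintype.card_fin, sq]
  let e : Basis (Fin n × Fin n) k D := (Module.finBasis k D).reindex
    (Fintype.equivOfCardEq (by rw [Fintype.card_fin, hfin, hcard]))
  obtain ⟨T, f', h1, h2⟩ := exists_int_splitting e hn hcard (fun v => toAlg (g v) (hg v))
  refine ⟨⟨fun v => (f' v : D →+* Matrix (Fin n) (Fin n) v.comp), fun v c => ?_, e, fun v => ?_,
    ?_⟩, fun v => ?_⟩
  · change f' v (algebraMap k D c) = _
    rw [AlgHom.commutes, IsScalarTower.algebraMap_apply k v.comp (Matrix (Fin n) (Fin n) v.comp)]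
    rfl
  · rw [eq_top_iff]
    intro M _
    obtain ⟨c, hc, -⟩ := exists_coord e hn hcard (f' v) M
    have hc' : M = ∑ l, c l • f' v (e l) := hc
    rw [hc']
    exact Submodule.sum_mem _ fun l _ =>
      Submodule.smul_mem _ _ (Submodule.subset_span ⟨l, rfl⟩)
  · refine T.finite_toSet.subset fun v hv => ?_
    by_contra hvT
    refine hv fun X => ?_
    have hvT' : v ∉ T := fun h => hvT (Finset.mem_coe.mpr h)
    have h3 := h2 v hvT' X
    refine h3.trans ⟨?_, fun hX => ?_⟩
    · rintro ⟨c, hc, hX⟩
      rw [hX]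
      refine Submodule.sum_mem _ fun l _ => ?_
      have h4 : c l • f' v (e l) = (⟨c l, hc l⟩ : cO v) • f' v (e l) := rfl
      rw [h4]
      exact Submodule.smul_mem _ _ (Submodule.subset_span ⟨l, rfl⟩)
    · rw [Submodule.mem_span_range_iff_exists_fun] at hX
      obtain ⟨c, hc⟩ := hX
      exact ⟨fun l => (c l : v.comp), fun l => (c l).2, hc.symm⟩
  · obtain ⟨h, hu, hh⟩ := h1 v
    exact ⟨h, hu, hh⟩

end Vale.Agent.P011.H983.Hey
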