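import Vale.Agent.P011.H983.OM2Core
import Vale.Agent.P011.H152.OMFinal

/-!
# One-step mixing (P3) in every characteristic

`xn σ e₁ a b = ν(σ + b)`, `ν(z) = z² + e₁ z + a`.  `DatN` is the form of helper152's `DatG` which
covers all characteristics: `2 ≠ 0`, or `2 = 0`, `e₁ ≠ 0` and `k` has a 2-basis with one element.
-/

namespace Vale.Agent.P011.H983

open Vale.Agent.P011.H152 (DatG xx omG_mean isMean_of)

noncomputable section

/-- `ν(σ + b)`, `ν(z) = z² + e₁ z + a`. -/
def xn {k L : Type*} [Field k] [Field L] [Algebra k L] (σ : L) (e₁ a b : k) : L :=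
  (σ + algebraMap k L b) ^ 2 + algebraMap k L e₁ * (σ + algebraMap k L b) + algebraMap k L a

/-- The condition on the characteristic. -/
def CharOK (k : Type*) [Field k] (e₁ : k) : Prop :=
  (2 : k) ≠ 0 ∨ ((2 : k) = 0 ∧ e₁ ≠ 0 ∧ ∃ X : k, TwoBasis k X)

variable {k L H : Type*} [Field k] [Field L] [Algebra k L]
  [NormedAddCommGroup H] [InnerProductSpace ℂ H]

/-- The data of one-step mixing, every characteristic. -/
structure DatN (σ : L) (e₁ a e : k) (T : L → H ≃ₗᵢ[ℂ] H) (g : k → H ≃ₗᵢ[ℂ] H) : Prop where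
  /-- the characteristic -/
  chr : CharOK k e₁
  /-- the inverses span -/
  span : ∃ N0 : ℕ, ∀ B : Finset k, N0 ≤ B.card →
    Submodule.span k ((fun b : k => (xn σ e₁ a b)⁻¹) '' (B : Set k)) = ⊤
  /-- `e ≠ 0` -/
  ene : e ≠ 0
  /-- nonvanishing -/
  ne : ∀ b : k, xn σ e₁ a b ≠ 0
  /-- `σ ∉ k` -/
  notin : ∀ b : k, σ ≠ algebraMap k L b
  /-- additivity -/
  add : ∀ a b x, T (a + b) x = T a (T b x)
  /-- conjugation -/
  conj : ∀ b l x, g b (T l x) = T (xn σ e₁ a b / xn σ e₁ a 0 * l) (g b x)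
  /-- commutation -/
  comm : ∀ b c x, g c (g b x) =
    T (algebraMap k L (e * (c * b * (b - c))) / xn σ e₁ a 0) (g b (g c x))

/-- Completing the square. -/
theorem xn_eq_xx (h2 : (2 : k) ≠ 0) (σ : L) (e₁ a b : k) :
    xn σ e₁ a b = xx (σ + algebraMap k L (e₁ / 2)) (e₁ ^ 2 / 4 - a) b := by
  have h4 : (4 : k) ≠ 0 := by
    have : (4 : k) = 2 * 2 := by norm_num
    rw [this]
    exact mul_ne_zero h2 h2
  obtain ⟨f, hf⟩ : ∃ f : k, f = e₁ / 2 := ⟨_, rfl⟩
  have h1 : e₁ = 2 * f := by rw [hf]; field_simp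
  have h3 : e₁ ^ 2 / 4 = f ^ 2 := by
    rw [h1]
    field_simp
    ring
  rw [xn, xx, h3, ← hf, h1, map_mul, map_sub, map_pow, map_ofNat]
  ring

theorem xn_eq_xq [CharP k 2] (σ : L) (e₁ a b : k) :
    xn σ e₁ a b = xq (xn σ e₁ a 0) e₁ b := by
  have h2 : (2 : L) = 0 := by
    have := congrArg (algebraMap k L) (CharTwo.two_eq_zero (R := k))
    rwa [map_ofNat, map_zero] at this
  rw [xq, xn, xn, map_zero, map_add, map_mul, map_pow]
  linear_combination (σ * algebraMap k L b) * h2

variable [Infinite k] [CompleteSpace H] {σ : L} {e₁ a e : k} {T : L → H ≃ₗᵢ[ℂ] H}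
  {g : k → H ≃ₗᵢ[ℂ] H} {m : (k → ℝ) → ℝ}

/-- **One-step mixing, every characteristic.**  `m` a translation invariant mean on `k`;
`T : L → U(H)` additive, `g b T l = T (s_b l) g b`, `g c g b = T (e c b (b - c) / x_0) g b g c`.
If `F` is orthogonal to the `T`-invariant vectors, then the mean of `|⟨F, g b G⟩|` is `0`. -/
theorem omN_mean (D : DatN σ e₁ a e T g) (h : H722.IsMean m)
    (hinv : ∀ (b : k) (f), H722.Bdd f → m (fun x => f (x + b)) = m f)
    {F : H} (hF : ∀ y, (∀ l, T l y = y) → (inner ℂ y F : ℂ) = 0) (G : H) :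
    m (fun b => ‖(inner ℂ F (g b G) : ℂ)‖) = 0 := by
  rcases D.chr with h2 | ⟨h2, he₁, X, hX⟩
  · have hx := fun b => xn_eq_xx (L := L) h2 σ e₁ a b
    have D' : DatG (σ + algebraMap k L (e₁ / 2)) (e₁ ^ 2 / 4 - a) e T g :=
      { two := h2
        span := by
          have := D.span
          simpa only [hx] using this
        ene := D.ene
        ne := fun b => by
          have := D.ne b
          rwa [hx] at this
        notin := fun b h0 => D.notin (b - e₁ / 2) (by
          rw [map_sub, ← h0, add_sub_cancel_right])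
        add := D.add
        conj := fun b l x => by
          have := D.conj b l x
          rwa [hx, hx] at this
        comm := fun b c x => by
          have := D.comm b c x
          rwa [hx] at this }
    exact omG_mean D' h hinv hF G
  · have hchar : CharP k 2 := CharTwo.of_one_ne_zero_of_two_eq_zero one_ne_zero h2
    obtain ⟨x₀, hx₀⟩ : ∃ x₀, x₀ = xn σ e₁ a 0 := ⟨_, rfl⟩
    have hx : ∀ b, xn σ e₁ a b = xq x₀ e₁ b := fun b => by
      rw [hx₀]
      exact xn_eq_xq σ e₁ a b
    have hm := isMean_of h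
    have h1 := om2_core (L := L) hX hm hinv (x₀ := x₀) (e₁ := e₁) (e := e) he₁ D.ene
      (fun b => by rw [← hx]; exact D.ne b)
      (by
        have := D.span
        simpa only [hx] using this)
      (T := T) (g := g) D.add
      (fun b l x => by
        rw [← hx, ← hx]
        exact D.conj b l x)
      (fun b c x => by
        rw [← hx]
        exact D.comm b c x) hF G
    have hb := bdd_inner_unitary g F G
    have h3 := hm.sq_le hb
    rw [h1] at h3
    exact pow_eq_zero_iff (two_ne_zero) |>.1 (le_antisymm h3 (sq_nonneg _))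

end

end Vale.Agent.P011.H983
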