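import Vale.Agent.P011.H73.LineAbs
import Vale.Agent.P011.H983.OMN

/-!
# The abstract line theorem with one-step mixing plugged in, every characteristic

This is helper73's `H73/LineOm` with `DatN` (every characteristic) in place of `DatG`.
`DatNP` is the permutation form of `DatN`.
-/

namespace Vale.Agent.P011.H983

open scoped InnerProductSpace
open UniformSpace Filter Topology
open Vale.Agent.P011.H722
open Vale.Agent.P011.H73.Gns

variable {k L : Type*} [Field k] [Field L] [Algebra k L] {X : Type*}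

/-- The data of the one-step maps at the level of permutations of the set of points. -/
structure DatNP (σ : L) (e₁ a e : k) (T : L → Equiv.Perm X) (g : k → Equiv.Perm X) : Prop where
  /-- the characteristic -/
  chr : CharOK k e₁
  /-- the inverses span -/
  span : ∃ N0 : ℕ, ∀ B : Finset k, N0 ≤ B.card →
    Submodule.span k ((fun b : k => (xn σ e₁ a b)⁻¹) '' (B : Set k)) = ⊤
  /-- `e ≠ 0` -/
  ene : e ≠ 0
  /-- nonvanishing -/
  ne : ∀ b : k, xn σ e₁ a b ≠ 0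
  /-- `σ ∉ k` -/
  notin : ∀ b : k, σ ≠ algebraMap k L b
  /-- additivity -/
  add : ∀ a b, T (a + b) = T a * T b
  /-- conjugation -/
  conj : ∀ b l, g b * T l = T (xn σ e₁ a b / xn σ e₁ a 0 * l) * g b
  /-- commutation -/
  comm : ∀ b c, g c * g b =
    T (algebraMap k L (e * (c * b * (b - c))) / xn σ e₁ a 0) * (g b * g c)

/-- Permutation data preserving a mean give unitary data. -/
theorem DatNP.toDatN {σ : L} {e₁ a e : k} {T : L → Equiv.Perm X} {g : k → Equiv.Perm X}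
    (D : DatNP σ e₁ a e T g) (m : Mean X) (hT : ∀ l, T l ∈ m.Pres) (g' : k → m.Pres)
    (hg' : ∀ b, (g' b).1 = g b) :
    DatN σ e₁ a e (fun l => m.U ⟨T l, hT l⟩) (fun b => m.U (g' b)) where
  chr := D.chr
  span := D.span
  ene := D.ene
  ne := D.ne
  notin := D.notin
  add a b x := by
    have : (⟨T (a + b), hT (a + b)⟩ : m.Pres) = ⟨T a, hT a⟩ * ⟨T b, hT b⟩ :=
      Subtype.ext (D.add a b)
    rw [this, map_mul]
    rfl
  conj b l x := by
    have h : g' b * (⟨T l, hT l⟩ : m.Pres) = ⟨T (xn σ e₁ a b / xn σ e₁ a 0 * l), hT _⟩ * g' b := by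
      apply Subtype.ext
      change (g' b).1 * T l = T _ * (g' b).1
      rw [hg', D.conj]
    have h2 := congrArg (fun φ => m.U φ x) h
    simp only [map_mul] at h2
    exact h2
  comm b c x := by
    have h : g' c * g' b
        = (⟨T (algebraMap k L (e * (c * b * (b - c))) / xn σ e₁ a 0), hT _⟩ : m.Pres)
          * (g' b * g' c) := by
      apply Subtype.ext
      change (g' c).1 * (g' b).1 = T _ * ((g' b).1 * (g' c).1)
      rw [hg', hg', D.comm]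
    calc m.U (g' c) (m.U (g' b) x) = m.U (g' c * g' b) x := by rw [m.U.map_mul]; rfl
      _ = m.U (⟨T (algebraMap k L (e * (c * b * (b - c))) / xn σ e₁ a 0), hT _⟩
          * (g' b * g' c)) x := by rw [h]
      _ = _ := by rw [m.U.map_mul, m.U.map_mul]; rfl

/-- One-step mixing for permutation data. -/
theorem DatNP.mixing [Infinite k] {σ : L} {e₁ a e : k} {T : L → Equiv.Perm X} {g : k → Equiv.Perm X}
    (D : DatNP σ e₁ a e T g) {mk : (k → ℝ) → ℝ} (hmk : IsMean mk)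
    (hinv : ∀ (b : k) (F : k → ℝ), mk (fun x => F (x + b)) = mk F) (m : Mean X)
    (g' : k → m.Pres) (hT : ∀ τ ∈ Set.range T, τ ∈ m.Pres) (hg' : ∀ b, (g' b).1 = g b) :
    Mixing m mk (Set.range T) g' := by
  intro F hF G ε hε
  have hT' : ∀ l, T l ∈ m.Pres := fun l => hT _ ⟨l, rfl⟩
  have h1 := omN_mean (D.toDatN m hT' g' hg') hmk (fun b f _ => hinv b f)
    (F := F) (fun y hy => by
      have hy' : y ∈ m.Inv (Set.range T) := by
        rintro τ ⟨l, hl⟩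
        have : τ = ⟨T l, hT' l⟩ := Subtype.ext hl.symm
        rw [this]
        exact hy l
      rw [← inner_conj_symm, hF y hy', map_zero]) G
  have hb : Bdd (fun b => ‖(⟪F, m.U (g' b) G⟫_ℂ)‖) := by
    refine ⟨‖F‖ * ‖G‖, fun b => ?_⟩
    rw [abs_of_nonneg (norm_nonneg _)]
    refine (norm_inner_le_norm _ _).trans ?_
    rw [LinearIsometryEquiv.norm_map]
  have h2 := hmk.mset_ge_le hb (fun b => norm_nonneg _) hε
  rw [h1, zero_div] at h2
  exact le_antisymm h2 (hmk.mset_nonneg _)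

/-- **The line theorem at the level of permutations, with P3 plugged in.**  `σ b₀` is the image in
`L` of the base point `σ + b₀`, `TT l` the translation by `l ∈ L`, `gp b₀`, `gm b₀` the two
families of one-step maps, `Wk b₀ b` and `wt b₀ b` the multiplication by `κ_b` and the conjugation
by `t'/t`. -/
theorem line_perm_omN [Infinite k] {Q : Type*} [Group Q] [Fintype Q] {P : Subgroup Q}
    (hP : P.Normal) (hP2 : ∀ (r s : Q) (D : Q → Q → ℝ), Commute r s → PairLaw P r s D →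
      (r = 1 ↔ s = 1))
    {col : X → Q} {f : k → Q} (hf : ∀ b b', Commute (f b) (f b'))
    {PE : Subgroup (Equiv.Perm X)} {TT : L → Equiv.Perm X} (hTT : ∀ l, TT l ∈ PE)
    {Lt Tk : k → Equiv.Perm X}
    (hLt : ∀ b x, col (Lt b x) = f b * col x)
    (hTk : ∀ b x, Commute (col x) (col (Tk b x)))
    {gp gm Wk wt : k → k → Equiv.Perm X}
    (hWk : ∀ b₀ b, Wk b₀ b ∈ PE) (hwt : ∀ b₀ b, wt b₀ b ∈ PE)
    (hg : ∀ b₀ b, ∃ l, gp b₀ b = TT l * Wk b₀ b)
    (hgm : ∀ b₀ b, ∃ l, gm b₀ b = TT l * wt b₀ b * Wk b₀ b)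
    (hrel : ∀ b₀ b, Tk b * Lt b₀ = Lt (b₀ + b) * gp b₀ b)
    (hrelm : ∀ b₀ b, Tk (-b) * (Lt b₀)⁻¹ = (Lt (b₀ + b))⁻¹ * gm b₀ b)
    (hwt1 : ∀ b₀ b l, ∃ l', wt b₀ b * TT l * (wt b₀ b)⁻¹ = TT l')
    (hwt2 : ∀ b₀ b l, ∃ l', (wt b₀ b)⁻¹ * TT l * wt b₀ b = TT l')
    (hcol : ∀ b₀ b x, col (wt b₀ b x)
      = f (b₀ + b) * (f b₀)⁻¹ * col x * (f (b₀ + b) * (f b₀)⁻¹)⁻¹)
    (hmean : ∀ b₀ : k, ∃ l : (X → ℝ) → ℝ, IsMean l ∧
      (∀ π ∈ PE, ∀ F : X → ℝ, Bdd F → l (fun x => F (π x)) = l F) ∧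
      (∀ b, ∀ ρ ∈ P, ∀ a a' : Q,
        mset l {x | col (Lt b₀ x) = ρ * a * ρ⁻¹ ∧ col (Tk b (Lt b₀ x)) = ρ * a' * ρ⁻¹}
        = mset l {x | col (Lt b₀ x) = a ∧ col (Tk b (Lt b₀ x)) = a'}) ∧
      (∀ b, ∀ ρ ∈ P, ∀ a a' : Q,
        mset l {x | col ((Lt b₀)⁻¹ x) = ρ * a * ρ⁻¹ ∧ col (Tk b ((Lt b₀)⁻¹ x)) = ρ * a' * ρ⁻¹}
        = mset l {x | col ((Lt b₀)⁻¹ x) = a ∧ col (Tk b ((Lt b₀)⁻¹ x)) = a'}))
    {σ : k → L} {e₁ a : k} {ep em : k}
    (hDp : ∀ b₀, DatNP (σ b₀) e₁ a ep TT (gp b₀))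
    (hDm : ∀ b₀, DatNP (σ b₀) e₁ a em TT (gm b₀))
    {b₀ : k} (hb₀ : f b₀ = 1) (b : k) : f b = 1 := by
  obtain ⟨mk, hmk, hinv, -⟩ := exists_symm_mean k
  refine line_perm hP hP2 hf hmk hinv (PE := PE) (S := Set.range TT)
    (by rintro τ ⟨l, rfl⟩; exact hTT l) hLt hTk hWk hwt
    (fun b₀ b => ?_) (fun b₀ b => ?_) hrel hrelm ?_ ?_ hcol hmean
    (fun b₀ m g' hS hg' => (hDp b₀).mixing hmk hinv m g' hS hg')
    (fun b₀ m g' hS hg' => (hDm b₀).mixing hmk hinv m g' hS hg') hb₀ b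
  · obtain ⟨l, hl⟩ := hg b₀ b
    exact ⟨TT l, ⟨l, rfl⟩, hl⟩
  · obtain ⟨l, hl⟩ := hgm b₀ b
    exact ⟨TT l, ⟨l, rfl⟩, hl⟩
  · rintro b₀ b τ ⟨l, rfl⟩
    obtain ⟨l', hl'⟩ := hwt1 b₀ b l
    exact ⟨l', hl'.symm⟩
  · rintro b₀ b τ ⟨l, rfl⟩
    obtain ⟨l', hl'⟩ := hwt2 b₀ b l
    exact ⟨l', hl'.symm⟩

end Vale.Agent.P011.H983
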