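import Vale.Agent.P011.H983.Halves
import Vale.Agent.P011.H167.GenPos

/-!
Families of quadratic polynomials `h² B_j + h A_j + C_j` over `F_q[t]`, `q` even.  Each
`χ (h² B_j + h A_j)` is an additive character of `h`, hence the exponential sum is zero unless this
character is trivial.  If the vectors `(ev B_j, od B_j, A_j)` are in general position, a character
which is not trivial on `Q • {deg < Y}^κ`, `Y ≤ 2 l - O(1)`, has a nonzero sum for fewer than
`3 |κ|` of the indices `j`.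
-/

open Polynomial Module

set_option linter.unusedSectionVars false

noncomputable section

namespace Vale.Agent.P011.H983

open Vale.Agent.P011.H167

variable {F : Type*} [Field F] [Fintype F] [CharP F 2]

section One

variable {V : Type*} [AddCommGroup V] [Module F[X] V]

/-- The additive character `h ↦ χ (h² B + h A)`. -/
def quadChar (χ : AddChar V ℂ) (B A : V) (l : ℕ) : AddChar (degreeLT F l) ℂ where
  toFun h := χ (((h : F[X]) ^ 2) • B + (h : F[X]) • A)
  map_zero_eq_one' := by simp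
  map_add_eq_mul' a b := by
    rw [← AddChar.map_add_eq_mul]
    congr 1
    push_cast
    rw [add_sq2, add_smul, add_smul]
    abel

theorem quadChar_apply (χ : AddChar V ℂ) (B A : V) (l : ℕ) (h : degreeLT F l) :
    quadChar χ B A l h = χ (((h : F[X]) ^ 2) • B + (h : F[X]) • A) := rfl

/-- A nonzero quadratic sum forces the triviality of the character `h ↦ χ (h² B + h A)`. -/
theorem char_eq_one_of_qSum_ne_zero (χ : AddChar V ℂ) (B A C : V) {l : ℕ}
    (h0 : qSum F χ B A C l ≠ 0) {h : F[X]} (hh : h ∈ degreeLT F l) :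
    χ ((h ^ 2) • B + h • A) = 1 := by
  classical
  have h1 : qSum F χ B A C l = (∑ h : degreeLT F l, quadChar χ B A l h) * χ C := by
    rw [qSum, Finset.sum_mul]
    refine Finset.sum_congr rfl fun h _ => ?_
    rw [quadChar_apply, ← AddChar.map_add_eq_mul]
  have h2 : quadChar χ B A l = (0 : AddChar (degreeLT F l) ℂ) := by
    by_contra hne
    apply h0
    rw [h1, AddChar.sum_eq_zero_of_ne_one (ψ := quadChar χ B A l) hne, zero_mul]
  have h3 := DFunLike.congr_fun h2 (⟨h, hh⟩ : degreeLT F l)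
  rw [quadChar_apply, AddChar.zero_apply] at h3
  exact h3

end One

variable {κ ι : Type*} [Fintype κ] [DecidableEq κ] [Fintype ι]

/-- The row `(ev B_j, od B_j, A_j)`. -/
def row2 (B A : ι → κ → F[X]) (j : ι) : κ ⊕ κ ⊕ κ → F[X] :=
  Sum.elim (fun k => ev (B j k)) (Sum.elim (fun k => od (B j k)) (fun k => A j k))

/-- The matrix with rows `(ev B_j, od B_j, A_j)`, `j = e i`. -/
def bMat2 (B A : ι → κ → F[X]) (e : κ ⊕ κ ⊕ κ ↪ ι) : Matrix (κ ⊕ κ ⊕ κ) (κ ⊕ κ ⊕ κ) F[X] :=
  Matrix.of fun i => row2 B A (e i)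

/-- The identity behind the linking step. -/
theorem link_identity {ν : Type*} [Fintype ν] (B A : ν → κ → F[X]) (p : ν → F[X]) (D : F[X])
    (x : κ → F[X])
    (h1 : ∀ k, ∑ i, p i * ev (B i k) = D * ev (x k))
    (h2 : ∀ k, ∑ i, p i * od (B i k) = D * od (x k))
    (h3 : ∀ k, ∑ i, p i * A i k = 0) :
    (D ^ 2) • x = ∑ i, ((p i ^ 2) • B i + p i • A i) := by
  funext k
  rw [Pi.smul_apply, smul_eq_mul, Finset.sum_apply]
  have h4 : ∀ i, ((p i ^ 2) • B i + p i • A i) k =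
      (p i * ev (B i k)) ^ 2 + X * (p i * od (B i k)) ^ 2 + p i * A i k := by
    intro i
    rw [Pi.add_apply, Pi.smul_apply, Pi.smul_apply, smul_eq_mul, smul_eq_mul]
    nth_rewrite 1 [halves (B i k)]
    ring
  rw [Finset.sum_congr rfl fun i _ => h4 i, Finset.sum_add_distrib, Finset.sum_add_distrib, h3,
    add_zero, ← Finset.mul_sum, ← sum_sq2, ← sum_sq2, h1, h2]
  nth_rewrite 1 [halves (x k)]
  ring

/-- The inverse theorem for a family in general position, characteristic two. -/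
theorem card_large_qSum_lt2 (B A : ι → κ → F[X])
    (hB : ∀ e : κ ⊕ κ ⊕ κ ↪ ι, (bMat2 B A e).det ≠ 0) :
    ∃ (Q : F[X]) (c : ℕ), Q ≠ 0 ∧ ∀ l Y : ℕ, Y + c ≤ 2 * l → ∀ (C : ι → κ → F[X])
      (χ : AddChar (κ → F[X]) ℂ), (∃ x : κ → F[X], (∀ k, x k ∈ degreeLT F Y) ∧ χ (Q • x) ≠ 1) →
      ∀ S : Finset ι, (∀ j ∈ S, qSum F χ (B j) (A j) (C j) l ≠ 0) →
        S.card < 3 * Fintype.card κ := by
  classical
  obtain ⟨D, hD⟩ : ∃ D, D = ∏ e : κ ⊕ κ ⊕ κ ↪ ι, (bMat2 B A e).det := ⟨_, rfl⟩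
  have hD0 : D ≠ 0 := by
    rw [hD, Finset.prod_ne_zero_iff]
    exact fun e _ => hB e
  obtain ⟨a, ha⟩ : ∃ a, a = ∑ e : κ ⊕ κ ⊕ κ ↪ ι, ∑ k : κ ⊕ κ ⊕ κ, ∑ i : κ ⊕ κ ⊕ κ,
      ((bMat2 B A e).adjugate k i).natDegree := ⟨_, rfl⟩
  have hale : ∀ (e : κ ⊕ κ ⊕ κ ↪ ι) (k i : κ ⊕ κ ⊕ κ),
      ((bMat2 B A e).adjugate k i).natDegree ≤ a := by
    intro e k i
    rw [ha]
    refine le_trans ?_ (Finset.single_le_sum
      (f := fun e => ∑ k : κ ⊕ κ ⊕ κ, ∑ i : κ ⊕ κ ⊕ κ, ((bMat2 B A e).adjugate k i).natDegree)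
      (fun _ _ => Nat.zero_le _) (Finset.mem_univ e))
    refine le_trans ?_ (Finset.single_le_sum
      (f := fun k => ∑ i : κ ⊕ κ ⊕ κ, ((bMat2 B A e).adjugate k i).natDegree)
      (fun _ _ => Nat.zero_le _) (Finset.mem_univ k))
    exact Finset.single_le_sum (f := fun i => ((bMat2 B A e).adjugate k i).natDegree)
      (fun _ _ => Nat.zero_le _) (Finset.mem_univ i)
  refine ⟨D ^ 2, 2 * (D.natDegree + a) + 1, pow_ne_zero 2 hD0, ?_⟩
  rintro l Y hY C χ ⟨x, hx, hχ⟩ S hS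
  by_contra hcon
  push Not at hcon
  have hcard : Fintype.card (κ ⊕ κ ⊕ κ) = 3 * Fintype.card κ := by
    rw [Fintype.card_sum, Fintype.card_sum]
    ring
  have hemb : Nonempty (κ ⊕ κ ⊕ κ ↪ S) := by
    apply Function.Embedding.nonempty_of_card_le
    rw [Fintype.card_coe, hcard]
    exact hcon
  obtain ⟨e'⟩ := hemb
  obtain ⟨e, he⟩ : ∃ e : κ ⊕ κ ⊕ κ ↪ ι, e = e'.trans (Function.Embedding.subtype _) := ⟨_, rfl⟩
  have heS : ∀ i, e i ∈ S := by
    intro i
    rw [he]
    exact (e' i).2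
  obtain ⟨D', hD'⟩ : (bMat2 B A e).det ∣ D := by
    rw [hD]
    exact Finset.dvd_prod_of_mem (fun e => (bMat2 B A e).det) (Finset.mem_univ e)
  have hD'0 : D' ≠ 0 := by
    rintro rfl
    rw [mul_zero] at hD'
    exact hD0 hD'
  have hD'deg : D'.natDegree ≤ D.natDegree := by
    rw [hD', natDegree_mul (hB e) hD'0]
    omega
  obtain ⟨z, hz⟩ : ∃ z : κ ⊕ κ ⊕ κ → F[X],
    z = Sum.elim (fun k => ev (x k)) (Sum.elim (fun k => od (x k)) fun _ => 0) := ⟨_, rfl⟩
  have hzdeg : ∀ k, z k ∈ degreeLT F ((Y + 1) / 2) := by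
    have hx' : ∀ k, x k ∈ degreeLT F (2 * ((Y + 1) / 2)) := fun k =>
      degreeLT_mono (by omega) (hx k)
    intro k
    rw [hz]
    rcases k with k | k | k
    · exact ev_mem (hx' k)
    · exact od_mem (hx' k)
    · exact zero_mem _
  obtain ⟨p, hp⟩ : ∃ p : κ ⊕ κ ⊕ κ → F[X],
    p = fun i => (Matrix.vecMul z (bMat2 B A e).adjugate) i * D' := ⟨_, rfl⟩
  have hmem : ∀ i, p i ∈ degreeLT F l := by
    intro i
    have h1 : p i ∈ degreeLT F ((Y + 1) / 2 + a + D.natDegree) := by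
      rw [hp]
      refine mul_mem_degreeLT ?_ hD'deg
      rw [Matrix.vecMul, dotProduct]
      refine Submodule.sum_mem _ fun k _ => ?_
      exact mul_mem_degreeLT (hzdeg k) (hale e k i)
    exact degreeLT_mono (by omega) h1
  have hpM : ∀ c, ∑ i, p i * bMat2 B A e i c = D * z c := by
    intro c
    have h4 : Matrix.vecMul (Matrix.vecMul z (bMat2 B A e).adjugate) (bMat2 B A e) =
        (bMat2 B A e).det • z := by
      rw [Matrix.vecMul_vecMul, Matrix.adjugate_mul, Matrix.vecMul_smul, Matrix.vecMul_one]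
    have h5 := congrFun h4 c
    rw [Matrix.vecMul, dotProduct, Pi.smul_apply, smul_eq_mul] at h5
    rw [hD', show (bMat2 B A e).det * D' * z c = (bMat2 B A e).det * z c * D' by ring, ← h5,
      Finset.sum_mul, hp]
    exact Finset.sum_congr rfl fun i _ => by ring
  have hexp : (D ^ 2) • x = ∑ i, ((p i ^ 2) • B (e i) + p i • A (e i)) := by
    apply link_identity (fun i => B (e i)) (fun i => A (e i)) p D x
    · intro k
      have := hpM (Sum.inl k)
      rw [hz] at this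
      exact this
    · intro k
      have := hpM (Sum.inr (Sum.inl k))
      rw [hz] at this
      exact this
    · intro k
      have := hpM (Sum.inr (Sum.inr k))
      rw [hz] at this
      exact this.trans (mul_zero D)
  apply hχ
  rw [hexp]
  refine Finset.sum_induction _ (fun v => χ v = 1)
    (fun v w hv hw => by rw [AddChar.map_add_eq_mul, hv, hw, one_mul])
    (AddChar.map_zero_eq_one χ) fun i _ => ?_
  exact char_eq_one_of_qSum_ne_zero χ (B (e i)) (A (e i)) (C (e i)) (hS _ (heS i)) (hmem i)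

theorem norm_qSum_le {V : Type*} [AddCommGroup V] [Module F[X] V] (χ : AddChar V ℂ) (B A C : V)
    (l : ℕ) : ‖qSum F χ B A C l‖ ≤ (Fintype.card F : ℝ) ^ l := by
  rw [qSum]
  refine (norm_sum_le _ _).trans ?_
  simp_rw [norm_char F]
  rw [Finset.sum_const, Finset.card_univ, card_degreeLT, nsmul_eq_mul, mul_one]
  push_cast
  exact le_rfl

/-- The averaged form: the sum over the family of the normalised exponential sums is at most
`3 |κ|` at all characters which are not trivial on `Q • {deg < Y}^κ`. -/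
theorem sum_qSum_le2 (B A : ι → κ → F[X])
    (hB : ∀ e : κ ⊕ κ ⊕ κ ↪ ι, (bMat2 B A e).det ≠ 0) :
    ∃ (Q : F[X]) (c : ℕ), Q ≠ 0 ∧ ∀ l Y : ℕ, Y + c ≤ 2 * l → ∀ (C : ι → κ → F[X])
      (χ : AddChar (κ → F[X]) ℂ), (∃ x : κ → F[X], (∀ k, x k ∈ degreeLT F Y) ∧ χ (Q • x) ≠ 1) →
      ∑ j, ‖qSum F χ (B j) (A j) (C j) l‖ ≤
        3 * Fintype.card κ * (Fintype.card F : ℝ) ^ l := by
  classical
  obtain ⟨Q, c, hQ, h⟩ := card_large_qSum_lt2 B A hB
  refine ⟨Q, c, hQ, fun l Y hY C χ hχ => ?_⟩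
  obtain ⟨S, hS⟩ : ∃ S : Finset ι, S = Finset.univ.filter
    fun j => qSum F χ (B j) (A j) (C j) l ≠ 0 := ⟨_, rfl⟩
  have h1 : S.card < 3 * Fintype.card κ := h l Y hY C χ hχ S fun j hj => by
    rw [hS, Finset.mem_filter] at hj
    exact hj.2
  have hq : (0 : ℝ) < (Fintype.card F : ℝ) ^ l := by
    have : (0 : ℝ) < Fintype.card F := by exact_mod_cast Fintype.card_pos
    positivity
  have h2 : ∑ j, ‖qSum F χ (B j) (A j) (C j) l‖ = ∑ j ∈ S, ‖qSum F χ (B j) (A j) (C j) l‖ := by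
    symm
    apply Finset.sum_subset (Finset.subset_univ S)
    intro j _ hj
    rw [hS, Finset.mem_filter] at hj
    have : qSum F χ (B j) (A j) (C j) l = 0 := by
      by_contra hne
      exact hj ⟨Finset.mem_univ j, hne⟩
    rw [this, norm_zero]
  rw [h2]
  calc ∑ j ∈ S, ‖qSum F χ (B j) (A j) (C j) l‖ ≤ ∑ _j ∈ S, (Fintype.card F : ℝ) ^ l :=
        Finset.sum_le_sum fun j _ => norm_qSum_le χ (B j) (A j) (C j) l
    _ = S.card * (Fintype.card F : ℝ) ^ l := by rw [Finset.sum_const, nsmul_eq_mul]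
    _ ≤ 3 * Fintype.card κ * (Fintype.card F : ℝ) ^ l := by
        refine mul_le_mul_of_nonneg_right ?_ hq.le
        exact_mod_cast h1.le

end Vale.Agent.P011.H983
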