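import Vale.Agent.P011.H983.GenPos2
import Vale.Agent.P011.H983.Link2

/-!
The fraction field `K` of `F[X]`, `F` perfect of characteristic two: `TwoBasis K X`, continuity of
the halves at infinity, and the determinants of `Link2` from general position over `K`.
-/

open Polynomial Module

set_option linter.unusedSectionVars false

noncomputable section

namespace Vale.Agent.P011.H983

section basis

variable {F : Type*} [Field F] [CharP F 2] [PerfectRing F 2] {K : Type*} [Field K]
  [Algebra F[X] K] [IsFractionRing F[X] K]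

theorem twoBasis_X (F : Type*) [Field F] [CharP F 2] [PerfectRing F 2] (K : Type*) [Field K]
    [Algebra F[X] K] [IsFractionRing F[X] K] : TwoBasis K (algebraMap F[X] K X) where
  ex s := by
    obtain ⟨n, d, hd, rfl⟩ := IsFractionRing.div_surjective (A := F[X]) s
    have hd0 : algebraMap F[X] K d ≠ 0 := by
      rw [Ne, FaithfulSMul.algebraMap_eq_zero_iff]
      exact nonZeroDivisors.ne_zero hd
    refine ⟨algebraMap F[X] K (ev (n * d)) / algebraMap F[X] K d,
      algebraMap F[X] K (od (n * d)) / algebraMap F[X] K d, ?_⟩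
    have h1 : algebraMap F[X] K n * algebraMap F[X] K d = algebraMap F[X] K (ev (n * d)) ^ 2 +
        algebraMap F[X] K X * algebraMap F[X] K (od (n * d)) ^ 2 := by
      rw [← map_mul, ← map_pow, ← map_pow, ← map_mul, ← map_add]
      exact congrArg _ (halves (n * d))
    field_simp
    exact h1
  ns s := by
    intro h
    obtain ⟨n, d, hd, rfl⟩ := IsFractionRing.div_surjective (A := F[X]) s
    have hd0 : d ≠ 0 := nonZeroDivisors.ne_zero hd
    have hdK : algebraMap F[X] K d ≠ 0 := by
      rwa [Ne, FaithfulSMul.algebraMap_eq_zero_iff]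
    rw [div_pow, div_eq_iff (pow_ne_zero 2 hdK), ← map_pow, ← map_pow, ← map_mul] at h
    have h1 : n ^ 2 = X * d ^ 2 := IsFractionRing.injective F[X] K h
    have hn0 : n ≠ 0 := by
      rintro rfl
      have h2 : X * d ^ 2 = 0 := by rw [← h1]; ring
      rcases mul_eq_zero.1 h2 with h3 | h3
      · exact X_ne_zero h3
      · exact pow_ne_zero 2 hd0 h3
    have h2 := congrArg natDegree h1
    rw [natDegree_pow, natDegree_mul X_ne_zero (pow_ne_zero 2 hd0), natDegree_pow,
      natDegree_X] at h2
    omega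

variable [CharP K 2]

theorem evK_algebraMap (f : F[X]) :
    evK (twoBasis_X F K) (algebraMap F[X] K f) = algebraMap F[X] K (ev f) := by
  apply evK_eq (twoBasis_X F K) (v := algebraMap F[X] K (od f))
  rw [← map_pow, ← map_pow, ← map_mul, ← map_add]
  exact congrArg _ (halves f)

theorem odK_algebraMap (f : F[X]) :
    odK (twoBasis_X F K) (algebraMap F[X] K f) = algebraMap F[X] K (od f) := by
  apply odK_eq (twoBasis_X F K) (u := algebraMap F[X] K (ev f))
  rw [← map_pow, ← map_pow, ← map_mul, ← map_add]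
  exact congrArg _ (halves f)

end basis

section cont

variable {K : Type*} [Field K] [CharP K 2] {X : K} (hX : TwoBasis K X)

/-- Continuity of the halves for a nonarchimedean absolute value with value group generated
by `|X| > 1`. -/
theorem halfCont_of (a : AbsoluteValue K ℝ) (hna : ∀ x y, a (x + y) ≤ max (a x) (a y))
    (h1 : 1 < a X) (hval : ∀ x : K, x ≠ 0 → ∃ i : ℤ, a x = a X ^ i) : HalfCont hX a := by
  have hlt : ∀ x y : K, a x < a y → a y ≤ a (x + y) := by
    intro x y hxy
    have h2 := hna (x + y) (-x)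
    rw [show x + y + -x = y by ring, a.map_neg] at h2
    rcases le_max_iff.1 h2 with h3 | h3
    · exact h3
    · exact absurd h3 (not_le.2 hxy)
  have h0 : (0 : ℝ) < a X := lt_trans one_pos h1
  -- the main inequality
  have hmain : ∀ u v : K, a (u ^ 2) ≤ a (u ^ 2 + X * v ^ 2) ∧
      a (X * v ^ 2) ≤ a (u ^ 2 + X * v ^ 2) := by
    intro u v
    by_cases hu : u = 0
    · subst hu
      simp only [ne_eq, OfNat.ofNat_ne_zero, not_false_eq_true, zero_pow, map_zero, zero_add,
        le_refl, and_true]
      exact a.nonneg _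
    by_cases hv : v = 0
    · subst hv
      simp only [ne_eq, OfNat.ofNat_ne_zero, not_false_eq_true, zero_pow, mul_zero, map_zero,
        add_zero, le_refl, true_and]
      exact a.nonneg _
    obtain ⟨i, hi⟩ := hval u hu
    obtain ⟨j, hj⟩ := hval v hv
    have h2 : a (u ^ 2) = a X ^ (2 * i) := by
      rw [map_pow, hi, ← zpow_natCast, ← zpow_mul, mul_comm]
      rfl
    have h3 : a (X * v ^ 2) = a X ^ (2 * j + 1) := by
      rw [map_mul, map_pow, hj, ← zpow_natCast, ← zpow_mul, mul_comm, mul_comm j,
        zpow_add_one₀ h0.ne']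
      rfl
    have h4 : a (u ^ 2) ≠ a (X * v ^ 2) := by
      rw [h2, h3]
      intro h5
      have := zpow_right_injective₀ h0 h1.ne' h5
      omega
    rcases lt_or_gt_of_ne h4 with h5 | h5
    · have h6 := hlt _ _ h5
      exact ⟨h5.le.trans h6, h6⟩
    · have h6 := hlt _ _ h5
      rw [add_comm] at h6
      exact ⟨h6, h5.le.trans h6⟩
  refine ⟨1, one_pos, fun s => ?_⟩
  obtain ⟨h2, h3⟩ := hmain (evK hX s) (odK hX s)
  rw [← evod hX s] at h2 h3
  rw [one_mul]
  refine ⟨by rwa [map_pow] at h2, ?_⟩
  rw [map_mul, map_pow] at h3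
  have h4 : 1 * a (odK hX s) ^ 2 ≤ a X * a (odK hX s) ^ 2 :=
    mul_le_mul_of_nonneg_right h1.le (by positivity)
  linarith

end cont

section det

variable {F : Type*} [Field F] [Fintype F] [CharP F 2] {K : Type*} [Field K] [CharP K 2]
  [Algebra F[X] K] [IsFractionRing F[X] K] {κ ι : Type*} [Fintype κ] [DecidableEq κ]

/-- General position over the fraction field gives the hypothesis of `card_large_qSum_lt2`. -/
theorem det_ne_zero_of_indep (σ : ι → κ → K) (A B : ι → κ → F[X]) {M : F[X]} (hM : M ≠ 0)
    (hA : ∀ j k, algebraMap F[X] K (A j k) = algebraMap F[X] K M * σ j k)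
    (hB : ∀ j k, B j k = M * A j k)
    (hind : ∀ S : Finset ι, S.card ≤ 3 * Fintype.card κ →
      LinearIndepOn K (fun j => Phi (twoBasis_X F K) (σ j)) S)
    (e : κ ⊕ κ ⊕ κ ↪ ι) : (bMat2 B A e).det ≠ 0 := by
  classical
  have hMK : algebraMap F[X] K M ≠ 0 := by
    rwa [Ne, FaithfulSMul.algebraMap_eq_zero_iff]
  have hBK : ∀ j k, algebraMap F[X] K (B j k) = algebraMap F[X] K M ^ 2 * σ j k := by
    intro j k
    rw [hB, map_mul, hA]
    ring
  have hrow : ∀ j c, algebraMap F[X] K (row2 B A j c) =
      algebraMap F[X] K M * Phi (twoBasis_X F K) (σ j) c := by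
    intro j c
    rcases c with k | k | k
    · change algebraMap F[X] K (ev (B j k)) = _ * evK (twoBasis_X F K) (σ j k)
      rw [← evK_algebraMap, hBK, evK_sq_mul]
    · change algebraMap F[X] K (od (B j k)) = _ * odK (twoBasis_X F K) (σ j k)
      rw [← odK_algebraMap, hBK, odK_sq_mul]
    · exact hA j k
  have hcard : Fintype.card (κ ⊕ κ ⊕ κ) = 3 * Fintype.card κ := by
    rw [Fintype.card_sum, Fintype.card_sum]
    ring
  have h1 : LinearIndependent K fun i : κ ⊕ κ ⊕ κ => Phi (twoBasis_X F K) (σ (e i)) := by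
    have h2 := hind (Finset.univ.map e) (by rw [Finset.card_map, Finset.card_univ, hcard])
    have h3 : Set.range e = ((Finset.univ.map e : Finset ι) : Set ι) := by
      simp
    rw [← h3] at h2
    exact (linearIndepOn_range_iff e.injective _).1 h2
  intro h0
  have h2 : (Matrix.of fun i : κ ⊕ κ ⊕ κ => Phi (twoBasis_X F K) (σ (e i))).det ≠ 0 := by
    have h3 := (Matrix.linearIndependent_rows_iff_isUnit
      (A := Matrix.of fun i : κ ⊕ κ ⊕ κ => Phi (twoBasis_X F K) (σ (e i)))).1 h1
    rw [Matrix.isUnit_iff_isUnit_det] at h3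
    exact h3.ne_zero
  apply h2
  have h3 : (bMat2 B A e).map (algebraMap F[X] K) = algebraMap F[X] K M •
      (Matrix.of fun i : κ ⊕ κ ⊕ κ => Phi (twoBasis_X F K) (σ (e i))) := by
    ext i c
    exact hrow (e i) c
  have h4 : algebraMap F[X] K (bMat2 B A e).det =
      (algebraMap F[X] K M) ^ Fintype.card (κ ⊕ κ ⊕ κ) *
        (Matrix.of fun i : κ ⊕ κ ⊕ κ => Phi (twoBasis_X F K) (σ (e i))).det := by
    rw [← Matrix.det_smul, ← h3]
    exact RingHom.map_det _ _
  rw [h0, map_zero] at h4
  exact (mul_eq_zero.1 h4.symm).resolve_left (pow_ne_zero _ hMK)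

end det

end Vale.Agent.P011.H983
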