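import Vale.Agent.P011.H983.OMN
import Vale.Agent.P011.H983.TwoBasisX
import Vale.Agent.P011.H271.GF

/-!
# 2-bases of global function fields

A 2-basis `{X}` of `K` is a 2-basis of every separable extension of `K`; in particular every
global function field of characteristic two has a 2-basis with one element.
-/

open Polynomial

namespace Vale.Agent.P011.H983

noncomputable section

/-- The elements `u² + X v²` form a subring. -/
def sqRing {k : Type*} [Field k] [CharP k 2] (X : k) : Subring k where
  carrier := {s | ∃ u v, s = u ^ 2 + X * v ^ 2}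
  zero_mem' := ⟨0, 0, by ring⟩
  one_mem' := ⟨1, 0, by ring⟩
  add_mem' := by
    rintro _ _ ⟨u, v, rfl⟩ ⟨u', v', rfl⟩
    refine ⟨u + u', v + v', ?_⟩
    rw [CharTwo.add_sq, CharTwo.add_sq]
    ring
  neg_mem' := by
    rintro _ ⟨u, v, rfl⟩
    exact ⟨u, v, CharTwo.neg_eq _⟩
  mul_mem' := by
    rintro _ _ ⟨u, v, rfl⟩ ⟨u', v', rfl⟩
    refine ⟨u * u' + X * v * v', u * v' + u' * v, ?_⟩
    rw [CharTwo.add_sq, CharTwo.add_sq]
    ring

/-- A 2-basis of `K` is a 2-basis of every separable extension. -/
theorem TwoBasis.of_separable {K k : Type*} [Field K] [Field k] [Algebra K k] [CharP K 2]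
    [Algebra.IsSeparable K k] {X : K} (hX : TwoBasis K X) : TwoBasis k (algebraMap K k X) := by
  have hk : CharP k 2 := charP_of_injective_algebraMap (algebraMap K k).injective 2
  have hadj : ∀ s : k, IntermediateField.adjoin K {s} = IntermediateField.adjoin K {s ^ 2} :=
    fun s => IntermediateField.adjoin_simple_eq_adjoin_pow_expChar_of_isSeparable K k
      (Algebra.IsSeparable.isSeparable K s) 2
  refine ⟨fun s => ?_, fun a ha => ?_⟩
  · have h1 : s ∈ Algebra.adjoin K {s ^ 2} := by
      have h2 : s ∈ IntermediateField.adjoin K {s ^ 2} := by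
        rw [← hadj]
        exact IntermediateField.mem_adjoin_simple_self K s
      rw [← IntermediateField.mem_toSubalgebra,
        IntermediateField.adjoin_simple_toSubalgebra_of_isAlgebraic
          (Algebra.IsAlgebraic.isAlgebraic (s ^ 2))] at h2
      exact h2
    have h3 : ∀ y ∈ Algebra.adjoin K {s ^ 2}, y ∈ sqRing (algebraMap K k X) := by
      intro y hy
      induction hy using Algebra.adjoin_induction with
      | mem y hy =>
        rw [Set.mem_singleton_iff] at hy
        rw [hy]
        exact ⟨s, 0, by ring⟩
      | algebraMap c =>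
        obtain ⟨u, v, huv⟩ := hX.ex c
        exact ⟨algebraMap K k u, algebraMap K k v, by
          rw [huv, map_add, map_mul, map_pow, map_pow]⟩
      | add a b _ _ ha hb => exact add_mem ha hb
      | mul a b _ _ ha hb => exact mul_mem ha hb
    exact h3 s h1
  · have h1 : a ∈ IntermediateField.adjoin K {a ^ 2} := by
      rw [← hadj]
      exact IntermediateField.mem_adjoin_simple_self K a
    rw [ha] at h1
    have h2 : IntermediateField.adjoin K {algebraMap K k X} = ⊥ := by
      rw [IntermediateField.adjoin_simple_eq_bot_iff]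
      exact (⊥ : IntermediateField K k).algebraMap_mem X
    rw [h2, IntermediateField.mem_bot] at h1
    obtain ⟨c, rfl⟩ := h1
    apply hX.ns c
    apply (algebraMap K k).injective
    rw [map_pow]
    exact ha

open Vale.Agent.P011.H271 in
/-- Global function fields of characteristic two have a 2-basis with one element. -/
theorem exists_twoBasis_gff {k : Type*} [Field k] (hk : GFF k) (h2 : (2 : k) = 0) :
    ∃ X : k, TwoBasis k X := by
  obtain ⟨F, iF, iFin, φ, hφ⟩ := hk.out
  let _ : Algebra (RatFunc F) k := φ.toAlgebra
  have hsep : Algebra.IsSeparable (RatFunc F) k := hφ.2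
  have hF2 : (2 : F) = 0 := by
    apply (algebraMap F (RatFunc F)).injective
    apply (algebraMap (RatFunc F) k).injective
    rw [map_ofNat, map_ofNat, map_zero, map_zero]
    exact h2
  have hF : CharP F 2 := CharTwo.of_one_ne_zero_of_two_eq_zero one_ne_zero hF2
  have hR : CharP (RatFunc F) 2 :=
    charP_of_injective_algebraMap (algebraMap F (RatFunc F)).injective 2
  exact ⟨_, (twoBasis_X F (RatFunc F)).of_separable⟩

open Vale.Agent.P011.H271 in
/-- The condition on the characteristic holds over all global function fields. -/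
theorem charOK_gff {k : Type*} [Field k] (hk : GFF k) {e₁ : k} (he : (2 : k) = 0 → e₁ ≠ 0) :
    CharOK k e₁ := by
  by_cases h2 : (2 : k) = 0
  · exact Or.inr ⟨h2, he h2, exists_twoBasis_gff hk h2⟩
  · exact Or.inl h2

theorem charOK_zero {k : Type*} [Field k] [CharZero k] (e₁ : k) : CharOK k e₁ :=
  Or.inl two_ne_zero

end

end Vale.Agent.P011.H983
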