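import Mathlib

/-!
General position in characteristic two.

`K` is a field of characteristic two with an element `X` such that every `s` is `u² + X v²` in
exactly one way (for example `K = F_q(X)`).  For a vector `s : κ → K` the vector
`Φ s = (u, v, s) : κ ⊕ κ ⊕ κ → K` is additive in `s`.  A dense subset of a ball of `κ → K`
contains a sequence such that any `3 |κ|` of the vectors `Φ s` are linearly independent.
-/

open Module

noncomputable section

namespace Vale.Agent.P011.H983

/-- Every element is `u² + X v²`, and `X` is not a square. -/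
structure TwoBasis (K : Type*) [Field K] (X : K) : Prop where
  /-- existence -/
  ex : ∀ s : K, ∃ u v, s = u ^ 2 + X * v ^ 2
  /-- uniqueness -/
  ns : ∀ a : K, a ^ 2 ≠ X

namespace TwoBasis

variable {K : Type*} [Field K] [CharP K 2] {X : K} (hX : TwoBasis K X)

include hX

theorem eq_zero {u v : K} (h : u ^ 2 + X * v ^ 2 = 0) : u = 0 ∧ v = 0 := by
  by_cases hv : v = 0
  · subst hv
    refine ⟨?_, rfl⟩
    have : u ^ 2 = 0 := by simpa using h
    exact pow_eq_zero_iff (two_ne_zero) |>.1 this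
  · exfalso
    apply hX.ns (u / v)
    rw [div_pow, div_eq_iff (pow_ne_zero 2 hv)]
    have h2 : u ^ 2 = -(X * v ^ 2) := eq_neg_of_add_eq_zero_left h
    rw [h2, CharTwo.neg_eq]

theorem inj {u v u' v' : K} (h : u ^ 2 + X * v ^ 2 = u' ^ 2 + X * v' ^ 2) : u = u' ∧ v = v' := by
  have h1 : (u + u') ^ 2 + X * (v + v') ^ 2 = 0 := by
    rw [CharTwo.add_sq, CharTwo.add_sq]
    have : (u ^ 2 + u' ^ 2) + X * (v ^ 2 + v' ^ 2) =
        (u ^ 2 + X * v ^ 2) + (u' ^ 2 + X * v' ^ 2) := by ring
    rw [this, h, CharTwo.add_self_eq_zero]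
  obtain ⟨h2, h3⟩ := hX.eq_zero h1
  exact ⟨CharTwo.add_eq_zero.1 h2, CharTwo.add_eq_zero.1 h3⟩

end TwoBasis

section phi

variable {K : Type*} [Field K] [CharP K 2] {X : K} (hX : TwoBasis K X)

/-- the even half -/
def evK (hX : TwoBasis K X) (s : K) : K := (hX.ex s).choose

/-- the odd half -/
def odK (hX : TwoBasis K X) (s : K) : K := (hX.ex s).choose_spec.choose

theorem evod (s : K) : s = evK hX s ^ 2 + X * odK hX s ^ 2 := (hX.ex s).choose_spec.choose_spec

theorem evK_eq {s u v : K} (h : s = u ^ 2 + X * v ^ 2) : evK hX s = u :=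
  (hX.inj ((evod hX s).symm.trans h)).1

theorem odK_eq {s u v : K} (h : s = u ^ 2 + X * v ^ 2) : odK hX s = v :=
  (hX.inj ((evod hX s).symm.trans h)).2

theorem evK_add (s t : K) : evK hX (s + t) = evK hX s + evK hX t := by
  apply evK_eq hX (v := odK hX s + odK hX t)
  rw [CharTwo.add_sq, CharTwo.add_sq]
  nth_rewrite 1 [evod hX s, evod hX t]
  ring

theorem odK_add (s t : K) : odK hX (s + t) = odK hX s + odK hX t := by
  apply odK_eq hX (u := evK hX s + evK hX t)
  rw [CharTwo.add_sq, CharTwo.add_sq]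
  nth_rewrite 1 [evod hX s, evod hX t]
  ring

theorem evK_sq_mul (g s : K) : evK hX (g ^ 2 * s) = g * evK hX s := by
  apply evK_eq hX (v := g * odK hX s)
  nth_rewrite 1 [evod hX s]
  ring

theorem odK_sq_mul (g s : K) : odK hX (g ^ 2 * s) = g * odK hX s := by
  apply odK_eq hX (u := g * evK hX s)
  nth_rewrite 1 [evod hX s]
  ring

variable {κ : Type*}

/-- The vector `(u, v, s)`, `s = u² + X v²`. -/
def Phi (s : κ → K) : κ ⊕ κ ⊕ κ → K :=
  Sum.elim (fun k => evK hX (s k)) (Sum.elim (fun k => odK hX (s k)) s)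

theorem Phi_add (s t : κ → K) : Phi hX (s + t) = Phi hX s + Phi hX t := by
  funext i
  rcases i with i | i | i
  · exact evK_add hX _ _
  · exact odK_add hX _ _
  · rfl

variable [Fintype κ]

/-- A linear form on the vectors `(u, v, s)`. -/
def lf (c : κ ⊕ κ ⊕ κ → K) (s : κ → K) : K := ∑ i, c i * Phi hX s i

theorem lf_add (c : κ ⊕ κ ⊕ κ → K) (s t : κ → K) :
    lf hX c (s + t) = lf hX c s + lf hX c t := by
  rw [lf, lf, lf, ← Finset.sum_add_distrib]
  refine Finset.sum_congr rfl fun i _ => ?_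
  rw [Phi_add, Pi.add_apply]
  ring

theorem lf_eq (c : κ ⊕ κ ⊕ κ → K) (s : κ → K) : lf hX c s =
    (∑ k, (c (Sum.inl k) * evK hX (s k) + c (Sum.inr (Sum.inl k)) * odK hX (s k))) +
      ∑ k, c (Sum.inr (Sum.inr k)) * s k := by
  rw [lf, Fintype.sum_sum_type, Fintype.sum_sum_type, ← add_assoc, ← Finset.sum_add_distrib]
  rfl

/-- A linear form which vanishes on all vectors `Φ s`, `s` small, is zero. -/
theorem lf_zero (a : AbsoluteValue K ℝ) {z : K} (hz : z ≠ 0) (hz1 : a z < 1)
    (c : κ ⊕ κ ⊕ κ → K) {r : ℝ} (hr : 0 < r)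
    (h : ∀ s : κ → K, (∀ k, a (s k) < r) → lf hX c s = 0) : c = 0 := by
  classical
  have hzz : z + z ^ 2 ≠ 0 := by
    intro h0
    have h1 : z * (1 + z) = 0 := by rw [← h0]; ring
    rcases mul_eq_zero.1 h1 with h2 | h2
    · exact hz h2
    · have h3 : z = 1 := by
        rw [add_comm] at h2
        exact CharTwo.add_eq_zero.1 h2
      rw [h3, map_one] at hz1
      exact lt_irrefl _ hz1
  -- scaling
  have hsc : ∀ (g : K) (s : κ → K), lf hX c (fun k => g ^ 2 * s k) =
      g * (∑ k, (c (Sum.inl k) * evK hX (s k) + c (Sum.inr (Sum.inl k)) * odK hX (s k))) +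
        g ^ 2 * ∑ k, c (Sum.inr (Sum.inr k)) * s k := by
    intro g s
    rw [lf_eq, Finset.mul_sum, Finset.mul_sum]
    congr 1
    · refine Finset.sum_congr rfl fun k _ => ?_
      rw [evK_sq_mul, odK_sq_mul]
      ring
    · refine Finset.sum_congr rfl fun k _ => ?_
      ring
  -- both parts vanish on small vectors
  have hsmall : ∀ s : κ → K, (∀ k, a (s k) < r) →
      (∑ k, (c (Sum.inl k) * evK hX (s k) + c (Sum.inr (Sum.inl k)) * odK hX (s k)) = 0 ∧
        ∑ k, c (Sum.inr (Sum.inr k)) * s k = 0) := by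
    intro s hs
    have h1 := h s hs
    rw [lf_eq] at h1
    have h2 := h (fun k => z ^ 2 * s k) fun k => by
      rw [map_mul, map_pow]
      have h3 := a.nonneg (s k)
      have h4 := a.nonneg z
      have h5 : a z ^ 2 ≤ 1 := pow_le_one₀ h4 hz1.le
      calc a z ^ 2 * a (s k) ≤ 1 * a (s k) := mul_le_mul_of_nonneg_right h5 h3
        _ < r := by rw [one_mul]; exact hs k
    rw [hsc] at h2
    generalize ∑ k, (c (Sum.inl k) * evK hX (s k) + c (Sum.inr (Sum.inl k)) * odK hX (s k)) = P
      at h1 h2 ⊢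
    generalize ∑ k, c (Sum.inr (Sum.inr k)) * s k = T at h1 h2 ⊢
    have h3 : T = P := by
      rw [add_comm] at h1
      exact CharTwo.add_eq_zero.1 h1
    subst h3
    have h4 : (z + z ^ 2) * T = 0 := by rw [← h2]; ring
    have h5 : T = 0 := (mul_eq_zero.1 h4).resolve_left hzz
    exact ⟨h5, h5⟩
  -- hence on all vectors
  have hall : ∀ s : κ → K,
      (∑ k, (c (Sum.inl k) * evK hX (s k) + c (Sum.inr (Sum.inl k)) * odK hX (s k)) = 0 ∧
        ∑ k, c (Sum.inr (Sum.inr k)) * s k = 0) := by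
    intro s
    obtain ⟨B, hB⟩ : ∃ B : ℝ, B = 1 + ∑ k, a (s k) := ⟨_, rfl⟩
    have hBk : ∀ k, a (s k) < B := fun k => by
      have := Finset.single_le_sum (f := fun k => a (s k)) (fun k _ => a.nonneg (s k))
        (Finset.mem_univ k)
      linarith
    have hB0 : 0 < B := by
      rw [hB]
      have : 0 ≤ ∑ k, a (s k) := Finset.sum_nonneg fun k _ => a.nonneg (s k)
      linarith
    obtain ⟨m, hm⟩ := exists_pow_lt_of_lt_one (div_pos hr hB0) (by
      rw [← one_pow 2]
      exact pow_lt_pow_left₀ hz1 (a.nonneg z) two_ne_zero : a z ^ 2 < 1)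
    rw [lt_div_iff₀ hB0] at hm
    have hzm : z ^ m ≠ 0 := pow_ne_zero m hz
    obtain ⟨h1, h2⟩ := hsmall (fun k => (z ^ m) ^ 2 * s k) fun k => by
      rw [map_mul, map_pow, map_pow, ← pow_mul, mul_comm m 2, pow_mul]
      refine lt_of_le_of_lt ?_ hm
      exact mul_le_mul_of_nonneg_left (hBk k).le (by positivity)
    constructor
    · have h3 : z ^ m * ∑ k, (c (Sum.inl k) * evK hX (s k) +
          c (Sum.inr (Sum.inl k)) * odK hX (s k)) = 0 := by
        rw [← h1, Finset.mul_sum]
        refine Finset.sum_congr rfl fun k _ => ?_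
        rw [evK_sq_mul, odK_sq_mul]
        ring
      exact (mul_eq_zero.1 h3).resolve_left hzm
    · have h3 : (z ^ m) ^ 2 * ∑ k, c (Sum.inr (Sum.inr k)) * s k = 0 := by
        rw [← h2, Finset.mul_sum]
        refine Finset.sum_congr rfl fun k _ => ?_
        ring
      exact (mul_eq_zero.1 h3).resolve_left (pow_ne_zero 2 hzm)
  have ev0 : evK hX 0 = 0 := evK_eq hX (v := 0) (by ring)
  have od0 : odK hX 0 = 0 := odK_eq hX (u := 0) (by ring)
  funext i
  rcases i with i | i | i
  · have h1 := (hall (Pi.single i 1)).1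
    rw [Finset.sum_eq_single i] at h1
    · rw [Pi.single_eq_same, evK_eq hX (s := 1) (u := 1) (v := 0) (by ring),
        odK_eq hX (s := 1) (u := 1) (v := 0) (by ring)] at h1
      simpa using h1
    · intro k _ hk
      rw [Pi.single_eq_of_ne hk, ev0, od0, mul_zero, mul_zero, add_zero]
    · intro h2
      exact absurd (Finset.mem_univ i) h2
  · have h1 := (hall (Pi.single i X)).1
    rw [Finset.sum_eq_single i] at h1
    · rw [Pi.single_eq_same, evK_eq hX (s := X) (u := 0) (v := 1) (by ring),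
        odK_eq hX (s := X) (u := 0) (v := 1) (by ring)] at h1
      simpa using h1
    · intro k _ hk
      rw [Pi.single_eq_of_ne hk, ev0, od0, mul_zero, mul_zero, add_zero]
    · intro h2
      exact absurd (Finset.mem_univ i) h2
  · have h1 := (hall (Pi.single i 1)).2
    rw [Finset.sum_eq_single i] at h1
    · rw [Pi.single_eq_same] at h1
      simpa using h1
    · intro k _ hk
      rw [Pi.single_eq_of_ne hk, mul_zero]
    · intro h2
      exact absurd (Finset.mem_univ i) h2

/-- Continuity of the halves. -/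
def HalfCont (hX : TwoBasis K X) (a : AbsoluteValue K ℝ) : Prop :=
  ∃ C : ℝ, 0 < C ∧ ∀ s : K, a (evK hX s) ^ 2 ≤ C * a s ∧ a (odK hX s) ^ 2 ≤ C * a s

theorem lf_small (a : AbsoluteValue K ℝ) (hc : HalfCont hX a) (c : κ ⊕ κ ⊕ κ → K) {ε : ℝ}
    (hε : 0 < ε) : ∃ r : ℝ, 0 < r ∧ ∀ s : κ → K, (∀ k, a (s k) < r) → a (lf hX c s) < ε := by
  obtain ⟨C, hC, hcont⟩ := hc
  obtain ⟨S, hS⟩ : ∃ S : ℝ, S = 1 + ∑ i, a (c i) := ⟨_, rfl⟩
  have hS0 : 0 < S := by
    rw [hS]
    have : 0 ≤ ∑ i, a (c i) := Finset.sum_nonneg fun i _ => a.nonneg _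
    linarith
  obtain ⟨η, hη⟩ : ∃ η : ℝ, η = ε / (2 * S) := ⟨_, rfl⟩
  have hη0 : 0 < η := by rw [hη]; positivity
  refine ⟨min η (η ^ 2 / C), by positivity, fun s hs => ?_⟩
  have hPhi : ∀ i, a (Phi hX s i) ≤ η := by
    intro i
    have hsq : ∀ y : K, ∀ k, a y ^ 2 ≤ C * a (s k) → a y ≤ η := by
      intro y k hy
      have h1 : a (s k) < η ^ 2 / C := (hs k).trans_le (min_le_right _ _)
      rw [lt_div_iff₀ hC] at h1
      have h2 : a y ^ 2 ≤ η ^ 2 := by linarith [mul_comm C (a (s k))]
      exact (sq_le_sq₀ (a.nonneg y) hη0.le).1 h2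
    rcases i with i | i | i
    · exact hsq _ i (hcont (s i)).1
    · exact hsq _ i (hcont (s i)).2
    · exact ((hs i).trans_le (min_le_left _ _)).le
  calc a (lf hX c s) ≤ ∑ i, a (c i * Phi hX s i) := a.sum_le _ _
    _ ≤ ∑ i, a (c i) * η := by
        refine Finset.sum_le_sum fun i _ => ?_
        rw [map_mul]
        exact mul_le_mul_of_nonneg_left (hPhi i) (a.nonneg _)
    _ = (∑ i, a (c i)) * η := by rw [Finset.sum_mul]
    _ ≤ S * η := mul_le_mul_of_nonneg_right (by rw [hS]; linarith) hη0.le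
    _ = ε / 2 := by rw [hη]; field_simp
    _ < ε := by linarith

/-- Finitely many nonzero linear forms do not vanish on a small ball inside a given ball. -/
theorem exists_ball (a : AbsoluteValue K ℝ) (hc : HalfCont hX a) {z : K} (hz : z ≠ 0)
    (hz1 : a z < 1) (T : Finset (κ ⊕ κ ⊕ κ → K)) (hT : ∀ c ∈ T, c ≠ 0) (s₀ : κ → K) {r : ℝ}
    (hr : 0 < r) : ∃ (s₁ : κ → K) (r₁ : ℝ), 0 < r₁ ∧ (∀ k, a (s₁ k - s₀ k) + r₁ ≤ r) ∧
      ∀ s : κ → K, (∀ k, a (s k - s₁ k) < r₁) → ∀ c ∈ T, lf hX c s ≠ 0 := by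
  classical
  induction T using Finset.induction_on with
  | empty => exact ⟨s₀, r, hr, fun k => by simp, fun s _ c hc' => by simp at hc'⟩
  | insert c T hcT ih =>
    obtain ⟨s₁, r₁, hr₁, hs₁, h1⟩ := ih fun c hc' => hT c (Finset.mem_insert_of_mem hc')
    -- a point of the ball where `c` does not vanish
    obtain ⟨s₂, hs₂, h2⟩ : ∃ s₂ : κ → K, (∀ k, a (s₂ k - s₁ k) < r₁ / 2) ∧ lf hX c s₂ ≠ 0 := by
      by_contra hcon
      push Not at hcon
      apply hT c (Finset.mem_insert_self c T)
      refine lf_zero hX a hz hz1 c (half_pos hr₁) fun s hs => ?_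
      have h3 := hcon s₁ fun k => by rw [sub_self, map_zero]; exact half_pos hr₁
      have h4 := hcon (s + s₁) fun k => by
        rw [Pi.add_apply, add_sub_cancel_right]
        exact hs k
      rwa [lf_add, h3, add_zero] at h4
    have h3 : 0 < a (lf hX c s₂) := a.pos h2
    obtain ⟨r₂, hr₂, h4⟩ := lf_small hX a hc c h3
    refine ⟨s₂, min (r₁ / 2) r₂, by positivity, fun k => ?_, fun s hs c' hc' => ?_⟩
    · have h5 : a (s₂ k - s₀ k) ≤ a (s₂ k - s₁ k) + a (s₁ k - s₀ k) := by
        have := a.add_le (s₂ k - s₁ k) (s₁ k - s₀ k)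
        rwa [sub_add_sub_cancel] at this
      have h6 := hs₂ k
      have h7 := hs₁ k
      have h8 := min_le_left (r₁ / 2) r₂
      linarith
    · rcases Finset.mem_insert.1 hc' with rfl | hc'
      · intro h5
        have h6 := h4 (s - s₂) fun k => (hs k).trans_le (min_le_right _ _)
        have h7 : lf hX c' s = lf hX c' (s - s₂) + lf hX c' s₂ := by
          rw [← lf_add, sub_add_cancel]
        rw [h5] at h7
        have h8 : lf hX c' (s - s₂) = lf hX c' s₂ := CharTwo.add_eq_zero.1 h7.symm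
        rw [h8] at h6
        exact lt_irrefl _ h6
      · refine h1 s (fun k => ?_) c' hc'
        have h5 : a (s k - s₁ k) ≤ a (s k - s₂ k) + a (s₂ k - s₁ k) := by
          have := a.add_le (s k - s₂ k) (s₂ k - s₁ k)
          rwa [sub_add_sub_cancel] at this
        have h6 := hs₂ k
        have h7 := (hs k).trans_le (min_le_left _ _)
        linarith

/-- Values of linear functionals in coordinates. -/
theorem exists_form {ν : Type*} [Fintype ν] (l : (ν → K) →ₗ[K] K) (hl : l ≠ 0) :
    ∃ c : ν → K, c ≠ 0 ∧ ∀ x, l x = ∑ i, c i * x i := by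
  classical
  have h1 : ∀ x, l x = ∑ i, l (fun j => if i = j then 1 else 0) * x i := by
    intro x
    rw [LinearMap.pi_apply_eq_sum_univ l x]
    exact Finset.sum_congr rfl fun i _ => by rw [smul_eq_mul, mul_comm]
  refine ⟨fun i => l (fun j => if i = j then 1 else 0), fun h0 => hl ?_, h1⟩
  refine LinearMap.ext fun x => ?_
  rw [h1, LinearMap.zero_apply]
  exact Finset.sum_eq_zero fun i _ => by rw [congrFun h0 i, Pi.zero_apply, zero_mul]

/-- **General position in characteristic two.** A family of vectors `σ g`, `g ∈ P`, which is dense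
in a ball contains a sequence in this ball such that any `3 |κ|` of the vectors
`Φ (σ (t n))` are linearly independent. -/
theorem exists_seq2 (a : AbsoluteValue K ℝ) (hc : HalfCont hX a) {z : K} (hz : z ≠ 0)
    (hz1 : a z < 1) {G : Type*} (σ : G → κ → K) (P : Set G) (s₀ : κ → K) {r : ℝ} (hr : 0 < r)
    (hd : ∀ s : κ → K, (∀ k, a (s k - s₀ k) < r) → ∀ ε : ℝ, 0 < ε →
      ∃ g ∈ P, ∀ k, a (σ g k - s k) < ε) :
    ∃ t : ℕ → G, (∀ n, t n ∈ P) ∧ (∀ n k, a (σ (t n) k - s₀ k) < r) ∧
      ∀ S : Finset ℕ, S.card ≤ 3 * Fintype.card κ →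
        LinearIndepOn K (fun n => Phi hX (σ (t n))) S := by
  classical
  have hfin : finrank K (κ ⊕ κ ⊕ κ → K) = 3 * Fintype.card κ := by
    rw [Module.finrank_pi, Fintype.card_sum, Fintype.card_sum]
    ring
  -- the next element
  have hnext : ∀ T : Finset G, ∃ g : G, (g ∈ P ∧ ∀ k, a (σ g k - s₀ k) < r) ∧
      ∀ s ⊆ T, s.card < 3 * Fintype.card κ →
        Phi hX (σ g) ∉ Submodule.span K ((fun g => Phi hX (σ g)) '' (s : Set G)) := by
    intro T
    have hl : ∀ s : {s : Finset G // s ⊆ T ∧ s.card < 3 * Fintype.card κ},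
        ∃ c : κ ⊕ κ ⊕ κ → K, c ≠ 0 ∧
        ∀ x ∈ Submodule.span K ((fun g => Phi hX (σ g)) '' (s.1 : Set G)),
          ∑ i, c i * x i = 0 := by
      intro s
      obtain ⟨l, hl0, hlk⟩ := Submodule.exists_le_ker_of_lt_top
        (Submodule.span K ((fun g => Phi hX (σ g)) '' (s.1 : Set G)))
        (lt_top_iff_ne_top.mpr fun h1 => by
          have h2 : 3 * Fintype.card κ ≤ s.1.card := by
            have h3 : finrank K (⊤ : Submodule K (κ ⊕ κ ⊕ κ → K)) ≤ s.1.card := by
              rw [← h1, ← Finset.coe_image]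
              exact (finrank_span_finset_le_card _).trans Finset.card_image_le
            rwa [finrank_top, hfin] at h3
          exact absurd s.2.2 (not_lt.mpr h2))
      obtain ⟨c, hc0, hcl⟩ := exists_form l hl0
      refine ⟨c, hc0, fun x hx => ?_⟩
      rw [← hcl]
      exact hlk hx
    choose c hc0 hck using hl
    have hfinite : Finite {s : Finset G // s ⊆ T ∧ s.card < 3 * Fintype.card κ} := by
      refine Finite.of_injective (β := T.powerset)
        (fun s => ⟨s.1, Finset.mem_powerset.mpr s.2.1⟩) fun s s' h => ?_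
      exact Subtype.ext (by simpa using h)
    have := Fintype.ofFinite {s : Finset G // s ⊆ T ∧ s.card < 3 * Fintype.card κ}
    obtain ⟨s₁, r₁, hr₁, hs₁, h1⟩ := exists_ball hX a hc hz hz1
      (Finset.univ.image c) (fun c' hc' => by
        obtain ⟨s, -, rfl⟩ := Finset.mem_image.1 hc'
        exact hc0 s) s₀ hr
    obtain ⟨g, hgP, hg⟩ := hd s₁ (fun k => by have := hs₁ k; linarith) r₁ hr₁
    refine ⟨g, ⟨hgP, fun k => ?_⟩, fun s hs hcard hmem => ?_⟩
    · have h5 : a (σ g k - s₀ k) ≤ a (σ g k - s₁ k) + a (s₁ k - s₀ k) := by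
        have := a.add_le (σ g k - s₁ k) (s₁ k - s₀ k)
        rwa [sub_add_sub_cancel] at this
      have h6 := hg k
      have h7 := hs₁ k
      linarith
    · exact h1 (σ g) hg (c ⟨s, hs, hcard⟩)
        (Finset.mem_image_of_mem _ (Finset.mem_univ _)) (hck ⟨s, hs, hcard⟩ _ hmem)
  choose next hnext1 hnext2 using hnext
  let L : ℕ → Finset G := fun n => Nat.rec ∅ (fun _ T => insert (next T) T) n
  have hLs : ∀ n, L (n + 1) = insert (next (L n)) (L n) := fun n => rfl
  have hmem : ∀ n m, m < n → next (L m) ∈ L n := by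
    intro n
    induction n with
    | zero => intro m hm; omega
    | succ n ih =>
      intro m hm
      rw [hLs]
      rcases Nat.lt_succ_iff_lt_or_eq.mp hm with h1 | h1
      · exact Finset.mem_insert_of_mem (ih m h1)
      · rw [h1]
        exact Finset.mem_insert_self _ _
  refine ⟨fun n => next (L n), fun i => (hnext1 _).1, fun i => (hnext1 _).2, fun s => ?_⟩
  induction s using Finset.induction_on_max with
  | empty => intro _; simp
  | insert m s ha ih =>
    intro hcard
    have hna : m ∉ s := fun h1 => (ha m h1).false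
    rw [Finset.card_insert_of_notMem hna] at hcard
    rw [Finset.coe_insert]
    refine (ih (by omega)).insert ?_
    have h1 := hnext2 (L m) (s.image fun i => next (L i))
      (fun x hx => by
        obtain ⟨i, hi, rfl⟩ := Finset.mem_image.mp hx
        exact hmem _ _ (ha i hi))
      (lt_of_le_of_lt Finset.card_image_le (by omega))
    rw [Finset.coe_image, Set.image_image] at h1
    exact h1

end phi

end Vale.Agent.P011.H983
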