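import Vale.Agent.P011.H983.GaugeR

/-!
Characteristic two, a place where the quadratic extension is split: for a symmetric `s` with small
inverse there is a unitary `t`, in the algebra generated by `s` and an approximate idempotent,
with `t + t⁻¹` as close to `s` as one likes (Artin-Schreier equation `σ² + σ = s⁻²`).
-/

open Module

set_option linter.unusedSectionVars false

namespace Vale.Agent.P011.H983

section algebra

variable {R : Type*} [CommRing R]

theorem as_prod (h2 : (2 : R) = 0) {s s' e e' σ q κ v : R} (hs : s * s' = 1) (he : e + e' = 1)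
    (hσ : σ ^ 2 + σ = s' ^ 2 + q) (hκ : κ = s * (e * e' + q)) (hv : v * (1 + κ) = 1) :
    ((1 + s * (e + σ)) ^ 2 * (v * s')) * ((1 + s * (e' + σ)) ^ 2 * (v * s')) = 1 ∧
      (1 + s * (e + σ)) ^ 2 * (v * s') + (1 + s * (e' + σ)) ^ 2 * (v * s') = s * v := by
  have h1 : s * (e + σ) + s * (e' + σ) = s := by linear_combination s * he + s * σ * h2
  have h3 : (s * (e + σ)) * (s * (e' + σ)) = s * κ + 1 := by
    rw [hκ]
    linear_combination s ^ 2 * σ * he + s ^ 2 * hσ + (s * s' + 1) * hs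
  generalize s * (e + σ) = y at h1 h3 ⊢
  generalize s * (e' + σ) = y' at h1 h3 ⊢
  have h4 : (1 + y) * (1 + y') = s * (1 + κ) := by linear_combination h1 + h3 + h2
  have h5 : ((1 + y) * (1 + y')) * (v * s') = 1 := by
    rw [h4]
    linear_combination s * s' * hv + hs
  constructor
  · calc ((1 + y) ^ 2 * (v * s')) * ((1 + y') ^ 2 * (v * s')) =
        (((1 + y) * (1 + y')) * (v * s')) ^ 2 := by ring
      _ = 1 := by rw [h5, one_pow]
  · have h6 : (1 + y) ^ 2 + (1 + y') ^ 2 = s ^ 2 := by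
      linear_combination (y + y' + s) * h1 + (1 + y + y' - y * y') * h2
    calc (1 + y) ^ 2 * (v * s') + (1 + y') ^ 2 * (v * s') =
        ((1 + y) ^ 2 + (1 + y') ^ 2) * (v * s') := by ring
      _ = s * v := by rw [h6]; linear_combination s * v * hs

end algebra

section sigma

variable {A : Type*} [Ring A]

/-- the partial sums of the Artin-Schreier series -/
def sg (x : A) : ℕ → A
  | 0 => 0
  | m + 1 => sg x m + x ^ 2 ^ (m + 1)

theorem sg_commute (x z : A) (h : Commute z x) (m : ℕ) : Commute z (sg x m) := by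
  induction m with
  | zero => exact Commute.zero_right z
  | succ m ih => exact ih.add_right (h.pow_right _)

theorem sg_star [StarRing A] (x : A) (h : star x = x) (m : ℕ) : star (sg x m) = sg x m := by
  induction m with
  | zero => exact star_zero A
  | succ m ih =>
    show star (sg x m + x ^ 2 ^ (m + 1)) = sg x m + x ^ 2 ^ (m + 1)
    rw [star_add, ih, star_pow, h]

theorem map_sg {B : Type*} [Ring B] (f : A →+* B) (x : A) (m : ℕ) :
    f (sg x m) = sg (f x) m := by
  induction m with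
  | zero => exact map_zero f
  | succ m ih =>
    show f (sg x m + x ^ 2 ^ (m + 1)) = sg (f x) m + (f x) ^ 2 ^ (m + 1)
    rw [map_add, ih, map_pow]

theorem sg_eq (h2 : ∀ x : A, x + x = 0) (x : A) (m : ℕ) :
    sg x m ^ 2 + sg x m = x ^ 2 + x ^ 2 ^ (m + 1) := by
  induction m with
  | zero =>
    show (0 : A) ^ 2 + 0 = x ^ 2 + x ^ 2 ^ (0 + 1)
    rw [zero_add, pow_one, h2]
    simp
  | succ m ih =>
    show (sg x m + x ^ 2 ^ (m + 1)) ^ 2 + (sg x m + x ^ 2 ^ (m + 1)) = x ^ 2 + x ^ 2 ^ (m + 1 + 1)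
    have hc : Commute (x ^ 2 ^ (m + 1)) (sg x m) :=
      sg_commute x _ (Commute.pow_left (Commute.refl x) _) m
    have h3 : (sg x m + x ^ 2 ^ (m + 1)) ^ 2 = sg x m ^ 2 + x ^ 2 ^ (m + 1 + 1) := by
      have h4 : (sg x m + x ^ 2 ^ (m + 1)) ^ 2 = sg x m ^ 2 + (x ^ 2 ^ (m + 1)) ^ 2 +
          (x ^ 2 ^ (m + 1) * sg x m + x ^ 2 ^ (m + 1) * sg x m) := by
        rw [pow_two, pow_two, pow_two, add_mul, mul_add, mul_add, ← hc.eq]
        abel
      rw [h4, h2, add_zero, ← pow_mul, ← pow_succ]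
    rw [h3]
    have h5 : sg x m ^ 2 + x ^ 2 ^ (m + 1 + 1) + (sg x m + x ^ 2 ^ (m + 1)) =
        (sg x m ^ 2 + sg x m) + x ^ 2 ^ (m + 1) + x ^ 2 ^ (m + 1 + 1) := by abel
    rw [h5, ih, add_assoc (x ^ 2), h2, add_zero]

end sigma

section main

variable {F A : Type*} [Field F] [CharP F 2] [Ring A] [Algebra F A] {o : Type*} [Fintype o]
  (b : Basis o F A) (a : AbsoluteValue F ℝ) [StarRing A]

theorem add_self_A (F : Type*) {A : Type*} [Field F] [CharP F 2] [Ring A] [Algebra F A] (x : A) :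
    x + x = 0 := by
  have h : (2 : F) = 0 := by
    have h := CharP.cast_eq_zero F 2
    exact_mod_cast h
  rw [← two_smul F x, h, zero_smul]

open scoped IsMulCommutative in
/-- The main construction. -/
theorem exists_unitary_near
    (hu : ∀ x : A, (∀ y, x * y = 0 → y = 0) → IsUnit x)
    (hsplit : ∀ ε : ℝ, 0 < ε → ∃ e : A, (∀ x, e * x = x * e) ∧ e + star e = 1 ∧
      gr b a (e * star e) < ε)
    {C : ℝ} (hC1 : 1 ≤ C) (hC : ∀ x y, gr b a (x * y) ≤ C * gr b a x * gr b a y)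
    {s s' : A} (hs : star s = s) (h1 : s * s' = 1) (h1' : s' * s = 1)
    (hsm : C * gr b a s' ≤ 1 / 2) {ε : ℝ} (hε : 0 < ε) :
    ∃ t : A, star t * t = 1 ∧ t * star t = 1 ∧ gr b a (t + star t - s) < ε := by
  have hA2 : ∀ x : A, x + x = 0 := add_self_A F
  have hneg : ∀ x : A, -x = x := fun x => neg_eq_of_add_eq_zero_left (hA2 x)
  have hs' : star s' = s' := by
    have h3 : star s' * s = 1 := by rw [← hs, ← star_mul, h1, star_one]
    calc star s' = star s' * (s * s') := by rw [h1, mul_one]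
      _ = s' := by rw [← mul_assoc, h3, one_mul]
  have hg0 := gr_nonneg b a s
  have hg1 := gr_nonneg b a (1 : A)
  -- the size of `κ`
  obtain ⟨η, hη⟩ : ∃ η : ℝ, η = min (1 / (2 * C)) (ε / (2 * (C * (C * gr b a s * (2 * gr b a 1)) + 1)))
    := ⟨_, rfl⟩
  have hη0 : 0 < η := by rw [hη]; positivity
  obtain ⟨η', hη'⟩ : ∃ η' : ℝ, η' = η / (2 * (C * gr b a s + 1)) := ⟨_, rfl⟩
  have hη'0 : 0 < η' := by rw [hη']; positivity
  obtain ⟨e, hec, he1, he⟩ := hsplit η' hη'0
  obtain ⟨m, hm⟩ : ∃ m : ℕ, gr b a (s' ^ 2 ^ (m + 1)) < η' := by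
    obtain ⟨m, hm⟩ := exists_pow_lt_of_lt_one hη'0 (show (1 / 2 : ℝ) < 1 by norm_num)
    refine ⟨m, lt_of_le_of_lt ?_ hm⟩
    have h2m : m ≤ 2 ^ (m + 1) := (Nat.lt_pow_self (by norm_num)).le.trans
      (Nat.pow_le_pow_right (by norm_num) (by omega))
    have hpos : 0 < 2 ^ (m + 1) := by positivity
    obtain ⟨j, hj⟩ : ∃ j, 2 ^ (m + 1) = j + 1 := ⟨2 ^ (m + 1) - 1, by omega⟩
    have h3 : 0 ≤ C * gr b a s' := mul_nonneg (by linarith) (gr_nonneg b a s')
    calc gr b a (s' ^ 2 ^ (m + 1)) ≤ (C * gr b a s') ^ (j + 1) := by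
          rw [hj]
          exact gr_pow b a hC1 hC s' j
      _ ≤ (1 / 2) ^ (j + 1) := pow_le_pow_left₀ h3 hsm _
      _ ≤ (1 / 2) ^ m := pow_le_pow_of_le_one (by norm_num) (by norm_num) (by omega)
  obtain ⟨q, hq⟩ : ∃ q, q = s' ^ 2 ^ (m + 1) := ⟨_, rfl⟩
  obtain ⟨σ, hσ⟩ : ∃ σ, σ = sg s' m := ⟨_, rfl⟩
  obtain ⟨κ, hκ⟩ : ∃ κ, κ = s * (e * star e + q) := ⟨_, rfl⟩
  have hκη : gr b a κ < η := by
    rw [hκ]
    have h3 := hC s (e * star e + q)
    have h4 := gr_add b a (e * star e) q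
    rw [← hq] at hm
    have h5 : C * gr b a s * gr b a (e * star e + q) ≤ C * gr b a s * (2 * η') :=
      mul_le_mul_of_nonneg_left (by linarith) (by positivity)
    have h6 : C * gr b a s * (2 * η') < η := by
      rw [hη']
      have h7 : 0 < C * gr b a s + 1 := by positivity
      rw [mul_div_assoc', mul_div_assoc', div_lt_iff₀ (by positivity)]
      nlinarith
    linarith
  have hκC : C * gr b a κ ≤ 1 / 2 := by
    have h3 : η ≤ 1 / (2 * C) := by rw [hη]; exact min_le_left _ _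
    have h4 : C * (1 / (2 * C)) = 1 / 2 := by field_simp
    have h5 : C * gr b a κ ≤ C * (1 / (2 * C)) :=
      mul_le_mul_of_nonneg_left (by linarith) (by linarith)
    linarith
  obtain ⟨v, hv1, hv2, hvg⟩ := gr_inv b a hC hu hκC
  rw [sub_eq_add_neg, hneg] at hv1 hv2
  -- commutation
  have hec' : ∀ x, star e * x = x * star e := fun x => by
    have h3 := congrArg star (hec (star x))
    rw [star_mul, star_mul, star_star] at h3
    exact h3.symm
  have hss' : s * s' = s' * s := by rw [h1, h1']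
  have hsq : s * q = q * s := by
    rw [hq]
    exact (Commute.pow_right (show Commute s s' from hss') _).eq
  have hs'q : s' * q = q * s' := by
    rw [hq]
    exact (Commute.pow_right (Commute.refl s') _).eq
  have hcκ : ∀ z : A, z * s = s * z → z * q = q * z → z * κ = κ * z := by
    intro z hz1 hz2
    rw [hκ, ← mul_assoc, hz1, mul_assoc, mul_assoc]
    congr 1
    rw [mul_add, add_mul, ← mul_assoc, ← hec, mul_assoc, ← hec', ← mul_assoc, hz2]
  have hcv : ∀ z : A, z * κ = κ * z → z * v = v * z := by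
    intro z hz
    have h3 : z * (1 + κ) = (1 + κ) * z := by rw [mul_add, add_mul, hz, mul_one, one_mul]
    calc z * v = (v * (1 + κ)) * z * v := by rw [hv2, one_mul]
      _ = v * ((1 + κ) * z) * v := by simp only [mul_assoc]
      _ = v * z * ((1 + κ) * v) := by rw [← h3]; simp only [mul_assoc]
      _ = v * z := by rw [hv1, mul_one]
  have hsv : s * v = v * s := hcv s (hcκ s rfl hsq)
  have hs'v : s' * v = v * s' := hcv s' (hcκ s' hss'.symm hs'q)
  have hqstar : star q = q := by rw [hq, star_pow, hs']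
  have hN : ∀ x, (e * star e) * x = x * (e * star e) := by
    intro x
    rw [mul_assoc, hec', ← mul_assoc, hec, mul_assoc]
  have hκstar : star κ = κ := by
    rw [hκ, star_mul, star_add, star_mul, star_star, hqstar, hs, add_mul, mul_add, ← hsq, hN]
  have hvstar : star v = v := by
    have h3 : star v * (1 + κ) = 1 := by
      have := congrArg star hv1
      rwa [star_mul, star_add, star_one, hκstar] at this
    calc star v = star v * ((1 + κ) * v) := by rw [hv1, mul_one]
      _ = v := by rw [← mul_assoc, h3, one_mul]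
  -- the commutative subring
  obtain ⟨S, hS⟩ : ∃ S : Set A, S = {s, s', e, star e, v} := ⟨_, rfl⟩
  have hcomm : ∀ x ∈ S, ∀ y ∈ S, x * y = y * x := by
    intro x hx y hy
    rw [hS] at hx hy
    simp only [Set.mem_insert_iff, Set.mem_singleton_iff] at hx hy
    rcases hx with rfl | rfl | rfl | rfl | rfl <;> rcases hy with rfl | rfl | rfl | rfl | rfl <;>
      first
        | rfl
        | exact hss'
        | exact hss'.symm
        | exact hsv
        | exact hsv.symm
        | exact hs'v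
        | exact hs'v.symm
        | exact hec _
        | exact (hec _).symm
        | exact hec' _
        | exact (hec' _).symm
  have hMC := Subring.isMulCommutative_closure hcomm
  have hmem : ∀ x ∈ S, x ∈ Subring.closure S := fun x hx => Subring.subset_closure hx
  obtain ⟨s₀, hs₀⟩ : ∃ z : Subring.closure S, (z : A) = s :=
    ⟨⟨s, hmem s (by rw [hS]; simp)⟩, rfl⟩
  obtain ⟨s'₀, hs'₀⟩ : ∃ z : Subring.closure S, (z : A) = s' :=
    ⟨⟨s', hmem s' (by rw [hS]; simp)⟩, rfl⟩
  obtain ⟨e₀, he₀⟩ : ∃ z : Subring.closure S, (z : A) = e :=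
    ⟨⟨e, hmem e (by rw [hS]; simp)⟩, rfl⟩
  obtain ⟨e'₀, he'₀⟩ : ∃ z : Subring.closure S, (z : A) = star e :=
    ⟨⟨star e, hmem _ (by rw [hS]; simp)⟩, rfl⟩
  obtain ⟨v₀, hv₀⟩ : ∃ z : Subring.closure S, (z : A) = v :=
    ⟨⟨v, hmem v (by rw [hS]; simp)⟩, rfl⟩
  have hinj : ∀ x y : Subring.closure S, (x : A) = y → x = y := fun x y h => Subtype.ext h
  have h20 : (2 : Subring.closure S) = 0 := by
    apply hinj
    have h3 := hA2 1
    rw [one_add_one_eq_two] at h3
    exact h3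
  obtain ⟨σ₀, hσ₀⟩ : ∃ z : Subring.closure S, z = sg s'₀ m := ⟨_, rfl⟩
  obtain ⟨q₀, hq₀⟩ : ∃ z : Subring.closure S, z = s'₀ ^ 2 ^ (m + 1) := ⟨_, rfl⟩
  obtain ⟨κ₀, hκ₀⟩ : ∃ z : Subring.closure S, z = s₀ * (e₀ * e'₀ + q₀) := ⟨_, rfl⟩
  have hσc : (σ₀ : A) = σ := by
    rw [hσ₀, hσ, ← hs'₀]
    exact map_sg (Subring.closure S).subtype s'₀ m
  have hqc : (q₀ : A) = q := by
    rw [hq₀, hq, ← hs'₀]
    rfl
  have hκc : (κ₀ : A) = κ := by
    rw [hκ₀, hκ]
    push_cast
    rw [hs₀, he₀, he'₀, hqc]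
  have e1 : s₀ * s'₀ = 1 := hinj _ _ (by push_cast; rw [hs₀, hs'₀, h1])
  have e2 : e₀ + e'₀ = 1 := hinj _ _ (by push_cast; rw [he₀, he'₀, he1])
  have e3 : σ₀ ^ 2 + σ₀ = s'₀ ^ 2 + q₀ := by
    rw [hσ₀, hq₀]
    exact sg_eq (fun x => hinj _ _ (hA2 x)) s'₀ m
  have e4 : v₀ * (1 + κ₀) = 1 := hinj _ _ (by push_cast; rw [hv₀, hκc, hv2])
  obtain ⟨h5, h6⟩ := as_prod (R := Subring.closure S) h20 e1 e2 e3 hκ₀ e4
  obtain ⟨t₀, ht₀⟩ : ∃ z : Subring.closure S, z = (1 + s₀ * (e₀ + σ₀)) ^ 2 * (v₀ * s'₀) :=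
    ⟨_, rfl⟩
  obtain ⟨t'₀, ht'₀⟩ : ∃ z : Subring.closure S, z = (1 + s₀ * (e'₀ + σ₀)) ^ 2 * (v₀ * s'₀) :=
    ⟨_, rfl⟩
  rw [← ht₀, ← ht'₀] at h5 h6
  have hstar : star (t₀ : A) = (t'₀ : A) := by
    have h7 : t'₀ = (s'₀ * v₀) * (1 + (e'₀ + σ₀) * s₀) ^ 2 := by rw [ht'₀]; ring
    have hσs : star σ = σ := by rw [hσ]; exact sg_star s' hs' m
    rw [h7, ht₀]
    push_cast
    rw [hs₀, hs'₀, he₀, he'₀, hv₀, hσc, star_mul, star_mul, star_pow, star_add, star_mul,
      star_add, star_one, hs, hs', hvstar, hσs]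
  have h7 : (t₀ : A) * (t'₀ : A) = 1 := by
    have := congrArg (fun z : Subring.closure S => (z : A)) h5
    simpa using this
  have h8 : (t'₀ : A) * (t₀ : A) = 1 := by
    rw [mul_comm] at h5
    have := congrArg (fun z : Subring.closure S => (z : A)) h5
    simpa using this
  have h9 : (t₀ : A) + (t'₀ : A) = s * v := by
    have := congrArg (fun z : Subring.closure S => (z : A)) h6
    push_cast at this
    rw [this, hs₀, hv₀]
  refine ⟨(t₀ : A), by rw [hstar, h8], by rw [hstar, h7], ?_⟩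
  rw [hstar, h9]
  have h10 : s * v - s = s * (v * κ) := by
    have h11 : v * κ = v - 1 := by
      have h12 : v + v * κ = 1 := by
        rw [← hv2, mul_add, mul_one]
      have h13 : v * κ = 1 - v := by rw [← h12]; abel
      rw [h13, ← neg_sub, hneg]
    rw [h11, mul_sub, mul_one]
  rw [h10]
  have h11 : gr b a (v * κ) ≤ C * (2 * gr b a 1) * η :=
    (hC v κ).trans (mul_le_mul (mul_le_mul_of_nonneg_left hvg (by linarith)) hκη.le
      (gr_nonneg b a κ) (by positivity))
  have h12 : η ≤ ε / (2 * (C * (C * gr b a s * (2 * gr b a 1)) + 1)) := by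
    rw [hη]
    exact min_le_right _ _
  calc gr b a (s * (v * κ)) ≤ C * gr b a s * gr b a (v * κ) := hC _ _
    _ ≤ C * gr b a s * (C * (2 * gr b a 1) * η) := mul_le_mul_of_nonneg_left h11 (by positivity)
    _ = (C * (C * gr b a s * (2 * gr b a 1))) * η := by ring
    _ ≤ (C * (C * gr b a s * (2 * gr b a 1))) *
        (ε / (2 * (C * (C * gr b a s * (2 * gr b a 1)) + 1))) :=
        mul_le_mul_of_nonneg_left h12 (by positivity)
    _ < ε := by
        have h13 : 0 ≤ C * (C * gr b a s * (2 * gr b a 1)) := by positivity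
        rw [mul_div_assoc', div_lt_iff₀ (by positivity)]
        nlinarith

end main

end Vale.Agent.P011.H983
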