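import Mathlib

/-!
The gauge of a finite dimensional algebra attached to an absolute value of the ground field and a
basis (ring version of `H21.Gauge`).
-/

open Module

set_option linter.unusedSectionVars false

namespace Vale.Agent.P011.H983

variable {F A : Type*} [Field F] [Ring A] [Algebra F A] {o : Type*} [Fintype o]

/-- The gauge. -/
noncomputable def gr (b : Basis o F A) (a : AbsoluteValue F ℝ) (x : A) : ℝ :=
  ∑ j, a (b.repr x j)

variable (b : Basis o F A) (a : AbsoluteValue F ℝ)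

theorem gr_nonneg (x : A) : 0 ≤ gr b a x := Finset.sum_nonneg fun _ _ => a.nonneg _

theorem coord_le_gr (x : A) (j : o) : a (b.repr x j) ≤ gr b a x :=
  Finset.single_le_sum (f := fun j => a (b.repr x j)) (fun _ _ => a.nonneg _) (Finset.mem_univ j)

theorem gr_zero : gr b a 0 = 0 := by simp [gr]

theorem gr_add (x y : A) : gr b a (x + y) ≤ gr b a x + gr b a y := by
  rw [gr, gr, gr, ← Finset.sum_add_distrib]
  refine Finset.sum_le_sum fun j _ => ?_
  rw [map_add, Finsupp.add_apply]
  exact a.add_le _ _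

theorem gr_neg (x : A) : gr b a (-x) = gr b a x := by
  simp [gr]

theorem gr_sub (x y : A) : gr b a (x - y) ≤ gr b a x + gr b a y := by
  rw [sub_eq_add_neg, ← gr_neg b a y]
  exact gr_add b a _ _

theorem gr_sub_comm (x y : A) : gr b a (x - y) = gr b a (y - x) := by
  rw [← gr_neg, neg_sub]

theorem gr_sub_le (x y z : A) : gr b a (x - z) ≤ gr b a (x - y) + gr b a (y - z) := by
  have := gr_add b a (x - y) (y - z)
  rwa [sub_add_sub_cancel] at this

theorem gr_smul (r : F) (x : A) : gr b a (r • x) = a r * gr b a x := by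
  rw [gr, gr, Finset.mul_sum]
  refine Finset.sum_congr rfl fun j _ => ?_
  rw [map_smul, Finsupp.smul_apply, smul_eq_mul, map_mul]

theorem gr_sum {κ : Type*} (s : Finset κ) (f : κ → A) :
    gr b a (∑ i ∈ s, f i) ≤ ∑ i ∈ s, gr b a (f i) := by
  classical
  induction s using Finset.induction_on with
  | empty => simp [gr_zero]
  | insert i s hi ih =>
    rw [Finset.sum_insert hi, Finset.sum_insert hi]
    exact (gr_add b a _ _).trans (by linarith)

theorem eq_zero_of_gr {x : A} (h : gr b a x = 0) : x = 0 := by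
  apply b.repr.injective
  ext j
  rw [map_zero, Finsupp.zero_apply]
  have h1 := coord_le_gr b a x j
  rw [h] at h1
  exact (a.eq_zero).mp (le_antisymm h1 (a.nonneg _))

/-- The gauge is submultiplicative up to a constant. -/
theorem exists_gr_mul : ∃ C : ℝ, 1 ≤ C ∧ ∀ x y, gr b a (x * y) ≤ C * gr b a x * gr b a y := by
  refine ⟨1 + ∑ i, ∑ j, gr b a (b i * b j), ?_, fun x y => ?_⟩
  · have : 0 ≤ ∑ i, ∑ j, gr b a (b i * b j) :=
      Finset.sum_nonneg fun _ _ => Finset.sum_nonneg fun _ _ => gr_nonneg b a _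
    linarith
  · have h1 : x * y = ∑ i, ∑ j, (b.repr x i * b.repr y j) • (b i * b j) := by
      conv_lhs => rw [← b.sum_repr x, ← b.sum_repr y, Finset.sum_mul_sum]
      simp_rw [smul_mul_smul_comm]
    have h2 : ∀ i j, gr b a (b i * b j) ≤ 1 + ∑ i, ∑ j, gr b a (b i * b j) := fun i j => by
      have h3 : gr b a (b i * b j) ≤ ∑ j, gr b a (b i * b j) :=
        Finset.single_le_sum (f := fun j => gr b a (b i * b j)) (fun _ _ => gr_nonneg b a _)
          (Finset.mem_univ j)
      have h4 : ∑ j, gr b a (b i * b j) ≤ ∑ i, ∑ j, gr b a (b i * b j) :=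
        Finset.single_le_sum (f := fun i => ∑ j, gr b a (b i * b j))
          (fun _ _ => Finset.sum_nonneg fun _ _ => gr_nonneg b a _) (Finset.mem_univ i)
      linarith
    calc gr b a (x * y) ≤ ∑ i, ∑ j, gr b a ((b.repr x i * b.repr y j) • (b i * b j)) := by
          rw [h1]
          exact (gr_sum b a _ _).trans (Finset.sum_le_sum fun i _ => gr_sum b a _ _)
      _ ≤ ∑ i, ∑ j, (a (b.repr x i) * a (b.repr y j)) *
            (1 + ∑ i, ∑ j, gr b a (b i * b j)) := by
          refine Finset.sum_le_sum fun i _ => Finset.sum_le_sum fun j _ => ?_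
          rw [gr_smul, map_mul]
          exact mul_le_mul_of_nonneg_left (h2 i j) (mul_nonneg (a.nonneg _) (a.nonneg _))
      _ = (1 + ∑ i, ∑ j, gr b a (b i * b j)) * gr b a x * gr b a y := by
          simp_rw [← Finset.sum_mul]
          rw [← Finset.sum_mul_sum, ← gr, ← gr]
          ring

/-- Linear maps are bounded. -/
theorem exists_gr_linear (φ : A →ₗ[F] A) :
    ∃ K : ℝ, 0 ≤ K ∧ ∀ x, gr b a (φ x) ≤ K * gr b a x := by
  refine ⟨∑ j, gr b a (φ (b j)), Finset.sum_nonneg fun _ _ => gr_nonneg b a _, fun x => ?_⟩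
  have h1 : φ x = ∑ j, b.repr x j • φ (b j) := by
    conv_lhs => rw [← b.sum_repr x]
    rw [map_sum]
    exact Finset.sum_congr rfl fun j _ => map_smul φ _ _
  rw [h1]
  refine (gr_sum b a _ _).trans ?_
  rw [Finset.sum_mul]
  refine Finset.sum_le_sum fun j _ => ?_
  rw [gr_smul, mul_comm]
  exact mul_le_mul_of_nonneg_left (coord_le_gr b a x j) (gr_nonneg b a _)

/-- Inverses near one, in an algebra in which left regular elements are units. -/
theorem gr_inv {C : ℝ} (hC : ∀ x y, gr b a (x * y) ≤ C * gr b a x * gr b a y)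
    (hu : ∀ x : A, (∀ y, x * y = 0 → y = 0) → IsUnit x)
    {x : A} (hx : C * gr b a x ≤ 1 / 2) :
    ∃ u : A, (1 - x) * u = 1 ∧ u * (1 - x) = 1 ∧ gr b a u ≤ 2 * gr b a 1 := by
  have h0 : IsUnit (1 - x) := by
    apply hu
    intro y hy
    have h1 : y = x * y := by
      rw [sub_mul, one_mul, sub_eq_zero] at hy
      exact hy
    have h2 := hC x y
    rw [← h1] at h2
    have h3 := gr_nonneg b a y
    apply eq_zero_of_gr b a
    nlinarith
  obtain ⟨v, hv⟩ := h0
  refine ⟨((v⁻¹ : Aˣ) : A), by rw [← hv, Units.mul_inv], by rw [← hv, Units.inv_mul], ?_⟩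
  have h1 : ((v⁻¹ : Aˣ) : A) = 1 + x * ((v⁻¹ : Aˣ) : A) := by
    have h2 : (1 - x) * ((v⁻¹ : Aˣ) : A) = 1 := by rw [← hv, Units.mul_inv]
    rw [sub_mul, one_mul, sub_eq_iff_eq_add] at h2
    exact h2
  have h2 := gr_add b a 1 (x * ((v⁻¹ : Aˣ) : A))
  rw [← h1] at h2
  have h3 := hC x ((v⁻¹ : Aˣ) : A)
  have h4 := gr_nonneg b a ((v⁻¹ : Aˣ) : A)
  nlinarith

/-- Powers of an element of small gauge. -/
theorem gr_pow {C : ℝ} (hC1 : 1 ≤ C) (hC : ∀ x y, gr b a (x * y) ≤ C * gr b a x * gr b a y)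
    (x : A) (n : ℕ) : gr b a (x ^ (n + 1)) ≤ (C * gr b a x) ^ (n + 1) := by
  have h0 := gr_nonneg b a x
  induction n with
  | zero =>
    rw [zero_add, pow_one, pow_one]
    nlinarith
  | succ n ih =>
    rw [pow_succ]
    refine (hC _ _).trans ?_
    calc C * gr b a (x ^ (n + 1)) * gr b a x ≤ C * (C * gr b a x) ^ (n + 1) * gr b a x := by
          gcongr
      _ = (C * gr b a x) ^ (n + 1 + 1) := by ring

end Vale.Agent.P011.H983
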