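import Mathlib

/-!
Characteristic two: every polynomial `f` over a finite (perfect) field is `u² + X v²` in exactly
one way.
-/

open Polynomial

noncomputable section

namespace Vale.Agent.P011.H983

variable {F : Type*} [Field F] [CharP F 2] [PerfectRing F 2]

/-- the square root on a perfect field of characteristic two -/
def sqrtHom (F : Type*) [Field F] [CharP F 2] [PerfectRing F 2] : F →+* F :=
  (frobeniusEquiv F 2).symm.toRingHom

theorem sqrtHom_sq (a : F) : sqrtHom F a ^ 2 = a := by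
  have := frobeniusEquiv_symm_pow_p F 2 a
  simpa [sqrtHom] using this

theorem sqrtHom_of_sq (a : F) : sqrtHom F (a ^ 2) = a := by
  have h := sqrtHom_sq (a ^ 2)
  have h2 : (sqrtHom F (a ^ 2) - a) ^ 2 = 0 := by
    rw [sub_pow_char, h, sub_self]
  exact sub_eq_zero.1 (pow_eq_zero_iff (two_ne_zero) |>.1 h2)

/-- the even half -/
def ev (f : F[X]) : F[X] := (contract 2 f).map (sqrtHom F)

/-- the odd half -/
def od (f : F[X]) : F[X] := (contract 2 (divX f)).map (sqrtHom F)

theorem coeff_ev (f : F[X]) (n : ℕ) : (ev f).coeff n = sqrtHom F (f.coeff (2 * n)) := by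
  rw [ev, coeff_map, coeff_contract (by norm_num), mul_comm]

theorem coeff_od (f : F[X]) (n : ℕ) : (od f).coeff n = sqrtHom F (f.coeff (2 * n + 1)) := by
  rw [od, coeff_map, coeff_contract (by norm_num), coeff_divX, mul_comm]

theorem coeff_sq_even (u : F[X]) (n : ℕ) : (u ^ 2).coeff (2 * n) = u.coeff n ^ 2 := by
  have h := map_frobenius_expand (R := F) 2 u
  rw [← h, coeff_map, mul_comm 2 n, coeff_expand_mul (by norm_num)]
  rfl

theorem coeff_sq_odd (u : F[X]) (n : ℕ) : (u ^ 2).coeff (2 * n + 1) = 0 := by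
  have h := map_frobenius_expand (R := F) 2 u
  rw [← h, coeff_map, coeff_expand (by norm_num), if_neg (by omega), map_zero]

theorem halves (f : F[X]) : f = ev f ^ 2 + X * od f ^ 2 := by
  ext n
  rcases Nat.even_or_odd' n with ⟨m, rfl | rfl⟩
  · rw [coeff_add, coeff_sq_even, coeff_ev, sqrtHom_sq]
    rcases m with _ | m
    · simp
    · rw [show 2 * (m + 1) = (2 * m + 1) + 1 by ring, coeff_X_mul, coeff_sq_odd, add_zero]
  · rw [coeff_add, coeff_sq_odd, coeff_X_mul, coeff_sq_even, coeff_od, sqrtHom_sq, zero_add]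

theorem ev_unique {f u v : F[X]} (h : f = u ^ 2 + X * v ^ 2) : ev f = u := by
  ext n
  rw [coeff_ev, h, coeff_add, coeff_sq_even]
  rcases n with _ | n
  · simp [sqrtHom_of_sq]
  · rw [show 2 * (n + 1) = (2 * n + 1) + 1 by ring, coeff_X_mul, coeff_sq_odd, add_zero,
      sqrtHom_of_sq]

theorem od_unique {f u v : F[X]} (h : f = u ^ 2 + X * v ^ 2) : od f = v := by
  ext n
  rw [coeff_od, h, coeff_add, coeff_sq_odd, coeff_X_mul, coeff_sq_even, zero_add, sqrtHom_of_sq]

theorem add_sq2 (a b : F[X]) : (a + b) ^ 2 = a ^ 2 + b ^ 2 := by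
  have : (2 : F[X]) = 0 := by
    have h : ((2 : ℕ) : F[X]) = 0 := CharP.cast_eq_zero F[X] 2
    exact_mod_cast h
  linear_combination a * b * this

theorem ev_add (f g : F[X]) : ev (f + g) = ev f + ev g := by
  apply ev_unique (v := od f + od g)
  rw [add_sq2, add_sq2]
  nth_rewrite 1 [halves f]
  nth_rewrite 1 [halves g]
  ring

theorem od_add (f g : F[X]) : od (f + g) = od f + od g := by
  apply od_unique (u := ev f + ev g)
  rw [add_sq2, add_sq2]
  nth_rewrite 1 [halves f]
  nth_rewrite 1 [halves g]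
  ring

theorem ev_sq_mul (g f : F[X]) : ev (g ^ 2 * f) = g * ev f := by
  apply ev_unique (v := g * od f)
  nth_rewrite 1 [halves f]
  ring

theorem od_sq_mul (g f : F[X]) : od (g ^ 2 * f) = g * od f := by
  apply od_unique (u := g * ev f)
  nth_rewrite 1 [halves f]
  ring

theorem ev_mem {n : ℕ} {f : F[X]} (hf : f ∈ degreeLT F (2 * n)) : ev f ∈ degreeLT F n := by
  rw [mem_degreeLT, degree_lt_iff_coeff_zero] at *
  intro m hm
  rw [coeff_ev, hf (2 * m) (by omega), map_zero]

theorem od_mem {n : ℕ} {f : F[X]} (hf : f ∈ degreeLT F (2 * n)) : od f ∈ degreeLT F n := by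
  rw [mem_degreeLT, degree_lt_iff_coeff_zero] at *
  intro m hm
  rw [coeff_od, hf (2 * m + 1) (by omega), map_zero]

theorem sum_sq2 {ι : Type*} (s : Finset ι) (f : ι → F[X]) :
    (∑ i ∈ s, f i) ^ 2 = ∑ i ∈ s, f i ^ 2 := by
  classical
  induction s using Finset.induction_on with
  | empty => simp
  | insert a s ha ih => rw [Finset.sum_insert ha, Finset.sum_insert ha, add_sq2, ih]

end Vale.Agent.P011.H983
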