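import Mathlib.Analysis.Matrix.Normed
import Mathlib.LinearAlgebra.Matrix.Adjugate
import Mathlib.LinearAlgebra.Matrix.NonsingularInverse
import Mathlib.Topology.Instances.Matrix
import Mathlib.Topology.MetricSpace.Ultra.Basic
import Mathlib.Analysis.Normed.Group.Ultra
import Mathlib.Analysis.Normed.Field.ProperSpace

/-!
# Integral splittings

`L` a proper ultrametric field, `R` an algebra with a basis whose structure constants are
integral and whose order is an Azumaya order; then every splitting of `R` is conjugate to one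
which maps the order onto the matrices with integral entries.
-/

open Module

set_option linter.unusedSectionVars false

namespace Vale.Agent.P011.H983.Hey

variable {L : Type*} [NormedField L] [ProperSpace L] [IsUltrametricDist L]
  {n : ℕ}

/-- **Choice of a lattice**: a bounded multiplicatively closed set of matrices containing `1` is
conjugate to a set of matrices with integral entries. -/
theorem exists_conj_int (hL : ∀ ε : ℝ, 0 < ε → ∃ c : L, 0 < ‖c‖ ∧ ‖c‖ < ε) (Lam : Set (Matrix (Fin n) (Fin n) L)) (h1 : (1 : Matrix _ _ L) ∈ Lam)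
    (hmul : ∀ x ∈ Lam, ∀ y ∈ Lam, x * y ∈ Lam)
    (hbd : ∃ C : ℝ, ∀ x ∈ Lam, ∀ i j, ‖x i j‖ ≤ C) :
    ∃ h : Matrix (Fin n) (Fin n) L, IsUnit h.det ∧ ∀ x ∈ Lam, ∀ i j, ‖(h⁻¹ * x * h) i j‖ ≤ 1 := by
  classical
  obtain ⟨C, hC⟩ := hbd
  -- the set of the matrices all of whose columns are in the dual lattice
  let W : Set (Matrix (Fin n) (Fin n) L) := {M | ∀ x ∈ Lam, ∀ i j, ‖(x * M) i j‖ ≤ 1}
  have hWcl : IsClosed W := by
    have hW : W = ⋂ x ∈ Lam, ⋂ i, ⋂ j, {M : Matrix (Fin n) (Fin n) L | ‖(x * M) i j‖ ≤ 1} := by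
      ext M
      simp only [W, Set.mem_iInter, Set.mem_ofPred_eq]
    rw [hW]
    refine isClosed_biInter fun x _ => isClosed_iInter fun i => isClosed_iInter fun j => ?_
    refine isClosed_le ?_ continuous_const
    have : Continuous fun M : Matrix (Fin n) (Fin n) L => x * M := by fun_prop
    exact ((this.matrix_elem i j)).norm
  have hWsub : W ⊆ Set.pi Set.univ fun _ : Fin n => Set.pi Set.univ fun _ : Fin n =>
      Metric.closedBall (0 : L) 1 := by
    intro M hM i _ j _
    have h := hM 1 h1 i j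
    rw [one_mul] at h
    rwa [mem_closedBall_zero_iff]
  have hcomp : IsCompact W := by
    refine IsCompact.of_isClosed_subset ?_ hWcl hWsub
    exact isCompact_univ_pi fun _ => isCompact_univ_pi fun _ => isCompact_closedBall _ _
  -- a scalar matrix in W
  obtain ⟨c, hc0, hc⟩ := hL (max C 1)⁻¹ (by positivity)
  have hcW : (c • (1 : Matrix (Fin n) (Fin n) L)) ∈ W := by
    intro x hx i j
    rw [Matrix.mul_smul, mul_one, Matrix.smul_apply, smul_eq_mul, norm_mul]
    calc ‖c‖ * ‖x i j‖ ≤ (max C 1)⁻¹ * max C 1 :=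
          mul_le_mul hc.le ((hC x hx i j).trans (le_max_left _ _)) (norm_nonneg _) (by positivity)
      _ = 1 := inv_mul_cancel₀ (by positivity)
  have hdet : Continuous fun M : Matrix (Fin n) (Fin n) L => ‖M.det‖ :=
    (Continuous.matrix_det continuous_id).norm
  obtain ⟨h, hhW, hmax⟩ := hcomp.exists_isMaxOn ⟨_, hcW⟩ hdet.continuousOn
  have hpos : 0 < ‖h.det‖ := by
    have h2 := hmax hcW
    simp only [Set.mem_ofPred_eq] at h2
    refine lt_of_lt_of_le ?_ h2
    rw [Matrix.det_smul, Matrix.det_one, mul_one, norm_pow]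
    exact pow_pos hc0 _
  have hu : IsUnit h.det := isUnit_iff_ne_zero.mpr (norm_pos_iff.mp hpos)
  refine ⟨h, hu, fun x hx i j => ?_⟩
  have e1 : (h⁻¹ * x * h) i j = (h.det)⁻¹ * (h.updateCol i fun r => (x * h) r j).det := by
    rw [mul_assoc, Matrix.inv_def, Matrix.smul_mul, Matrix.smul_apply, smul_eq_mul,
      Ring.inverse_eq_inv', ← Matrix.cramer_apply, Matrix.cramer_eq_adjugate_mulVec]
    rfl
  have hup : h.updateCol i (fun r => (x * h) r j) ∈ W := by
    intro y hy r s
    by_cases hs : s = i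
    · subst hs
      have e2 : (y * h.updateCol s fun r => (x * h) r j) r s = (y * x * h) r j := by
        rw [mul_assoc, Matrix.mul_apply, Matrix.mul_apply]
        refine Finset.sum_congr rfl fun t _ => ?_
        rw [Matrix.updateCol_self]
      rw [e2]
      exact hhW _ (hmul _ hy _ hx) r j
    · have e2 : (y * h.updateCol i fun r => (x * h) r j) r s = (y * h) r s := by
        rw [Matrix.mul_apply, Matrix.mul_apply]
        refine Finset.sum_congr rfl fun t _ => ?_
        rw [Matrix.updateCol_ne hs]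
      rw [e2]
      exact hhW _ hy r s
  rw [e1, norm_mul, norm_inv]
  have h3 := hmax hup
  simp only [Set.mem_ofPred_eq] at h3
  rw [inv_mul_le_iff₀ hpos, mul_one]
  exact h3

theorem sumle {κ : Type*} (s : Finset κ) (F : κ → L) {c : ℝ} (hc : 0 ≤ c)
    (hF : ∀ t ∈ s, ‖F t‖ ≤ c) : ‖∑ t ∈ s, F t‖ ≤ c :=
  IsUltrametricDist.norm_sum_le_of_forall_le_of_nonneg hc hF

/-- **Integral splitting, local form.** `b` is a basis of `R` with integral structure constants
and such that the elementary endomorphisms are integral combinations of bimultiplications. Every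
splitting `g` of `R` has a conjugate for which `x` has integral coordinates if and only if its
image is an integral matrix. -/
theorem int_split (hL : ∀ ε : ℝ, 0 < ε → ∃ c : L, 0 < ‖c‖ ∧ ‖c‖ < ε)
    {R ι : Type*} [Ring R] [Algebra L R] [Fintype ι] [DecidableEq ι]
    (b : Basis ι L R) (hn : n ≠ 0)
    (h1 : ∀ l, ‖b.repr 1 l‖ ≤ 1) (hm : ∀ i j l, ‖b.repr (b i * b j) l‖ ≤ 1)
    (hT : ∀ i j, ∃ (m : ℕ) (x y : Fin m → R), (∀ t l, ‖b.repr (x t) l‖ ≤ 1) ∧
      (∀ t l, ‖b.repr (y t) l‖ ≤ 1) ∧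
      ∀ l, ∑ t, x t * b l * y t = if l = j then b i else 0)
    (g : R →ₐ[L] Matrix (Fin n) (Fin n) L) :
    ∃ h : Matrix (Fin n) (Fin n) L, IsUnit h.det ∧ ∀ x : R,
      (∀ i j, ‖(h⁻¹ * g x * h) i j‖ ≤ 1) ↔ ∀ l, ‖b.repr x l‖ ≤ 1 := by
  classical
  -- the order
  let O : Set R := {x | ∀ l, ‖b.repr x l‖ ≤ 1}
  have hOmul : ∀ x ∈ O, ∀ y ∈ O, x * y ∈ O := by
    intro x hx y hy l
    have e : x * y = ∑ i, ∑ j, (b.repr x i * b.repr y j) • (b i * b j) := by
      conv_lhs => rw [← b.sum_repr x, ← b.sum_repr y]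
      rw [Finset.sum_mul_sum]
      exact Finset.sum_congr rfl fun i _ => Finset.sum_congr rfl fun j _ => by
        rw [smul_mul_smul_comm]
    rw [e, map_sum, Finsupp.finsetSum_apply]
    refine sumle _ _ zero_le_one fun i _ => ?_
    rw [map_sum, Finsupp.finsetSum_apply]
    refine sumle _ _ zero_le_one fun j _ => ?_
    rw [map_smul, Finsupp.smul_apply, smul_eq_mul, norm_mul, norm_mul]
    exact mul_le_one₀ (mul_le_one₀ (hx i) (norm_nonneg _) (hy j)) (norm_nonneg _) (hm i j l)
  obtain ⟨h, hu, hint⟩ := exists_conj_int hL (g '' O) ⟨1, h1, map_one g⟩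
    (by
      rintro _ ⟨x, hx, rfl⟩ _ ⟨y, hy, rfl⟩
      exact ⟨x * y, hOmul x hx y hy, map_mul g x y⟩)
    (by
      refine ⟨∑ l, ∑ i, ∑ j, ‖g (b l) i j‖, ?_⟩
      rintro _ ⟨x, hx, rfl⟩ i j
      have e : g x i j = ∑ l, b.repr x l * g (b l) i j := by
        conv_lhs => rw [← b.sum_repr x, map_sum]
        rw [Matrix.sum_apply]
        exact Finset.sum_congr rfl fun l _ => by rw [map_smul, Matrix.smul_apply, smul_eq_mul]
      rw [e]
      refine sumle _ _ (Finset.sum_nonneg fun _ _ => Finset.sum_nonneg fun _ _ =>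
        Finset.sum_nonneg fun _ _ => norm_nonneg _) fun l _ => ?_
      rw [norm_mul]
      calc ‖b.repr x l‖ * ‖g (b l) i j‖ ≤ 1 * ‖g (b l) i j‖ :=
            mul_le_mul_of_nonneg_right (hx l) (norm_nonneg _)
        _ = ‖g (b l) i j‖ := one_mul _
        _ ≤ ∑ j, ‖g (b l) i j‖ :=
            Finset.single_le_sum (f := fun j => ‖g (b l) i j‖) (fun _ _ => norm_nonneg _)
              (Finset.mem_univ j)
        _ ≤ ∑ i, ∑ j, ‖g (b l) i j‖ :=
            Finset.single_le_sum (f := fun i => ∑ j, ‖g (b l) i j‖)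
              (fun _ _ => Finset.sum_nonneg fun _ _ => norm_nonneg _) (Finset.mem_univ i)
        _ ≤ ∑ l, ∑ i, ∑ j, ‖g (b l) i j‖ :=
            Finset.single_le_sum (f := fun l => ∑ i, ∑ j, ‖g (b l) i j‖)
              (fun _ _ => Finset.sum_nonneg fun _ _ => Finset.sum_nonneg fun _ _ => norm_nonneg _)
              (Finset.mem_univ l))
  -- the conjugate splitting
  have hhi : h * h⁻¹ = 1 := Matrix.mul_nonsing_inv h hu
  have hih : h⁻¹ * h = 1 := Matrix.nonsing_inv_mul h hu
  let f : R → Matrix (Fin n) (Fin n) L := fun x => h⁻¹ * g x * h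
  have fmul : ∀ x y, f (x * y) = f x * f y := by
    intro x y
    change h⁻¹ * g (x * y) * h = (h⁻¹ * g x * h) * (h⁻¹ * g y * h)
    rw [map_mul]
    calc h⁻¹ * (g x * g y) * h = h⁻¹ * g x * 1 * g y * h := by
          rw [mul_one, mul_assoc h⁻¹ (g x) (g y)]
      _ = h⁻¹ * g x * (h * h⁻¹) * g y * h := by rw [hhi]
      _ = _ := by simp only [mul_assoc]
  have f1 : f 1 = 1 := by
    change h⁻¹ * g 1 * h = 1
    rw [map_one, mul_one, hih]
  have fsum : ∀ {κ : Type} (s : Finset κ) (F : κ → R), f (∑ t ∈ s, F t) = ∑ t ∈ s, f (F t) := by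
    intro κ s F
    change h⁻¹ * g (∑ t ∈ s, F t) * h = ∑ t ∈ s, h⁻¹ * g (F t) * h
    rw [map_sum, Finset.mul_sum, Finset.sum_mul]
  have fsmul : ∀ (c : L) (x : R), f (c • x) = c • f x := by
    intro c x
    change h⁻¹ * g (c • x) * h = c • (h⁻¹ * g x * h)
    rw [map_smul, Matrix.mul_smul, Matrix.smul_mul]
  have fint : ∀ x ∈ O, ∀ i j, ‖f x i j‖ ≤ 1 := fun x hx => hint _ ⟨x, hx, rfl⟩
  have mint : ∀ M N : Matrix (Fin n) (Fin n) L, (∀ i j, ‖M i j‖ ≤ 1) → (∀ i j, ‖N i j‖ ≤ 1) →
      ∀ i j, ‖(M * N) i j‖ ≤ 1 := by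
    intro M N hM hN i j
    rw [Matrix.mul_apply]
    refine sumle _ _ zero_le_one fun t _ => ?_
    rw [norm_mul]
    exact mul_le_one₀ (hM i t) (norm_nonneg _) (hN t j)
  refine ⟨h, hu, fun x => ⟨fun hx j => ?_, fun hx => fint x hx⟩⟩
  have hx' : ∀ i j, ‖f x i j‖ ≤ 1 := hx
  -- `(repr x j) b_i` has integral image
  have hstep : ∀ i, ∀ r s, ‖f (b.repr x j • b i) r s‖ ≤ 1 := by
    intro i r s
    obtain ⟨m, p, q, hp, hq, hpq⟩ := hT i j
    have e : b.repr x j • b i = ∑ t, p t * x * q t := by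
      have e1 : ∑ t, p t * x * q t = ∑ l, b.repr x l • ∑ t, p t * b l * q t := by
        conv_lhs => rw [← b.sum_repr x]
        simp only [Finset.mul_sum, Finset.sum_mul, Finset.smul_sum]
        rw [Finset.sum_comm]
        refine Finset.sum_congr rfl fun l _ => Finset.sum_congr rfl fun t _ => ?_
        rw [mul_smul_comm, smul_mul_assoc]
      rw [e1]
      simp only [hpq, smul_ite, smul_zero]
      rw [Finset.sum_ite_eq' Finset.univ j, if_pos (Finset.mem_univ j)]
    rw [e, fsum, Matrix.sum_apply]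
    refine sumle _ _ zero_le_one fun t _ => ?_
    rw [fmul, fmul]
    exact mint _ _ (mint _ _ (fint _ (hp t)) hx') (fint _ (hq t)) r s
  have hone : f (b.repr x j • (1 : R)) = b.repr x j • (1 : Matrix (Fin n) (Fin n) L) := by
    rw [fsmul, f1]
  have hone' : b.repr x j • (1 : R) = ∑ i, b.repr 1 i • (b.repr x j • b i) := by
    conv_lhs => rw [← b.sum_repr 1, Finset.smul_sum]
    exact Finset.sum_congr rfl fun i _ => smul_comm _ _ _
  have hi : Fin n := ⟨0, Nat.pos_of_ne_zero hn⟩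
  have h5 : b.repr x j = f (b.repr x j • (1 : R)) hi hi := by
    rw [hone, Matrix.smul_apply, Matrix.one_apply_eq, smul_eq_mul, mul_one]
  rw [h5, hone']
  have h6 : f (∑ i, b.repr 1 i • (b.repr x j • b i)) hi hi =
      ∑ i, b.repr 1 i * f (b.repr x j • b i) hi hi := by
    have e0 : f (∑ i, b.repr 1 i • (b.repr x j • b i)) =
        ∑ i, f (b.repr 1 i • (b.repr x j • b i)) := by
      change h⁻¹ * g (∑ t, _) * h = ∑ t, h⁻¹ * g _ * h
      rw [map_sum, Finset.mul_sum, Finset.sum_mul]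
    rw [e0, Matrix.sum_apply]
    refine Finset.sum_congr rfl fun i _ => ?_
    rw [fsmul (b.repr 1 i), Matrix.smul_apply, smul_eq_mul]
  rw [h6]
  refine sumle _ _ zero_le_one fun i _ => ?_
  rw [norm_mul]
  exact mul_le_one₀ (h1 i) (norm_nonneg _) (hstep i hi hi)

end Vale.Agent.P011.H983.Hey
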