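import Vale.Agent.P011.H983.HeyInt
import Vale.Agent.P011.H961.SplitAE

/-!
# Integral splittings at almost all places
-/

open Module TensorProduct

set_option linter.unusedSectionVars false

namespace Vale.Agent.P011.H983.Hey

section field

variable {k L B : Type} [Field k] [Field L] [Algebra k L] [Ring B] [Algebra k B] {n : ℕ}

/-- The extension of a splitting. -/
noncomputable def ext (f : B →ₐ[k] Matrix (Fin n) (Fin n) L) :
    L ⊗[k] B →ₐ[L] Matrix (Fin n) (Fin n) L :=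
  Algebra.TensorProduct.lift (Algebra.ofId _ _) f fun c y =>
    show Commute (Algebra.ofId L _ c) (f y) from Algebra.commutes c (f y)

theorem ext_tmul (f : B →ₐ[k] Matrix (Fin n) (Fin n) L)
    (c : L) (x : B) : ext f (c ⊗ₜ x) = c • f x := by
  rw [ext, Algebra.TensorProduct.lift_tmul, Algebra.smul_def]
  rfl

/-- The conjugate of a splitting. -/
noncomputable def conj (f : B →ₐ[k] Matrix (Fin n) (Fin n) L)
    (h : Matrix (Fin n) (Fin n) L) (hu : IsUnit h.det) :
    B →ₐ[k] Matrix (Fin n) (Fin n) L where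
  toFun x := h⁻¹ * f x * h
  map_one' := by rw [map_one, mul_one, Matrix.nonsing_inv_mul h hu]
  map_mul' x y := by
    rw [map_mul]
    calc h⁻¹ * (f x * f y) * h = h⁻¹ * f x * 1 * f y * h := by
          rw [mul_one, mul_assoc h⁻¹ (f x) (f y)]
      _ = h⁻¹ * f x * (h * h⁻¹) * f y * h := by rw [Matrix.mul_nonsing_inv h hu]
      _ = _ := by simp only [mul_assoc]
  map_zero' := by rw [map_zero, mul_zero, zero_mul]
  map_add' x y := by rw [map_add, mul_add, add_mul]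
  commutes' c := by
    rw [AlgHom.commutes, mul_assoc, Algebra.commutes, ← mul_assoc, Matrix.nonsing_inv_mul h hu,
      one_mul]

theorem conj_apply (f : B →ₐ[k] Matrix (Fin n) (Fin n) L)
    (h : Matrix (Fin n) (Fin n) L) (hu : IsUnit h.det) (x : B) :
    conj f h hu x = h⁻¹ * f x * h := rfl

/-- Every matrix is a unique combination of the images of a basis. -/
theorem exists_coord [IsSimpleRing B] [Algebra.IsCentral k B] {ι : Type} [Fintype ι]
    [DecidableEq ι] (e : Basis ι k B) (hn : n ≠ 0) (hcard : Fintype.card ι = n ^ 2)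
    (f : B →ₐ[k] Matrix (Fin n) (Fin n) L) (M : Matrix (Fin n) (Fin n) L) :
    ∃! c : ι → L, M = ∑ l, c l • f (e l) := by
  classical
  have hfd : FiniteDimensional k B := Module.Finite.of_basis e
  have hsim : IsSimpleRing (L ⊗[k] B) := H268.isSimpleRing_baseChange
  let b' : Basis ι L (L ⊗[k] B) := Algebra.TensorProduct.basis L e
  have hb' : ∀ i, b' i = 1 ⊗ₜ[k] e i := fun i => Algebra.TensorProduct.basis_apply e i
  have hne : Nonempty (Fin n) := ⟨⟨0, Nat.pos_of_ne_zero hn⟩⟩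
  have hinj : Function.Injective (ext f) :=
    ((ext f : L ⊗[k] B →+* Matrix (Fin n) (Fin n) L)).injective
  have hfd1 : FiniteDimensional L (L ⊗[k] B) := Module.Finite.of_basis b'
  have hdim : finrank L (L ⊗[k] B) = finrank L (Matrix (Fin n) (Fin n) L) := by
    rw [finrank_eq_card_basis b', hcard, Module.finrank_matrix, Fintype.card_fin, finrank_self]
    ring
  have hsurj : Function.Surjective (ext f).toLinearMap :=
    (LinearMap.injective_iff_surjective_of_finrank_eq_finrank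
      (f := (ext f).toLinearMap) hdim).mp hinj
  have hval : ∀ c : ι → L, ext f (∑ l, c l • b' l) = ∑ l, c l • f (e l) := by
    intro c
    rw [map_sum]
    refine Finset.sum_congr rfl fun l _ => ?_
    rw [map_smul, hb', ext_tmul, one_smul]
  obtain ⟨z, hz⟩ := hsurj M
  refine ⟨fun l => b'.repr z l, ?_, fun c hc => ?_⟩
  · change M = ∑ l, b'.repr z l • f (e l)
    rw [← hval, b'.sum_repr]
    exact hz.symm
  · have h1 : ext f (∑ l, c l • b' l) = ext f z := by
      rw [hval, ← hc]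
      exact hz.symm
    have h2 := hinj h1
    funext l
    rw [← h2, ← Basis.equivFun_apply, ← Basis.equivFun_symm_apply, LinearEquiv.apply_symm_apply]

end field

/-- **Integral splitting**, local form over the global field. -/
theorem int_split_k {k L B : Type} [Field k] [NormedField L] [ProperSpace L]
    [IsUltrametricDist L] (hL : ∀ ε : ℝ, 0 < ε → ∃ c : L, 0 < ‖c‖ ∧ ‖c‖ < ε) [Algebra k L] [Ring B] [Algebra k B] {ι : Type} [Fintype ι]
    [DecidableEq ι] (e : Basis ι k B) {n : ℕ} (hn : n ≠ 0) (m : ι → ι → ℕ)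
    (x y : ∀ i j : ι, Fin (m i j) → B)
    (hxy : ∀ i j l, ∑ t, x i j t * e l * y i j t = if l = j then e i else 0)
    (h1 : ∀ l, ‖algebraMap k L (e.repr 1 l)‖ ≤ 1)
    (hm : ∀ i j l, ‖algebraMap k L (e.repr (e i * e j) l)‖ ≤ 1)
    (hx : ∀ i j t l, ‖algebraMap k L (e.repr (x i j t) l)‖ ≤ 1)
    (hy : ∀ i j t l, ‖algebraMap k L (e.repr (y i j t) l)‖ ≤ 1)
    (f : B →ₐ[k] Matrix (Fin n) (Fin n) L) :
    ∃ h : Matrix (Fin n) (Fin n) L, IsUnit h.det ∧
      ∀ c : ι → L, (∀ i j, ‖(∑ l, c l • (h⁻¹ * f (e l) * h)) i j‖ ≤ 1) ↔ ∀ l, ‖c l‖ ≤ 1 := by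
  classical
  let b' : Basis ι L (L ⊗[k] B) := Algebra.TensorProduct.basis L e
  have hb' : ∀ i, b' i = 1 ⊗ₜ[k] e i := fun i => Algebra.TensorProduct.basis_apply e i
  have hrep : ∀ (z : B) (l : ι), b'.repr (1 ⊗ₜ[k] z) l = algebraMap k L (e.repr z l) := by
    intro z l
    rw [Algebra.TensorProduct.basis_repr_tmul]
    simp only [one_smul, Finsupp.mapRange_apply]
  have q1 : ∀ l, ‖b'.repr 1 l‖ ≤ 1 := by
    intro l
    rw [Algebra.TensorProduct.one_def, hrep]
    exact h1 l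
  have q2 : ∀ i j l, ‖b'.repr (b' i * b' j) l‖ ≤ 1 := by
    intro i j l
    rw [hb', hb', Algebra.TensorProduct.tmul_mul_tmul, one_mul, hrep]
    exact hm i j l
  have q3 : ∀ i j, ∃ (m : ℕ) (x y : Fin m → L ⊗[k] B), (∀ t l, ‖b'.repr (x t) l‖ ≤ 1) ∧
      (∀ t l, ‖b'.repr (y t) l‖ ≤ 1) ∧
      ∀ l, ∑ t, x t * b' l * y t = if l = j then b' i else 0 := by
    intro i j
    refine ⟨m i j, fun t => 1 ⊗ₜ[k] x i j t, fun t => 1 ⊗ₜ[k] y i j t, fun t l => ?_,
      fun t l => ?_, fun l => ?_⟩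
    · rw [hrep]
      exact hx i j t l
    · rw [hrep]
      exact hy i j t l
    · simp only [hb', Algebra.TensorProduct.tmul_mul_tmul, one_mul]
      rw [← TensorProduct.tmul_sum, hxy]
      split_ifs
      · rfl
      · exact TensorProduct.tmul_zero _ _
  obtain ⟨h, hu, hh⟩ := int_split hL b' hn q1 q2 q3 (ext f)
  refine ⟨h, hu, fun c => ?_⟩
  have p1 := hh (∑ l, c l • b' l)
  have h2 : ∀ l, b'.repr (∑ l, c l • b' l) l = c l := by
    intro l
    rw [← Basis.equivFun_apply, ← Basis.equivFun_symm_apply, LinearEquiv.apply_symm_apply]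
  have h3 : h⁻¹ * ext f (∑ l, c l • b' l) * h = ∑ l, c l • (h⁻¹ * f (e l) * h) := by
    rw [map_sum, Finset.mul_sum, Finset.sum_mul]
    refine Finset.sum_congr rfl fun l _ => ?_
    rw [map_smul, hb', ext_tmul, one_smul, Matrix.mul_smul, Matrix.smul_mul]
  rw [h3] at p1
  simp only [h2] at p1
  exact p1

open Vale.Agent.P011.H738 Vale.Agent.P011.H271

variable {k B : Type} [Field k] [GFF k] [Ring B] [Algebra k B] [IsSimpleRing B]
  [Algebra.IsCentral k B]

theorem exists_small (v : Place k) (ε : ℝ) (hε : 0 < ε) : ∃ c : v.comp, 0 < ‖c‖ ∧ ‖c‖ < ε := by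
  obtain ⟨m, hm⟩ := exists_zpow_lt v (half_pos hε)
  obtain ⟨x, hx⟩ := v.normalized.2.1
  have hx' : v.abv x = qq v := hx
  have h1 : ‖algebraMap k v.comp (x ^ (-(m : ℤ)))‖ = (qq v : ℝ) ^ (-(m : ℤ)) := by
    rw [norm_alg, map_zpow₀, hx']
  refine ⟨algebraMap k v.comp (x ^ (-(m : ℤ))), ?_, ?_⟩
  · rw [h1]
    exact zpow_pos (qq_pos v) _
  · rw [h1]
    exact lt_of_le_of_lt hm (half_lt_self hε)

theorem exists_int_k {κ : Type} [Finite κ] (z : κ → k) :
    ∃ T : Finset (Place k), ∀ v ∉ T, ∀ a, ‖algebraMap k v.comp (z a)‖ ≤ 1 := by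
  classical
  have hfin : ∀ c : k, {v : Place k | 1 < v.abv c}.Finite := by
    intro c
    by_cases hc : c = 0
    · subst hc
      refine Set.Finite.subset Set.finite_empty fun v hv => ?_
      rw [Set.mem_ofPred_eq, map_zero] at hv
      exact absurd hv (not_lt.mpr zero_le_one)
    · exact (place_finite hc).subset fun v hv => (ne_of_gt hv)
  have hF : Fintype κ := Fintype.ofFinite κ
  refine ⟨Finset.univ.biUnion fun a => (hfin (z a)).toFinset, fun v hv a => ?_⟩
  rw [norm_alg]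
  by_contra hcon
  exact hv (Finset.mem_biUnion.mpr ⟨a, Finset.mem_univ a,
    (hfin _).mem_toFinset.mpr (not_le.mp hcon)⟩)

/-- **Integral splittings at almost all places.** -/
theorem exists_int_split {ι : Type} [Fintype ι] [DecidableEq ι] (e : Basis ι k B) {n : ℕ}
    (hn : n ≠ 0) (f : ∀ v : Place k, B →ₐ[k] Matrix (Fin n) (Fin n) v.comp) :
    ∃ (T : Finset (Place k)) (f' : ∀ v : Place k, B →ₐ[k] Matrix (Fin n) (Fin n) v.comp),
      (∀ v, ∃ h : Matrix (Fin n) (Fin n) v.comp, IsUnit h.det ∧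
        ∀ x, f' v x = h⁻¹ * f v x * h) ∧
      ∀ v ∉ T, ∀ c : ι → v.comp,
        (∀ i j, ‖(∑ l, c l • f' v (e l) : Matrix (Fin n) (Fin n) v.comp) i j‖ ≤ 1) ↔
          ∀ l, ‖c l‖ ≤ 1 := by
  classical
  have hfd : FiniteDimensional k B := Module.Finite.of_basis e
  have hbi : ∀ i j : ι, ∃ (m : ℕ) (x y : Fin m → B),
      ∀ l, ∑ t, x t * e l * y t = if l = j then e i else 0 := by
    intro i j
    obtain ⟨m, x, y, h⟩ := H973.exists_bimul ((e.coord j).smulRight (e i))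
      (Finset.univ.image e)
    refine ⟨m, x, y, fun l => ?_⟩
    rw [← h (e l) (Finset.mem_image_of_mem _ (Finset.mem_univ l)), LinearMap.smulRight_apply,
      Basis.coord_apply, e.repr_self, Finsupp.single_apply]
    split_ifs
    · rw [one_smul]
    · rw [zero_smul]
  choose m x y hxy using hbi
  obtain ⟨T1, hT1⟩ := exists_int_k fun l => e.repr 1 l
  obtain ⟨T2, hT2⟩ := exists_int_k fun p : ι × ι × ι => e.repr (e p.1 * e p.2.1) p.2.2
  obtain ⟨T3, hT3⟩ := exists_int_k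
    fun p : Σ q : ι × ι, Fin (m q.1 q.2) × ι => e.repr (x p.1.1 p.1.2 p.2.1) p.2.2
  obtain ⟨T4, hT4⟩ := exists_int_k
    fun p : Σ q : ι × ι, Fin (m q.1 q.2) × ι => e.repr (y p.1.1 p.1.2 p.2.1) p.2.2
  obtain ⟨T, hT⟩ : ∃ T : Finset (Place k), T = T1 ∪ T2 ∪ T3 ∪ T4 := ⟨_, rfl⟩
  have hloc : ∀ v ∉ T, ∃ h : Matrix (Fin n) (Fin n) v.comp, IsUnit h.det ∧
      ∀ c : ι → v.comp, (∀ i j, ‖(∑ l, c l • (h⁻¹ * f v (e l) * h)) i j‖ ≤ 1) ↔
        ∀ l, ‖c l‖ ≤ 1 := by
    intro v hv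
    rw [hT, Finset.mem_union, Finset.mem_union, Finset.mem_union, not_or, not_or, not_or] at hv
    have q1 := hT1 v hv.1.1.1
    have q2 : ∀ i j l, ‖algebraMap k v.comp (e.repr (e i * e j) l)‖ ≤ 1 :=
      fun i j l => hT2 v hv.1.1.2 (i, j, l)
    have q3 : ∀ i j t l, ‖algebraMap k v.comp (e.repr (x i j t) l)‖ ≤ 1 :=
      fun i j t l => hT3 v hv.1.2 ⟨(i, j), (t, l)⟩
    have q4 : ∀ i j t l, ‖algebraMap k v.comp (e.repr (y i j t) l)‖ ≤ 1 :=
      fun i j t l => hT4 v hv.2 ⟨(i, j), (t, l)⟩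
    have q5 := int_split_k (L := v.comp) (exists_small v) e hn m x y hxy q1 q2 q3 q4 (f v)
    exact q5
  have key : ∀ v : Place k, ∃ f' : B →ₐ[k] Matrix (Fin n) (Fin n) v.comp,
      (∃ h : Matrix (Fin n) (Fin n) v.comp, IsUnit h.det ∧ ∀ x, f' x = h⁻¹ * f v x * h) ∧
      (v ∉ T → ∀ c : ι → v.comp,
        (∀ i j, ‖(∑ l, c l • f' (e l)) i j‖ ≤ 1) ↔ ∀ l, ‖c l‖ ≤ 1) := by
    intro v
    by_cases hv : v ∈ T
    · refine ⟨f v, ⟨1, by rw [Matrix.det_one]; exact isUnit_one, fun x => ?_⟩,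
        fun hv' => absurd hv hv'⟩
      rw [inv_one, one_mul, mul_one]
    · obtain ⟨h, hu, hh⟩ := hloc v hv
      exact ⟨conj (f v) h hu, ⟨h, hu, fun x => rfl⟩, fun _ => hh⟩
  exact ⟨T, fun v => (key v).choose, fun v => (key v).choose_spec.1,
    fun v => (key v).choose_spec.2⟩

/-- **Integral splittings at almost all places**, final form: outside `T` the integral matrices
are exactly the integral combinations of the images of the basis. -/
theorem exists_int_splitting {ι : Type} [Fintype ι] [DecidableEq ι] (e : Basis ι k B) {n : ℕ}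
    (hn : n ≠ 0) (hcard : Fintype.card ι = n ^ 2)
    (f : ∀ v : Place k, B →ₐ[k] Matrix (Fin n) (Fin n) v.comp) :
    ∃ (T : Finset (Place k)) (f' : ∀ v : Place k, B →ₐ[k] Matrix (Fin n) (Fin n) v.comp),
      (∀ v, ∃ h : Matrix (Fin n) (Fin n) v.comp, IsUnit h.det ∧
        ∀ x, f' v x = h⁻¹ * f v x * h) ∧
      ∀ v ∉ T, ∀ M : Matrix (Fin n) (Fin n) v.comp,
        (∀ i j, ‖M i j‖ ≤ 1) ↔ ∃ c : ι → v.comp, (∀ l, ‖c l‖ ≤ 1) ∧ M = ∑ l, c l • f' v (e l) := by
  obtain ⟨T, f', h1, h2⟩ := exists_int_split e hn f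
  refine ⟨T, f', h1, fun v hv M => ⟨fun hM => ?_, ?_⟩⟩
  · obtain ⟨c, hc, -⟩ := exists_coord e hn hcard (f' v) M
    have hc' : M = ∑ l, c l • f' v (e l) := hc
    refine ⟨c, (h2 v hv c).mp ?_, hc'⟩
    rw [← hc']
    exact hM
  · rintro ⟨c, hc, rfl⟩
    exact (h2 v hv c).mpr hc

end Vale.Agent.P011.H983.Hey
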