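import Vale.Agent.P011.H983.KeyIdW

/-!
# The product relation in the unitary group, all characteristics

`K` field with involution, `w : K`, `w ≠ star w`; `A` a `K`-algebra with compatible involution,
anisotropic (`star x * x = 0 → x = 0`), in which left regular elements are units.
`cay s = (s + w)(s + star w)⁻¹`.
-/

set_option linter.unusedSimpArgs false
set_option linter.unnecessarySeqFocus false
set_option linter.unusedVariables false

namespace Vale.Agent.P011.H983

variable {K A : Type*} [Field K] [StarRing K] [Ring A] [StarRing A] [Algebra K A]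
  [StarModule K A]

/-- anisotropic involution, left regular elements are units -/
structure Aniso (A : Type*) [Ring A] [StarRing A] : Prop where
  aniso : ∀ x : A, star x * x = 0 → x = 0
  unit : ∀ x : A, (∀ y, x * y = 0 → y = 0) → IsUnit x

theorem Aniso.of_finiteDimensional (k : Type*) [Field k] [Algebra k A] [FiniteDimensional k A]
    (h : ∀ x : A, star x * x = 0 → x = 0) : Aniso A := by
  refine ⟨h, fun x hx => ?_⟩
  have inj : Function.Injective (LinearMap.mulLeft k x) := by
    intro y z hyz
    have : x * (y - z) = 0 := by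
      have : x * y = x * z := hyz
      rw [mul_sub, this, sub_self]
    exact sub_eq_zero.1 (hx _ this)
  have surj := LinearMap.surjective_of_injective inj
  obtain ⟨y, hy⟩ := surj 1
  have hy' : x * y = 1 := hy
  have h2 : y * x = 1 := by
    apply inj
    show x * (y * x) = x * 1
    rw [← mul_assoc, hy', one_mul, mul_one]
  exact ⟨⟨x, y, hy', h2⟩, rfl⟩

theorem Aniso.of_divisionRing {D : Type*} [DivisionRing D] [StarRing D] : Aniso D where
  aniso x h := by
    rcases mul_eq_zero.1 h with h | h
    · simpa using h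
    · exact h
  unit x hx := by
    rw [isUnit_iff_ne_zero]
    rintro rfl
    exact one_ne_zero (hx 1 (zero_mul 1))

section

variable (hA : Aniso A) (w : K) (hw : w ≠ star w)

include hA hw

theorem isUnit_add (s : A) (hs : star s = s) : IsUnit (s + w • (1 : A)) := by
  apply hA.unit
  intro y hy
  have h1 : star y * s * y + w • (star y * y) = 0 := by
    have := congrArg (star y * ·) hy
    simpa [add_mul, mul_add, mul_assoc, mul_smul_comm, smul_mul_assoc] using this
  have h2 : star y * s * y + star w • (star y * y) = 0 := by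
    have := congrArg star h1
    simpa [star_add, star_mul, star_smul, hs, mul_assoc] using this
  have h3 : (w - star w) • (star y * y) = 0 := by
    rw [sub_smul]
    have := congrArg₂ (· - ·) h1 h2
    simpa using this
  apply hA.aniso
  rcases smul_eq_zero.1 h3 with h | h
  · exact absurd (sub_eq_zero.1 h) hw
  · exact h

theorem isUnit_add_star (s : A) (hs : star s = s) : IsUnit (s + star w • (1 : A)) :=
  isUnit_add hA (star w) (by simpa using hw.symm) s hs

/-- the Cayley transform `(s + w)(s + star w)⁻¹` -/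
noncomputable def cay (s : selfAdjoint A) : unitary A :=
  ⟨(isUnit_add hA w hw s s.2).unit * ((isUnit_add_star hA w hw s s.2).unit⁻¹ : Aˣ), by
    set Q := (isUnit_add hA w hw s s.2).unit with hQ
    set P := (isUnit_add_star hA w hw s s.2).unit with hP
    have hQv : (Q : A) = s + w • 1 := rfl
    have hPv : (P : A) = s + star w • 1 := rfl
    have hs : star (s : A) = s := s.2
    have hsQ : star (Q : A) = P := by rw [hQv, hPv]; simp [hs]
    have hsP : star (P : A) = Q := by rw [hQv, hPv]; simp [hs]
    have hcomm : (Q : A) * P = P * Q := by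
      rw [hQv, hPv]; simp only [add_mul, mul_add, sub_mul, mul_sub, smul_mul_assoc, mul_smul_comm, smul_smul,
    smul_add, smul_sub, mul_assoc, one_mul, mul_one, neg_mul, mul_neg, smul_neg,
    Units.mul_inv, Units.inv_mul, Units.mul_inv_cancel_left, Units.inv_mul_cancel_left]; module
    have hstar : star ((Q : A) * (P⁻¹ : Aˣ)) = (Q⁻¹ : Aˣ) * P := by
      have e : star ((P⁻¹ : Aˣ) : A) = (Q⁻¹ : Aˣ) := by
        have h1 : star ((P⁻¹ : Aˣ) : A) * Q = 1 := by
          rw [← hsP, ← star_mul, Units.mul_inv, star_one]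
        calc star ((P⁻¹ : Aˣ) : A) = star ((P⁻¹ : Aˣ) : A) * (Q * (Q⁻¹ : Aˣ)) := by simp
          _ = (Q⁻¹ : Aˣ) := by rw [← mul_assoc, h1, one_mul]
      rw [star_mul, e, hsQ]
    have hu : IsUnit ((Q : A) * (P⁻¹ : Aˣ)) := (Q * P⁻¹).isUnit
    rw [hu.mem_unitary_iff_star_mul_self, hstar]
    calc ((Q⁻¹ : Aˣ) : A) * P * (Q * (P⁻¹ : Aˣ)) = (Q⁻¹ : Aˣ) * (P * Q) * (P⁻¹ : Aˣ) := by
          simp [mul_assoc]
      _ = (Q⁻¹ : Aˣ) * (Q * P) * (P⁻¹ : Aˣ) := by rw [hcomm]
      _ = 1 := by simp⟩

theorem cay_mul (s : selfAdjoint A) :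
    (cay hA w hw s : A) * (s + star w • 1) = s + w • 1 := by
  show ((isUnit_add hA w hw s s.2).unit : A) * ((isUnit_add_star hA w hw s s.2).unit⁻¹ : Aˣ)
    * (s + star w • 1) = _
  rw [mul_assoc]
  erw [Units.inv_mul (isUnit_add_star hA w hw s s.2).unit]
  rw [mul_one]; rfl

/-- conjugation equivariance of the Cayley transform -/
theorem cay_conj (g : unitary A) (s s' : selfAdjoint A) (hs : (s' : A) = g * s * star (g : A)) :
    cay hA w hw s' = g * cay hA w hw s * g⁻¹ := by
  apply Subtype.ext
  have h1 := cay_mul hA w hw s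
  have h2 := cay_mul hA w hw s'
  have hg : star (g : A) * g = 1 := Unitary.coe_star_mul_self g
  have hg' : (g : A) * star (g : A) = 1 := Unitary.coe_mul_star_self g
  have hu := isUnit_add_star hA w hw s' s'.2
  apply hu.mul_right_cancel
  rw [h2]
  have e1 : ∀ v : K, (s' : A) + v • 1 = g * (s + v • 1) * star (g : A) := by
    intro v
    rw [hs, mul_add, add_mul, mul_smul_comm, smul_mul_assoc, mul_one, hg']
  rw [e1, e1, ← h1]
  show _ = (g : A) * cay hA w hw s * star (g : A) * (g * (s + star w • 1) * star (g : A))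
  calc (g : A) * (cay hA w hw s * (s + star w • 1)) * star (g : A)
      = g * cay hA w hw s * 1 * (s + star w • 1) * star (g : A) := by simp [mul_assoc]
    _ = g * cay hA w hw s * (star (g : A) * g) * (s + star w • 1) * star (g : A) := by rw [hg]
    _ = _ := by simp only [mul_assoc]

/-- the translation vector `h (t + t⁻¹) - h² η⁻¹ (t - t⁻¹)`, `η = w - star w` -/
noncomputable def tv (h : K) (t : unitary A) : A :=
  h • ((t : A) + star (t : A)) - (h ^ 2 * (w - star w)⁻¹) • ((t : A) - star (t : A))

omit hA hw in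
theorem star_tv (h : K) (hh : star h = h) (t : unitary A) : star (tv w h t) = tv w h t := by
  unfold tv
  have e : star (h ^ 2 * (w - star w)⁻¹) = -(h ^ 2 * (w - star w)⁻¹) := by
    rw [star_mul', star_pow, hh, star_inv₀, star_sub, star_star]
    rw [← neg_sub w (star w), inv_neg, mul_neg]
  rw [star_sub, star_smul, star_smul, star_add, star_sub, star_star, hh, e]
  rw [neg_smul, smul_sub, smul_sub, smul_add, smul_add]
  abel

/-- the translate `ξ + v_t(h)` -/
noncomputable def trans (h : K) (hh : star h = h) (t : unitary A) (ξ : selfAdjoint A) :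
    selfAdjoint A :=
  ⟨ξ + tv w h t, by
    have := ξ.2
    rw [selfAdjoint.mem_iff] at this ⊢
    rw [star_add, this, star_tv w h hh t]⟩

omit hw in
theorem isUnit_moeb {η h : K} (hη : star η = -η) (h0 : η ≠ 0) (hh : star h = h) (u : unitary A) :
    IsUnit (h • (u : A) + (η - h) • 1) := by
  apply hA.unit
  intro y hy
  have h1 : h • ((u : A) * y) = (h - η) • y := by
    have : h • ((u : A) * y) + (η - h) • y = 0 := by
      simpa [add_mul, smul_mul_assoc] using hy
    have e : (h - η) • y = -((η - h) • y) := by rw [← neg_smul]; congr 1; ring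
    rw [e]; exact eq_neg_of_add_eq_zero_left this
  have h2 : star (h • ((u : A) * y)) * (h • ((u : A) * y)) = (h * h) • (star y * y) := by
    rw [star_smul, star_mul, hh, smul_mul_assoc, mul_smul_comm, smul_smul]
    congr 1
    calc star y * star (u : A) * (u * y) = star y * (star (u : A) * u) * y := by
          simp only [mul_assoc]
      _ = star y * y := by rw [Unitary.coe_star_mul_self, mul_one]
  have h3 : star (h • ((u : A) * y)) * (h • ((u : A) * y))
      = ((h + η) * (h - η)) • (star y * y) := by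
    rw [h1, star_smul, smul_mul_assoc, mul_smul_comm, smul_smul, star_sub, hh, hη, sub_neg_eq_add]
  have h4 : (η * η) • (star y * y) = 0 := by
    have : ((h * h) - ((h + η) * (h - η))) • (star y * y) = 0 := by
      rw [sub_smul, ← h2, ← h3, sub_self]
    rwa [show (h * h) - ((h + η) * (h - η)) = η * η by ring] at this
  apply hA.aniso
  rcases smul_eq_zero.1 h4 with h5 | h5
  · exact absurd (mul_self_eq_zero.1 h5) h0
  · exact h5

/-- **Product relation in the unitary group, all characteristics.**  There is a unitary `z` with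
`z (t⁻¹ ω' t ω) z⁻¹ = t ω' t⁻¹ ω`, where `ω = cay ξ`, `ω' = cay (ξ + v_t(h))`. -/
theorem prodRel (h : K) (hh : star h = h) (t : unitary A) (ξ : selfAdjoint A) :
    ∃ z : unitary A,
      z * (t⁻¹ * cay hA w hw (trans w h hh t ξ) * t * cay hA w hw ξ)
        = (t * cay hA w hw (trans w h hh t ξ) * t⁻¹ * cay hA w hw ξ) * z := by
  set η : K := w - star w with hη
  have h0 : η ≠ 0 := sub_ne_zero.2 hw
  have hsη : star η = -η := by rw [hη, star_sub, star_star, neg_sub]
  set ξ' := trans w h hh t ξ with hξ'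
  set ω := cay hA w hw ξ with hω
  set ω' := cay hA w hw ξ' with hω'
  obtain ⟨P, hP⟩ := isUnit_add_star hA w hw ξ ξ.2
  obtain ⟨P', hP'⟩ := isUnit_add_star hA w hw ξ' ξ'.2
  set T : Aˣ := Unitary.toUnits t with hT
  have hTv : (T : A) = t := rfl
  have hTi : ((T⁻¹ : Aˣ) : A) = star (t : A) := rfl
  -- `a` and `b`
  have hηη : ∀ x : A, η⁻¹ • η • x = x := fun x => by rw [smul_smul, inv_mul_cancel₀ h0, one_smul]
  have ha' : IsUnit ((1 : A) - (h * η⁻¹) • ((t : A) - 1)) := by
    have h1 := isUnit_moeb hA (η := -η) (h := h) (by rw [star_neg, hsη]) (neg_ne_zero.2 h0)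
      hh t
    have h2 : (1 : A) - (h * η⁻¹) • ((t : A) - 1) = (-η)⁻¹ • (h • (t : A) + (-η - h) • 1) := by
      match_scalars <;> field_simp <;> ring
    rw [h2]
    exact IsUnit.smul (Units.mk0 _ (inv_ne_zero (neg_ne_zero.2 h0))) h1
  obtain ⟨a, ha⟩ := ha'
  have hstt : star (t : A) * t = 1 := Unitary.coe_star_mul_self t
  have htst : (t : A) * star (t : A) = 1 := Unitary.coe_mul_star_self t
  have hsa : star (a : A) = 1 + (h * η⁻¹) • (star (t : A) - 1) := by
    rw [ha, star_sub, star_smul, star_one, star_sub, star_one, star_mul', hh, star_inv₀, hsη,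
      inv_neg, mul_neg, neg_smul, sub_neg_eq_add]
  have hbe : (t : A) - (h * η⁻¹) • ((t : A) - 1) = t * star (a : A) := by
    rw [hsa, mul_add, mul_smul_comm, mul_sub, htst, mul_one]
    module
  obtain ⟨b, hb⟩ : IsUnit ((t : A) - (h * η⁻¹) • ((t : A) - 1)) := by
    rw [hbe]
    exact (Unitary.isUnit_coe (U := t)).mul a.isUnit.star
  have hbe' : (b : A) = t * star (a : A) := by rw [hb, hbe]
  have hsaa : star (a : A) * a = a * star (a : A) := by
    rw [hsa, ha]
    have e1 : star (t : A) * t = t * star (t : A) := by rw [hstt, htst]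
    simp only [add_mul, mul_add, sub_mul, mul_sub, smul_mul_assoc, mul_smul_comm, smul_smul,
      one_mul, mul_one, e1]
    module
  have hu_mem : (b : A) * (a⁻¹ : Aˣ) ∈ unitary A := by
    have hu : IsUnit ((b : A) * (a⁻¹ : Aˣ)) := (b * a⁻¹).isUnit
    rw [hu.mem_unitary_iff_star_mul_self, star_mul, hbe', star_mul, star_star]
    have e : star ((a⁻¹ : Aˣ) : A) * star (a : A) = 1 := by
      rw [← star_mul, Units.mul_inv, star_one]
    calc star ((a⁻¹ : Aˣ) : A) * (a * star (t : A)) * (t * star (a : A) * (a⁻¹ : Aˣ))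
        = star ((a⁻¹ : Aˣ) : A) * (a * (star (t : A) * t) * star (a : A)) * (a⁻¹ : Aˣ) := by
          simp only [mul_assoc]
      _ = star ((a⁻¹ : Aˣ) : A) * (star (a : A) * a) * (a⁻¹ : Aˣ) := by
          rw [hstt, mul_one, hsaa]
      _ = (star ((a⁻¹ : Aˣ) : A) * star (a : A)) * (a * (a⁻¹ : Aˣ)) := by simp only [mul_assoc]
      _ = 1 := by rw [e, Units.mul_inv, mul_one]
  set u : unitary A := ⟨_, hu_mem⟩ with hu
  have huv : (u : A) = (b : A) * (a⁻¹ : Aˣ) := rfl
  set α : unitary A := u * ω with hα
  have hωP : (ω : A) * P = P + η • 1 := by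
    rw [hP, hω, cay_mul, hη, sub_smul]; abel
  have hωP' : (ω' : A) * P' = P' + η • 1 := by
    rw [hP', hω', cay_mul, hη, sub_smul]; abel
  have hab : (a : A) * b = b * a := by
    rw [ha, hb]; simp only [add_mul, mul_add, sub_mul, mul_sub, smul_mul_assoc, mul_smul_comm, smul_smul,
    smul_add, smul_sub, mul_assoc, one_mul, mul_one, neg_mul, mul_neg, smul_neg,
    Units.mul_inv, Units.inv_mul, Units.mul_inv_cancel_left, Units.inv_mul_cancel_left]; module
  have haαP : (a : A) * α * P = b * (P + η • 1) := by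
    have : (α : A) = (b : A) * (a⁻¹ : Aˣ) * ω := rfl
    rw [this, ← hωP]
    calc (a : A) * ((b : A) * (a⁻¹ : Aˣ) * ω) * P = (a * b) * (a⁻¹ : Aˣ) * ω * P := by
          simp only [mul_assoc]
      _ = b * (ω * P) := by rw [hab]; simp [mul_assoc]
  obtain ⟨X, hX⟩ := isUnit_moeb hA (η := η) (h := h) hsη h0 hh α
  -- the element `x`
  have hxe : (P : A) + h • (b : A) = (η⁻¹ : K) • ((a : A) * X * P) := by
    have e : (a : A) * X * P = h • (b * (P + η • 1)) + (η - h) • ((a : A) * P) := by
      rw [hX, ← haαP]; simp only [add_mul, mul_add, sub_mul, mul_sub, smul_mul_assoc, mul_smul_comm, smul_smul,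
    smul_add, smul_sub, mul_assoc, one_mul, mul_one, neg_mul, mul_neg, smul_neg,
    Units.mul_inv, Units.inv_mul, Units.mul_inv_cancel_left, Units.inv_mul_cancel_left]
    rw [e, ha, hb]; simp only [add_mul, mul_add, sub_mul, mul_sub, smul_mul_assoc, mul_smul_comm, smul_smul,
    smul_add, smul_sub, mul_assoc, one_mul, mul_one, neg_mul, mul_neg, smul_neg,
    Units.mul_inv, Units.inv_mul, Units.mul_inv_cancel_left, Units.inv_mul_cancel_left]
    match_scalars <;> field_simp <;> ring
  obtain ⟨x, hx⟩ : IsUnit ((P : A) + h • (b : A)) := by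
    rw [hxe]
    exact IsUnit.smul (Units.mk0 _ (inv_ne_zero h0)) (a * X * P).isUnit
  have H : Dat η h T P a b x P' (T * ((P : A) + η • 1) + h • (a : A)) := by
    refine ⟨h0, ha, hb, hx, rfl, ?_⟩
    rw [hP', hTi, hTv, hP, hξ']
    show (ξ : A) + tv w h t + star w • 1 = _
    unfold tv
    abel
  have hrel := H.rel
  set y : A := T * ((P : A) + η • 1) + h • (a : A) with hy
  have hxX : (a : A) * X * P = η • (x : A) := by
    rw [hx, hxe, smul_smul, mul_inv_cancel₀ h0, one_smul]
  set Y : A := (h + η) • (α : A) - h • 1 with hY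
  have hyY : (a : A) * Y * P = η • y := by
    rw [← H.h2, ← haαP, hY]; simp only [add_mul, mul_add, sub_mul, mul_sub, smul_mul_assoc, mul_smul_comm, smul_smul,
    smul_add, smul_sub, mul_assoc, one_mul, mul_one, neg_mul, mul_neg, smul_neg,
    Units.mul_inv, Units.inv_mul, Units.mul_inv_cancel_left, Units.inv_mul_cancel_left]
  set z0 : A := ((a⁻¹ : Aˣ) : A) * y * (x⁻¹ : Aˣ) * a with hz0
  have hzX : z0 * X = Y := by
    have e1 : ((x⁻¹ : Aˣ) : A) * (a * X) = η • ((P⁻¹ : Aˣ) : A) := by
      have : (a : A) * X = η • ((x : A) * (P⁻¹ : Aˣ)) := by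
        rw [← smul_mul_assoc, ← hxX]; simp
      rw [this, mul_smul_comm]; simp
    have e2 : ((a⁻¹ : Aˣ) : A) * (η • y) * (P⁻¹ : Aˣ) = Y := by
      rw [← hyY]; simp [mul_assoc]
    calc z0 * X = (a⁻¹ : Aˣ) * y * ((x⁻¹ : Aˣ) * (a * X)) := by simp only [hz0, mul_assoc]
      _ = ((a⁻¹ : Aˣ) : A) * (η • y) * (P⁻¹ : Aˣ) := by
          rw [e1, mul_smul_comm, mul_smul_comm, smul_mul_assoc]
      _ = Y := e2
  have hαα : star (α : A) * α = 1 := Unitary.coe_star_mul_self α
  have hYX : star Y * Y = star (X : A) * X := by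
    have sh : star (h + η) = h - η := by rw [star_add, hh, hsη, sub_eq_add_neg]
    have sh' : star (η - h) = -η - h := by rw [star_sub, hh, hsη]
    have sY : star Y = (h - η) • star (α : A) - h • 1 := by
      rw [hY, star_sub, star_smul, star_smul, star_one, sh, hh]
    have sX : star (X : A) = h • star (α : A) + (-η - h) • 1 := by
      rw [hX, star_add, star_smul, star_smul, star_one, sh', hh]
    rw [sY, sX, hY, hX]
    simp only [add_mul, mul_add, sub_mul, mul_sub, smul_mul_assoc, mul_smul_comm, smul_smul,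
      one_mul, mul_one, hαα]
    module
  have hzz : star z0 * z0 = 1 := by
    have e : star (X : A) * (star z0 * z0 * X) = star (X : A) * (1 * X) := by
      have e1 : star (z0 * X) = star (X : A) * star z0 := star_mul _ _
      rw [one_mul, ← hYX, ← hzX, e1]; simp only [← mul_assoc]
    have hsX : IsUnit (star (X : A)) := X.isUnit.star
    exact X.isUnit.mul_right_cancel (hsX.mul_left_cancel e)
  have hzu : IsUnit z0 := by
    apply hA.unit
    intro v hv
    calc v = star z0 * z0 * v := by rw [hzz, one_mul]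
      _ = 0 := by rw [mul_assoc, hv, mul_zero]
  have hzm : z0 ∈ unitary A := hzu.mem_unitary_iff_star_mul_self.2 hzz
  refine ⟨⟨z0, hzm⟩, ?_⟩
  have eω : (ω : A) = ((P : A) + η • 1) * (P⁻¹ : Aˣ) := by
    rw [← hωP]; simp
  have eω' : (ω' : A) = ((P'⁻¹ : Aˣ) : A) * ((P' : A) + η • 1) := by
    have e1 : (ω' : A) = ((P' : A) + η • 1) * (P'⁻¹ : Aˣ) := by
      rw [← hωP']; simp
    rw [e1]; simp [add_mul, mul_add]
  apply Subtype.ext
  show z0 * (star (t : A) * ω' * t * ω) = t * ω' * star (t : A) * ω * z0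
  rw [eω, eω', ← hTi, ← hTv]
  exact hrel

/-- consequence for every group homomorphism on the unitary group -/
theorem isConj_of_hom {R : Type*} [Group R] (c : unitary A →* R) (h : K) (hh : star h = h)
    (t : unitary A) (ξ : selfAdjoint A) :
    IsConj ((c t)⁻¹ * c (cay hA w hw (trans w h hh t ξ)) * c t * c (cay hA w hw ξ))
      (c t * c (cay hA w hw (trans w h hh t ξ)) * (c t)⁻¹ * c (cay hA w hw ξ)) := by
  obtain ⟨z, hz⟩ := prodRel hA w hw h hh t ξ
  rw [isConj_iff]
  refine ⟨c z, ?_⟩
  have := congrArg c hz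
  simp only [map_mul, map_inv] at this
  rw [this]; simp [mul_assoc]

end

end Vale.Agent.P011.H983
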