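import Mathlib

/-!
# The product relation in all characteristics (ring level)

`A` is an algebra over a field `K`, `η ≠ 0`, `h` scalars, `t` a unit of `A`, `P = ξ + w*`
(so that `P + η = ξ + w`).  `om = (P+η) P⁻¹` is the Cayley transform of `ξ`, and
`P' = P + h (t + t⁻¹) - h² η⁻¹ (t - t⁻¹)`.
-/

set_option linter.unusedSimpArgs false
set_option linter.unnecessarySeqFocus false
set_option linter.unusedVariables false

namespace Vale.Agent.P011.H983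

open scoped Classical

section core

variable {K A : Type*} [Field K] [Ring A] [Algebra K A]

variable (η h : K) (t P a b x P' : Aˣ) (y : A)

/-- the data of the product relation -/
structure Dat : Prop where
  hη : η ≠ 0
  ha : (a : A) = 1 - (h * η⁻¹) • ((t : A) - 1)
  hb : (b : A) = t - (h * η⁻¹) • ((t : A) - 1)
  hx : (x : A) = P + h • (b : A)
  hy : y = t * ((P : A) + η • 1) + h • (a : A)
  hP' : (P' : A) = P + h • ((t : A) + (t⁻¹ : Aˣ)) - (h ^ 2 * η⁻¹) • ((t : A) - (t⁻¹ : Aˣ))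

variable {η h t P a b x P' y}

theorem Dat.ta (H : Dat η h t P a b x P' y) : (t : A) * a = a * t := by
  rw [H.ha]; simp only [add_mul, mul_add, sub_mul, mul_sub, smul_mul_assoc, mul_smul_comm, smul_smul,
    smul_add, smul_sub, mul_assoc, one_mul, mul_one, neg_mul, mul_neg, smul_neg,
    Units.mul_inv, Units.inv_mul, Units.mul_inv_cancel_left, Units.inv_mul_cancel_left]

theorem Dat.tb (H : Dat η h t P a b x P' y) : (t : A) * b = b * t := by
  rw [H.hb]; simp only [add_mul, mul_add, sub_mul, mul_sub, smul_mul_assoc, mul_smul_comm, smul_smul,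
    smul_add, smul_sub, mul_assoc, one_mul, mul_one, neg_mul, mul_neg, smul_neg,
    Units.mul_inv, Units.inv_mul, Units.mul_inv_cancel_left, Units.inv_mul_cancel_left]

theorem Dat.ab (H : Dat η h t P a b x P' y) : (a : A) * b = b * a := by
  rw [H.ha, H.hb]; simp only [add_mul, mul_add, sub_mul, mul_sub, smul_mul_assoc, mul_smul_comm, smul_smul,
    smul_add, smul_sub, mul_assoc, one_mul, mul_one, neg_mul, mul_neg, smul_neg,
    Units.mul_inv, Units.inv_mul, Units.mul_inv_cancel_left, Units.inv_mul_cancel_left]; module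

theorem Dat.h1 (H : Dat η h t P a b x P' y) :
    h • ((b : A) * (P + η • 1)) + (η - h) • ((a : A) * P) = η • (x : A) := by
  have := H.hη
  rw [H.hx, H.ha, H.hb]; simp only [add_mul, mul_add, sub_mul, mul_sub, smul_mul_assoc, mul_smul_comm, smul_smul,
    smul_add, smul_sub, mul_assoc, one_mul, mul_one, neg_mul, mul_neg, smul_neg,
    Units.mul_inv, Units.inv_mul, Units.mul_inv_cancel_left, Units.inv_mul_cancel_left]; 
  match_scalars <;> field_simp <;> ring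

theorem Dat.h2 (H : Dat η h t P a b x P' y) :
    (h + η) • ((b : A) * (P + η • 1)) - h • ((a : A) * P) = η • y := by
  have := H.hη
  rw [H.hy, H.ha, H.hb]; simp only [add_mul, mul_add, sub_mul, mul_sub, smul_mul_assoc, mul_smul_comm, smul_smul,
    smul_add, smul_sub, mul_assoc, one_mul, mul_one, neg_mul, mul_neg, smul_neg,
    Units.mul_inv, Units.inv_mul, Units.mul_inv_cancel_left, Units.inv_mul_cancel_left]
  match_scalars <;> field_simp <;> ring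

theorem Dat.h3 (H : Dat η h t P a b x P' y) :
    y = t * x + η • ((a : A) * b) := by
  have := H.hη
  rw [H.hy, H.hx, H.ha, H.hb]; simp only [add_mul, mul_add, sub_mul, mul_sub, smul_mul_assoc, mul_smul_comm, smul_smul,
    smul_add, smul_sub, mul_assoc, one_mul, mul_one, neg_mul, mul_neg, smul_neg,
    Units.mul_inv, Units.inv_mul, Units.mul_inv_cancel_left, Units.inv_mul_cancel_left]
  match_scalars <;> field_simp <;> ring

theorem Dat.h4 (H : Dat η h t P a b x P' y) :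
    (P' : A) = x + h • ((a : A) * (t⁻¹ : Aˣ)) := by
  have := H.hη
  rw [H.hP', H.hx, H.ha, H.hb]; simp only [add_mul, mul_add, sub_mul, mul_sub, smul_mul_assoc, mul_smul_comm, smul_smul,
    smul_add, smul_sub, mul_assoc, one_mul, mul_one, neg_mul, mul_neg, smul_neg,
    Units.mul_inv, Units.inv_mul, Units.mul_inv_cancel_left, Units.inv_mul_cancel_left]
  match_scalars <;> field_simp <;> ring

theorem Dat.h5 (H : Dat η h t P a b x P' y) :
    (P' : A) + η • 1 = (t⁻¹ : Aˣ) * y + h • (b : A) := by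
  have := H.hη
  rw [H.h4, H.h3, H.ha, H.hb]; simp only [add_mul, mul_add, sub_mul, mul_sub, smul_mul_assoc, mul_smul_comm, smul_smul,
    smul_add, smul_sub, mul_assoc, one_mul, mul_one, neg_mul, mul_neg, smul_neg,
    Units.mul_inv, Units.inv_mul, Units.mul_inv_cancel_left, Units.inv_mul_cancel_left]
  match_scalars <;> field_simp <;> ring

theorem Dat.h6 (H : Dat η h t P a b x P' y) :
    h • (1 : A) - η • (b : A) = (h - η) • (t : A) := by
  have := H.hη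
  rw [H.hb]; simp only [add_mul, mul_add, sub_mul, mul_sub, smul_mul_assoc, mul_smul_comm, smul_smul,
    smul_add, smul_sub, mul_assoc, one_mul, mul_one, neg_mul, mul_neg, smul_neg,
    Units.mul_inv, Units.inv_mul, Units.mul_inv_cancel_left, Units.inv_mul_cancel_left]
  match_scalars <;> field_simp <;> ring

theorem Dat.tia (H : Dat η h t P a b x P' y) : ((t⁻¹ : Aˣ) : A) * a = a * (t⁻¹ : Aˣ) := by
  have := H.ta
  calc ((t⁻¹ : Aˣ) : A) * a = (t⁻¹ : Aˣ) * (a * t) * (t⁻¹ : Aˣ) := by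
        simp [mul_assoc]
    _ = (t⁻¹ : Aˣ) * (t * a) * (t⁻¹ : Aˣ) := by rw [this]
    _ = a * (t⁻¹ : Aˣ) := by simp [← mul_assoc]

theorem Dat.tib (H : Dat η h t P a b x P' y) : ((t⁻¹ : Aˣ) : A) * b = b * (t⁻¹ : Aˣ) := by
  have := H.tb
  calc ((t⁻¹ : Aˣ) : A) * b = (t⁻¹ : Aˣ) * (b * t) * (t⁻¹ : Aˣ) := by
        simp [mul_assoc]
    _ = (t⁻¹ : Aˣ) * (t * b) * (t⁻¹ : Aˣ) := by rw [this]
    _ = b * (t⁻¹ : Aˣ) := by simp [← mul_assoc]

/-- The element `y x⁻¹` commutes with `b om a⁻¹`. -/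
theorem Dat.c1 (H : Dat η h t P a b x P' y) :
    Commute (y * (x⁻¹ : Aˣ)) ((b : A) * (P + η • 1) * (P⁻¹ : Aˣ) * (a⁻¹ : Aˣ)) := by
  have hη := H.hη
  set α : A := (b : A) * (P + η • 1) * (P⁻¹ : Aˣ) * (a⁻¹ : Aˣ) with hα
  have hαaP : α * ((a : A) * P) = (b : A) * (P + η • 1) := by
    simp [hα, mul_assoc]
  have hX : (h • α + (η - h) • 1) * ((a : A) * P) = η • (x : A) := by
    rw [← H.h1, add_mul, smul_mul_assoc, hαaP, smul_mul_assoc, one_mul]
  have hY : ((h + η) • α - h • 1) * ((a : A) * P) = η • y := by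
    rw [← H.h2, sub_mul, smul_mul_assoc, hαaP, smul_mul_assoc, one_mul]
  have hX' : h • α + (η - h) • 1 = η • ((x : A) * ((P⁻¹ : Aˣ) * (a⁻¹ : Aˣ))) := by
    have := congrArg (· * (((P⁻¹ : Aˣ) : A) * (a⁻¹ : Aˣ))) hX
    simpa [mul_assoc, smul_mul_assoc] using this
  have hY' : (h + η) • α - h • 1 = η • (y * ((P⁻¹ : Aˣ) * (a⁻¹ : Aˣ))) := by
    have := congrArg (· * (((P⁻¹ : Aˣ) : A) * (a⁻¹ : Aˣ))) hY
    simpa [mul_assoc, smul_mul_assoc] using this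
  have hYX : y * (x⁻¹ : Aˣ) * (h • α + (η - h) • 1) = (h + η) • α - h • 1 := by
    rw [hX', hY']; simp [mul_assoc, mul_smul_comm]
  -- cancel the unit
  have hcX : Commute α (h • α + (η - h) • 1) :=
    (Commute.refl α).smul_right h |>.add_right ((Commute.one_right α).smul_right _)
  have hcY : Commute α ((h + η) • α - h • 1) :=
    ((Commute.refl α).smul_right _).sub_right ((Commute.one_right α).smul_right _)
  have key : (y * (x⁻¹ : Aˣ) * α) * (h • α + (η - h) • 1)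
      = (α * (y * (x⁻¹ : Aˣ))) * (h • α + (η - h) • 1) := by
    calc (y * (x⁻¹ : Aˣ) * α) * (h • α + (η - h) • 1)
        = (y * (x⁻¹ : Aˣ)) * (α * (h • α + (η - h) • 1)) := by rw [mul_assoc]
      _ = (y * (x⁻¹ : Aˣ)) * ((h • α + (η - h) • 1) * α) := by rw [hcX.eq]
      _ = ((h + η) • α - h • 1) * α := by rw [← mul_assoc, hYX]
      _ = α * ((h + η) • α - h • 1) := by rw [hcY.eq]
      _ = α * (y * (x⁻¹ : Aˣ) * (h • α + (η - h) • 1)) := by rw [hYX]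
      _ = (α * (y * (x⁻¹ : Aˣ))) * (h • α + (η - h) • 1) := by rw [← mul_assoc]
  have hu : IsUnit (h • α + (η - h) • 1) := by
    rw [hX']
    exact IsUnit.smul (Units.mk0 η hη) (x * (P⁻¹ * a⁻¹)).isUnit
  exact hu.mul_right_cancel key

/-- The element `t⁻¹ z t⁻¹` commutes with `om' u⁻¹`. -/
theorem Dat.c2 (H : Dat η h t P a b x P' y) :
    Commute ((t⁻¹ : Aˣ) * ((a⁻¹ : Aˣ) * y * (x⁻¹ : Aˣ) * a) * (t⁻¹ : Aˣ))
      (((P'⁻¹ : Aˣ) : A) * (P' + η • 1) * a * (b⁻¹ : Aˣ)) := by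
  have hη := H.hη
  set β : A := ((P'⁻¹ : Aˣ) : A) * (P' + η • 1) * a * (b⁻¹ : Aˣ) with hβ
  set m : A := (t⁻¹ : Aˣ) * ((a⁻¹ : Aˣ) * y * (x⁻¹ : Aˣ) * a) * (t⁻¹ : Aˣ) with hm
  have hPβb : (P' : A) * (β * b) = (P' + η • 1) * a := by
    simp [hβ, mul_assoc]
  have hX : (P' : A) * ((-(h • β) + (η + h) • 1) * b) = η • ((x : A) * t) := by
    have e : (P' : A) * ((-(h • β) + (η + h) • 1) * b)
        = -(h • ((P' : A) * (β * b))) + (η + h) • ((P' : A) * b) := by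
      simp only [add_mul, mul_add, sub_mul, mul_sub, smul_mul_assoc, mul_smul_comm, smul_smul,
    smul_add, smul_sub, mul_assoc, one_mul, mul_one, neg_mul, mul_neg, smul_neg,
    Units.mul_inv, Units.inv_mul, Units.mul_inv_cancel_left, Units.inv_mul_cancel_left]
    rw [e, hPβb, H.h4]
    rw [H.hb, H.ha]; simp only [add_mul, mul_add, sub_mul, mul_sub, smul_mul_assoc, mul_smul_comm, smul_smul,
    smul_add, smul_sub, mul_assoc, one_mul, mul_one, neg_mul, mul_neg, smul_neg,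
    Units.mul_inv, Units.inv_mul, Units.mul_inv_cancel_left, Units.inv_mul_cancel_left]
    match_scalars <;> field_simp <;> ring
  have hY : (P' : A) * (((η - h) • β + h • 1) * b) = η • (((t⁻¹ : Aˣ) : A) * y) := by
    have e : (P' : A) * (((η - h) • β + h • 1) * b)
        = (η - h) • ((P' : A) * (β * b)) + h • ((P' : A) * b) := by
      simp only [add_mul, mul_add, sub_mul, mul_sub, smul_mul_assoc, mul_smul_comm, smul_smul,
    smul_add, smul_sub, mul_assoc, one_mul, mul_one, neg_mul, mul_neg, smul_neg,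
    Units.mul_inv, Units.inv_mul, Units.mul_inv_cancel_left, Units.inv_mul_cancel_left]
    rw [e, hPβb, H.h4, H.h3]
    rw [H.hb, H.ha]; simp only [add_mul, mul_add, sub_mul, mul_sub, smul_mul_assoc, mul_smul_comm, smul_smul,
    smul_add, smul_sub, mul_assoc, one_mul, mul_one, neg_mul, mul_neg, smul_neg,
    Units.mul_inv, Units.inv_mul, Units.mul_inv_cancel_left, Units.inv_mul_cancel_left]
    match_scalars <;> field_simp <;> ring
  have hm1 : m = ((t⁻¹ : Aˣ) : A)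
      + η • (((t⁻¹ : Aˣ) : A) * ((b : A) * ((x⁻¹ : Aˣ) * ((a : A) * (t⁻¹ : Aˣ))))) := by
    have e1 : ((a⁻¹ : Aˣ) : A) * y = (t : A) * (a⁻¹ : Aˣ) * x + η • (b : A) := by
      have hta : ((a⁻¹ : Aˣ) : A) * t = t * (a⁻¹ : Aˣ) := by
        calc ((a⁻¹ : Aˣ) : A) * t = (a⁻¹ : Aˣ) * (t * a) * (a⁻¹ : Aˣ) := by simp [mul_assoc]
          _ = (a⁻¹ : Aˣ) * (a * t) * (a⁻¹ : Aˣ) := by rw [H.ta]
          _ = t * (a⁻¹ : Aˣ) := by simp [← mul_assoc]
      rw [H.h3, mul_add, ← mul_assoc, hta, mul_smul_comm, Units.inv_mul_cancel_left]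
    rw [hm, e1]; simp only [add_mul, mul_add, sub_mul, mul_sub, smul_mul_assoc, mul_smul_comm, smul_smul,
    smul_add, smul_sub, mul_assoc, one_mul, mul_one, neg_mul, mul_neg, smul_neg,
    Units.mul_inv, Units.inv_mul, Units.mul_inv_cancel_left, Units.inv_mul_cancel_left]
  have hPm : (P' : A) * m = ((t⁻¹ : Aˣ) : A) * y * (t⁻¹ : Aˣ) * (x⁻¹ : Aˣ) * P' := by
    rw [hm1, H.h4, H.h3, H.hb, H.ha]; simp only [add_mul, mul_add, sub_mul, mul_sub, smul_mul_assoc, mul_smul_comm, smul_smul,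
    smul_add, smul_sub, mul_assoc, one_mul, mul_one, neg_mul, mul_neg, smul_neg,
    Units.mul_inv, Units.inv_mul, Units.mul_inv_cancel_left, Units.inv_mul_cancel_left]
    match_scalars <;> field_simp <;> ring
  have hX' : -(h • β) + (η + h) • 1 = η • (((P'⁻¹ : Aˣ) : A) * ((x : A) * t) * (b⁻¹ : Aˣ)) := by
    have := congrArg (fun w => ((P'⁻¹ : Aˣ) : A) * w * (b⁻¹ : Aˣ)) hX
    simpa [mul_assoc, smul_mul_assoc, mul_smul_comm] using this
  have hY' : (η - h) • β + h • 1 = η • (((P'⁻¹ : Aˣ) : A) * ((t⁻¹ : Aˣ) * y) * (b⁻¹ : Aˣ)) := by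
    have := congrArg (fun w => ((P'⁻¹ : Aˣ) : A) * w * (b⁻¹ : Aˣ)) hY
    simpa [mul_assoc, smul_mul_assoc, mul_smul_comm] using this
  have hm2 : m = ((P'⁻¹ : Aˣ) : A) * ((t⁻¹ : Aˣ) * y * (t⁻¹ : Aˣ) * (x⁻¹ : Aˣ) * P') := by
    rw [← hPm, Units.inv_mul_cancel_left]
  have hYX : m * (-(h • β) + (η + h) • 1) = (η - h) • β + h • 1 := by
    rw [hX', hY', hm2]; simp [mul_assoc, mul_smul_comm]
  have hcX : Commute β (-(h • β) + (η + h) • 1) :=
    ((Commute.refl β).smul_right h).neg_right.add_right ((Commute.one_right β).smul_right _)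
  have hcY : Commute β ((η - h) • β + h • 1) :=
    ((Commute.refl β).smul_right _).add_right ((Commute.one_right β).smul_right _)
  have key : (m * β) * (-(h • β) + (η + h) • 1) = (β * m) * (-(h • β) + (η + h) • 1) := by
    calc (m * β) * (-(h • β) + (η + h) • 1)
        = m * (β * (-(h • β) + (η + h) • 1)) := by rw [mul_assoc]
      _ = m * ((-(h • β) + (η + h) • 1) * β) := by rw [hcX.eq]
      _ = ((η - h) • β + h • 1) * β := by rw [← mul_assoc, hYX]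
      _ = β * ((η - h) • β + h • 1) := by rw [hcY.eq]
      _ = β * (m * (-(h • β) + (η + h) • 1)) := by rw [hYX]
      _ = (β * m) * (-(h • β) + (η + h) • 1) := by rw [← mul_assoc]
  have hu : IsUnit (-(h • β) + (η + h) • 1) := by
    rw [hX']
    exact IsUnit.smul (Units.mk0 η hη) (P'⁻¹ * (x * t) * b⁻¹).isUnit
  exact hu.mul_right_cancel key

theorem Dat.aib (H : Dat η h t P a b x P' y) : ((a⁻¹ : Aˣ) : A) * b = b * (a⁻¹ : Aˣ) := by
  calc ((a⁻¹ : Aˣ) : A) * b = (a⁻¹ : Aˣ) * (b * a) * (a⁻¹ : Aˣ) := by simp [mul_assoc]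
    _ = (a⁻¹ : Aˣ) * (a * b) * (a⁻¹ : Aˣ) := by rw [H.ab]
    _ = b * (a⁻¹ : Aˣ) := by simp [← mul_assoc]

/-- `z` commutes with `u om`, `u = b a⁻¹`. -/
theorem Dat.c1' (H : Dat η h t P a b x P' y) :
    Commute (((a⁻¹ : Aˣ) : A) * y * (x⁻¹ : Aˣ) * a)
      ((b : A) * (a⁻¹ : Aˣ) * ((P + η • 1) * (P⁻¹ : Aˣ))) := by
  have h1 := H.c1.eq
  have e : (b : A) * (a⁻¹ : Aˣ) * ((P + η • 1) * (P⁻¹ : Aˣ))
      = (a⁻¹ : Aˣ) * ((b : A) * (P + η • 1) * (P⁻¹ : Aˣ) * (a⁻¹ : Aˣ)) * a := by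
    rw [← H.aib]; simp [mul_assoc]
  rw [e]
  show _ = _
  calc ((a⁻¹ : Aˣ) : A) * y * (x⁻¹ : Aˣ) * a
        * ((a⁻¹ : Aˣ) * ((b : A) * (P + η • 1) * (P⁻¹ : Aˣ) * (a⁻¹ : Aˣ)) * a)
      = (a⁻¹ : Aˣ) * (y * (x⁻¹ : Aˣ) * ((b : A) * (P + η • 1) * (P⁻¹ : Aˣ) * (a⁻¹ : Aˣ))) * a := by
        simp [mul_assoc]
    _ = (a⁻¹ : Aˣ) * (((b : A) * (P + η • 1) * (P⁻¹ : Aˣ) * (a⁻¹ : Aˣ)) * (y * (x⁻¹ : Aˣ))) * a := by
        rw [h1]
    _ = _ := by simp [mul_assoc]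

/-- **The product relation** at ring level. -/
theorem Dat.rel (H : Dat η h t P a b x P' y) :
    (((a⁻¹ : Aˣ) : A) * y * (x⁻¹ : Aˣ) * a) *
        ((t⁻¹ : Aˣ) * (((P'⁻¹ : Aˣ) : A) * (P' + η • 1)) * t * ((P + η • 1) * (P⁻¹ : Aˣ)))
      = (t * (((P'⁻¹ : Aˣ) : A) * (P' + η • 1)) * (t⁻¹ : Aˣ) * ((P + η • 1) * (P⁻¹ : Aˣ))) *
        (((a⁻¹ : Aˣ) : A) * y * (x⁻¹ : Aˣ) * a) := by
  have h1 := H.c1'.eq
  have h2 := H.c2.eq
  set z : A := ((a⁻¹ : Aˣ) : A) * y * (x⁻¹ : Aˣ) * a with hz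
  set o' : A := ((P'⁻¹ : Aˣ) : A) * (P' + η • 1) with ho'
  set o : A := (P + η • 1) * (P⁻¹ : Aˣ) with ho
  have hbt : ((t : Aˣ) : A) * (a * (b⁻¹ : Aˣ)) = (a * (b⁻¹ : Aˣ)) * t := by
    have e1 : (t : A) * (b⁻¹ : Aˣ) = (b⁻¹ : Aˣ) * t := by
      calc (t : A) * (b⁻¹ : Aˣ) = (b⁻¹ : Aˣ) * (b * t) * (b⁻¹ : Aˣ) := by simp [mul_assoc]
        _ = (b⁻¹ : Aˣ) * (t * b) * (b⁻¹ : Aˣ) := by rw [H.tb]
        _ = (b⁻¹ : Aˣ) * t := by simp [mul_assoc]
    rw [← mul_assoc, H.ta, mul_assoc, e1, mul_assoc]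
  have hbt' : ((t⁻¹ : Aˣ) : A) * (a * (b⁻¹ : Aˣ)) = (a * (b⁻¹ : Aˣ)) * (t⁻¹ : Aˣ) := by
    calc ((t⁻¹ : Aˣ) : A) * (a * (b⁻¹ : Aˣ))
        = (t⁻¹ : Aˣ) * ((a * (b⁻¹ : Aˣ)) * t) * (t⁻¹ : Aˣ) := by simp [mul_assoc]
      _ = (t⁻¹ : Aˣ) * (t * (a * (b⁻¹ : Aˣ))) * (t⁻¹ : Aˣ) := by rw [hbt]
      _ = _ := by simp
  -- `o = (a b⁻¹) (b a⁻¹ o)`
  have ho2 : o = (a * (b⁻¹ : Aˣ)) * (b * (a⁻¹ : Aˣ) * o) := by simp [mul_assoc]
  have h2' : ((t⁻¹ : Aˣ) * z * (t⁻¹ : Aˣ)) * (o' * (a * (b⁻¹ : Aˣ)))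
      = (o' * (a * (b⁻¹ : Aˣ))) * ((t⁻¹ : Aˣ) * z * (t⁻¹ : Aˣ)) := by
    simpa [mul_assoc] using h2
  have h3 : z * ((t⁻¹ : Aˣ) * (o' * (a * (b⁻¹ : Aˣ))))
      = t * ((o' * (a * (b⁻¹ : Aˣ))) * ((t⁻¹ : Aˣ) * z * (t⁻¹ : Aˣ))) := by
    rw [← h2']; simp [mul_assoc]
  set u' : A := a * (b⁻¹ : Aˣ) with hu'
  set α : A := (b : A) * (a⁻¹ : Aˣ) * o with hα
  calc z * ((t⁻¹ : Aˣ) * o' * t * o)
      = z * ((t⁻¹ : Aˣ) * o' * t * (u' * α)) := by rw [← ho2]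
    _ = z * ((t⁻¹ : Aˣ) * o' * (t * u') * α) := by simp only [mul_assoc]
    _ = z * ((t⁻¹ : Aˣ) * o' * (u' * t) * α) := by rw [hbt]
    _ = (z * ((t⁻¹ : Aˣ) * (o' * u'))) * (t * α) := by simp only [mul_assoc]
    _ = (t * ((o' * u') * ((t⁻¹ : Aˣ) * z * (t⁻¹ : Aˣ)))) * (t * α) := by rw [h3]
    _ = t * o' * (u' * (t⁻¹ : Aˣ)) * (z * α) := by simp [mul_assoc]
    _ = t * o' * ((t⁻¹ : Aˣ) * u') * (α * z) := by rw [h1, hbt']
    _ = (t * o' * (t⁻¹ : Aˣ) * (u' * α)) * z := by simp only [mul_assoc]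
    _ = (t * o' * (t⁻¹ : Aˣ) * o) * z := by rw [← ho2]

end core

end Vale.Agent.P011.H983
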