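import Mathlib

/-!
# Almost periodic parts of unitary representations of abelian groups

`T : L → unitary operators` additive, `A ≤ L` a subgroup; `KA T A` is the closed span of the
eigenvectors of `A` and `PA T A` its orthogonal projection.  The projections `PA T A` commute, and
`KA T A ⊓ KA T B = KA T (A ⊔ B)`.
-/

open scoped InnerProductSpace

namespace Vale.Agent.P011.H983

noncomputable section

section proj

variable {H : Type*} [NormedAddCommGroup H] [InnerProductSpace ℂ H]

/-- A unitary operator which maps `W` onto `W'` intertwines the projections. -/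
theorem starProjection_unitary {W W' : Submodule ℂ H} [W.HasOrthogonalProjection]
    [W'.HasOrthogonalProjection] (U : H ≃ₗᵢ[ℂ] H) (h1 : ∀ w ∈ W, U w ∈ W')
    (h2 : ∀ w ∈ W', U.symm w ∈ W) (x : H) :
    W'.starProjection (U x) = U (W.starProjection x) := by
  apply Submodule.eq_starProjection_of_mem_of_inner_eq_zero
  · exact h1 _ (Submodule.starProjection_apply_mem W x)
  · intro w hw
    rw [← map_sub]
    have h3 : w = U (U.symm w) := (U.apply_symm_apply w).symm
    rw [h3, LinearIsometryEquiv.inner_map_map]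
    exact Submodule.starProjection_inner_eq_zero x _ (h2 w hw)

/-- Two projections commute if one leaves the subspace of the other invariant. -/
theorem starProjection_comm {W W' : Submodule ℂ H} [W.HasOrthogonalProjection]
    [W'.HasOrthogonalProjection] (h : ∀ w ∈ W', W.starProjection w ∈ W') (x : H) :
    W.starProjection (W'.starProjection x) = W'.starProjection (W.starProjection x) := by
  symm
  apply Submodule.eq_starProjection_of_mem_of_inner_eq_zero
  · exact h _ (Submodule.starProjection_apply_mem W' x)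
  · intro w hw
    rw [← map_sub, Submodule.inner_starProjection_left_eq_right]
    exact Submodule.starProjection_inner_eq_zero x _ (h w hw)

variable {ι : Type*}

/-- **Commuting projections.**  If any `N` different ones kill `F`, then
`∑ ‖P_i F‖² ≤ (N - 1) ‖F‖²`. -/
theorem sum_norm_sq_le_of_commute (P : ι → H →L[ℂ] H)
    (hcomm : ∀ i j x, P i (P j x) = P j (P i x))
    (horth : ∀ i x y, ⟪P i x, y - P i y⟫_ℂ = 0) (s : Finset ι) :
    ∀ (N : ℕ) (F : H), (∀ l : List ι, l.Nodup → l.length = N → (∀ i ∈ l, i ∈ s) →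
      l.foldr (fun i v => P i v) F = 0) → ∑ i ∈ s, ‖P i F‖ ^ 2 ≤ ((N : ℝ) - 1) * ‖F‖ ^ 2 := by
  classical
  have hfold : ∀ (l : List ι) (x y : H), l.foldr (fun i v => P i v) (x - y) =
      l.foldr (fun i v => P i v) x - l.foldr (fun i v => P i v) y := by
    intro l x y
    induction l with
    | nil => rfl
    | cons a l ih => rw [List.foldr_cons, List.foldr_cons, List.foldr_cons, ih, map_sub]
  have hpyth : ∀ u v : H, ⟪u, v⟫_ℂ = 0 → ‖u + v‖ ^ 2 = ‖u‖ ^ 2 + ‖v‖ ^ 2 := by
    intro u v huv
    have := norm_add_sq_eq_norm_sq_add_norm_sq_of_inner_eq_zero u v huv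
    simpa [sq] using this
  induction s using Finset.induction_on with
  | empty =>
    intro N F hF
    rcases N with _ | N
    · have h1 := hF [] (by simp) rfl (by simp)
      have h2 : F = 0 := h1
      simp [h2]
    · rw [Finset.sum_empty]
      push_cast
      have := sq_nonneg ‖F‖
      have hN : (0 : ℝ) ≤ N := Nat.cast_nonneg N
      nlinarith
  | insert a s ha ih =>
    intro N F hF
    rcases N with _ | N
    · have h1 := hF [] (by simp) rfl (by simp)
      have h2 : F = 0 := h1
      simp [h2]
    · have h1 : ∑ i ∈ s, ‖P i (P a F)‖ ^ 2 ≤ ((N : ℝ) - 1) * ‖P a F‖ ^ 2 := by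
        apply ih N (P a F)
        intro l hl hlN hls
        have h2 := hF (l ++ [a]) (by
          rw [List.nodup_append]
          refine ⟨hl, by simp, ?_⟩
          intro x hx y hy
          rw [List.mem_singleton] at hy
          subst hy
          intro hxy
          subst hxy
          exact ha (hls _ hx)) (by simp [hlN]) (by
          intro i hi
          rcases List.mem_append.1 hi with hi | hi
          · exact Finset.mem_insert_of_mem (hls i hi)
          · rw [List.mem_singleton] at hi
            subst hi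
            exact Finset.mem_insert_self _ _)
        rw [List.foldr_append] at h2
        exact h2
      have h2 : ∑ i ∈ s, ‖P i (F - P a F)‖ ^ 2 ≤ (((N + 1 : ℕ) : ℝ) - 1) * ‖F - P a F‖ ^ 2 := by
        apply ih (N + 1) (F - P a F)
        intro l hl hlN hls
        rw [hfold, hF l hl hlN fun i hi => Finset.mem_insert_of_mem (hls i hi), zero_sub,
          neg_eq_zero]
        rcases l with _ | ⟨i, l⟩
        · simp at hlN
        · have h3 := hF (l ++ [a]) (by
            rw [List.nodup_append]
            refine ⟨(List.nodup_cons.1 hl).2, by simp, ?_⟩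
            intro x hx y hy
            rw [List.mem_singleton] at hy
            subst hy
            intro hxy
            subst hxy
            exact ha (hls _ (List.mem_cons_of_mem _ hx))) (by simpa using hlN) (by
            intro j hj
            rcases List.mem_append.1 hj with hj | hj
            · exact Finset.mem_insert_of_mem (hls j (List.mem_cons_of_mem _ hj))
            · rw [List.mem_singleton] at hj
              subst hj
              exact Finset.mem_insert_self _ _)
          rw [List.foldr_append] at h3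
          rw [List.foldr_cons]
          have h4 : l.foldr (fun i v => P i v) (P a F) = 0 := h3
          rw [h4, map_zero]
      have h3 : ∀ i ∈ s, ‖P i F‖ ^ 2 = ‖P i (P a F)‖ ^ 2 + ‖P i (F - P a F)‖ ^ 2 := by
        intro i _
        have h4 : P i F = P i (P a F) + P i (F - P a F) := by
          rw [← map_add, add_sub_cancel]
        conv_lhs => rw [h4]
        apply hpyth
        rw [hcomm i a F, map_sub, hcomm i a F]
        exact horth a _ _
      have h4 : ‖F‖ ^ 2 = ‖P a F‖ ^ 2 + ‖F - P a F‖ ^ 2 := by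
        have h5 : F = P a F + (F - P a F) := by rw [add_sub_cancel]
        conv_lhs => rw [h5]
        exact hpyth _ _ (horth a _ _)
      rw [Finset.sum_insert ha, Finset.sum_congr rfl h3, Finset.sum_add_distrib, h4]
      push_cast at h2 ⊢
      nlinarith

end proj

variable {L : Type*} [AddCommGroup L] {H : Type*} [NormedAddCommGroup H] [InnerProductSpace ℂ H]

/-- An additive family of unitary operators. -/
structure URep (T : L → H ≃ₗᵢ[ℂ] H) : Prop where
  /-- additivity -/
  add : ∀ a b x, T (a + b) x = T a (T b x)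

namespace URep

variable {T : L → H ≃ₗᵢ[ℂ] H} (hT : URep T)

include hT

theorem zero (x : H) : T 0 x = x := by
  have h1 := hT.add 0 0 x
  rw [add_zero] at h1
  exact ((T 0).injective h1).symm

theorem neg_apply (a : L) (x : H) : T (-a) (T a x) = x := by
  rw [← hT.add, neg_add_cancel, hT.zero]

theorem apply_neg (a : L) (x : H) : T a (T (-a) x) = x := by
  rw [← hT.add, add_neg_cancel, hT.zero]

theorem comm (a b : L) (x : H) : T a (T b x) = T b (T a x) := by
  rw [← hT.add, ← hT.add, add_comm]

theorem symm_apply (a : L) (x : H) : (T a).symm x = T (-a) x := by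
  rw [LinearIsometryEquiv.symm_apply_eq, hT.apply_neg]

theorem inner_left (a : L) (x y : H) : ⟪T a x, y⟫_ℂ = ⟪x, T (-a) y⟫_ℂ := by
  conv_lhs => rw [← hT.apply_neg a y]
  exact (T a).inner_map_map _ _

theorem sub (a b : L) (x y : H) : ⟪T a x, T b y⟫_ℂ = ⟪x, T (b - a) y⟫_ℂ := by
  rw [hT.inner_left, ← hT.add, neg_add_eq_sub]

end URep

variable (T : L → H ≃ₗᵢ[ℂ] H)

/-- The eigenvectors of a subgroup. -/
def Eig (A : AddSubgroup L) : Set H := {y | ∀ a ∈ A, ∃ c : ℂ, T a y = c • y}

/-- The closed span of the eigenvectors. -/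
def KA (A : AddSubgroup L) : Submodule ℂ H := (Submodule.span ℂ (Eig T A)).topologicalClosure

theorem isClosed_KA (A : AddSubgroup L) : IsClosed (KA T A : Set H) :=
  Submodule.isClosed_topologicalClosure _

theorem KA_le {A : AddSubgroup L} {W : Submodule ℂ H} (hW : IsClosed (W : Set H))
    (h : ∀ y ∈ Eig T A, y ∈ W) : KA T A ≤ W :=
  Submodule.topologicalClosure_minimal _ (Submodule.span_le.2 h) hW

theorem Eig_le_KA (A : AddSubgroup L) : ∀ y ∈ Eig T A, y ∈ KA T A := fun _ hy =>
  Submodule.le_topologicalClosure _ (Submodule.subset_span hy)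

theorem Eig_anti {A B : AddSubgroup L} (h : A ≤ B) : Eig T B ⊆ Eig T A :=
  fun _ hy a ha => hy a (h ha)

theorem KA_anti {A B : AddSubgroup L} (h : A ≤ B) : KA T B ≤ KA T A :=
  KA_le T (isClosed_KA T A) fun y hy => Eig_le_KA T A y (Eig_anti T h hy)

theorem KA_bot (hT : URep T) : KA T ⊥ = ⊤ := by
  rw [eq_top_iff]
  intro x _
  apply Eig_le_KA
  intro a ha
  rw [AddSubgroup.mem_bot] at ha
  subst ha
  exact ⟨1, by rw [hT.zero, one_smul]⟩

theorem inner_eq_zero_of_mem_KA {A : AddSubgroup L} {x : H}
    (h : ∀ y ∈ Eig T A, ⟪y, x⟫_ℂ = 0) : ∀ w ∈ KA T A, ⟪w, x⟫_ℂ = 0 := by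
  intro w hw
  have h1 : KA T A ≤ (ℂ ∙ x)ᗮ := KA_le T (Submodule.isClosed_orthogonal _) fun y hy => by
    rw [Submodule.mem_orthogonal_singleton_iff_inner_left]
    exact h y hy
  exact Submodule.mem_orthogonal_singleton_iff_inner_left.1 (h1 hw)

theorem Eig_T {T : L → H ≃ₗᵢ[ℂ] H} (hT : URep T) {A : AddSubgroup L} {y : H} (hy : y ∈ Eig T A)
    (l : L) : T l y ∈ Eig T A := by
  intro a ha
  obtain ⟨c, hc⟩ := hy a ha
  exact ⟨c, by rw [hT.comm, hc, map_smul]⟩

theorem KA_T {T : L → H ≃ₗᵢ[ℂ] H} (hT : URep T) {A : AddSubgroup L} {y : H} (hy : y ∈ KA T A)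
    (l : L) : T l y ∈ KA T A := by
  have h1 : KA T A ≤ (KA T A).comap ((T l).toLinearEquiv : H →ₗ[ℂ] H) :=
    KA_le T ((isClosed_KA T A).preimage (T l).continuous) fun y hy =>
      Eig_le_KA T A _ (Eig_T hT hy l)
  exact h1 hy

section complete

variable [CompleteSpace H]

instance (A : AddSubgroup L) : (KA T A).HasOrthogonalProjection := by
  unfold KA
  infer_instance

/-- The projection. -/
def PA (A : AddSubgroup L) : H →L[ℂ] H := (KA T A).starProjection

theorem PA_mem (A : AddSubgroup L) (x : H) : PA T A x ∈ KA T A :=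
  Submodule.starProjection_apply_mem _ _

theorem PA_eq_self {A : AddSubgroup L} {x : H} (h : x ∈ KA T A) : PA T A x = x :=
  Submodule.starProjection_eq_self_iff.2 h

theorem PA_symm (A : AddSubgroup L) (x y : H) : ⟪PA T A x, y⟫_ℂ = ⟪x, PA T A y⟫_ℂ :=
  Submodule.inner_starProjection_left_eq_right _ _ _

theorem PA_orth (A : AddSubgroup L) (x y : H) : ⟪PA T A x, y - PA T A y⟫_ℂ = 0 := by
  rw [← inner_conj_symm]
  have := Submodule.starProjection_inner_eq_zero (K := KA T A) y _ (PA_mem T A x)
  unfold PA at *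
  rw [this, map_zero]

theorem PA_norm_le (A : AddSubgroup L) (x : H) : ‖PA T A x‖ ≤ ‖x‖ :=
  Submodule.norm_starProjection_apply_le _ _

theorem sub_PA_perp (A : AddSubgroup L) (x : H) {y : H} (hy : y ∈ Eig T A) :
    ⟪y, x - PA T A x⟫_ℂ = 0 := by
  have h1 := PA_orth T A y x
  rwa [PA_eq_self T (Eig_le_KA T A y hy)] at h1

variable {T} (hT : URep T)

include hT

theorem PA_T (A : AddSubgroup L) (l : L) (x : H) : PA T A (T l x) = T l (PA T A x) := by
  apply starProjection_unitary
  · intro w hw
    exact KA_T hT hw l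
  · intro w hw
    rw [hT.symm_apply]
    exact KA_T hT hw _

theorem PA_Eig (A : AddSubgroup L) {B : AddSubgroup L} {y : H} (hy : y ∈ Eig T B) :
    PA T A y ∈ Eig T B := by
  intro b hb
  obtain ⟨c, hc⟩ := hy b hb
  exact ⟨c, by rw [← PA_T hT, hc, map_smul]⟩

theorem PA_KA (A : AddSubgroup L) {B : AddSubgroup L} {y : H} (hy : y ∈ KA T B) :
    PA T A y ∈ KA T B := by
  have h1 : KA T B ≤ (KA T B).comap (PA T A : H →ₗ[ℂ] H) :=
    KA_le T ((isClosed_KA T B).preimage (PA T A).continuous) fun y hy =>
      Eig_le_KA T B _ (PA_Eig hT A hy)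
  exact h1 hy

theorem PA_comm (A B : AddSubgroup L) (x : H) : PA T A (PA T B x) = PA T B (PA T A x) :=
  starProjection_comm (fun _ hw => PA_KA hT A hw) x

/-- The vectors with the same character as `y`. -/
def sameChar (T : L → H ≃ₗᵢ[ℂ] H) (A : AddSubgroup L) (y : H) : Submodule ℂ H where
  carrier := {z | ∀ a ∈ A, ∀ c : ℂ, T a y = c • y → T a z = c • z}
  zero_mem' := fun a _ c _ => by simp
  add_mem' := fun {u v} hu hv a ha c hc => by
    rw [map_add, hu a ha c hc, hv a ha c hc, smul_add]
  smul_mem' := fun r u hu a ha c hc => by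
    rw [map_smul, hu a ha c hc, smul_comm]

omit hT [CompleteSpace H] in
theorem mem_sameChar {A : AddSubgroup L} {y z : H} : z ∈ sameChar T A y ↔
    ∀ a ∈ A, ∀ c : ℂ, T a y = c • y → T a z = c • z := Iff.rfl

omit hT [CompleteSpace H] in
theorem isClosed_sameChar (A : AddSubgroup L) (y : H) : IsClosed (sameChar T A y : Set H) := by
  have h1 : (sameChar T A y : Set H) =
      ⋂ a ∈ A, ⋂ c : ℂ, ⋂ _ : T a y = c • y, {z | T a z = c • z} := by
    ext z
    simp only [SetLike.mem_coe, mem_sameChar, Set.mem_iInter, Set.mem_ofPred_eq]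
  rw [h1]
  refine isClosed_biInter fun a _ => isClosed_iInter fun c => isClosed_iInter fun _ => ?_
  exact isClosed_eq (T a).continuous (continuous_const_smul c)

/-- `KA T A ⊓ KA T B ≤ KA T (A ⊔ B)`. -/
theorem mem_KA_sup {A B : AddSubgroup L} {x : H} (hA : x ∈ KA T A) (hB : x ∈ KA T B) :
    x ∈ KA T (A ⊔ B) := by
  set x' := x - PA T (A ⊔ B) x with hx'
  have h0 : ∀ y ∈ Eig T (A ⊔ B), ⟪y, x'⟫_ℂ = 0 := fun y hy => sub_PA_perp T _ x hy
  have hA' : x' ∈ KA T A := Submodule.sub_mem _ hA (KA_anti T le_sup_left (PA_mem T _ x))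
  have hB' : x' ∈ KA T B := Submodule.sub_mem _ hB (KA_anti T le_sup_right (PA_mem T _ x))
  have h1 : ∀ y ∈ Eig T A, ⟪y, x'⟫_ℂ = 0 := by
    intro y hy
    set W := sameChar T A y with hW
    have : CompleteSpace W := (isClosed_sameChar A y).completeSpace_coe
    have hWT : ∀ w ∈ W, ∀ l, T l w ∈ W := by
      intro w hw l a ha c hc
      rw [hT.comm, hw a ha c hc, map_smul]
    have hWP : ∀ l x, W.starProjection (T l x) = T l (W.starProjection x) := by
      intro l x
      apply starProjection_unitary
      · intro w hw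
        exact hWT w hw l
      · intro w hw
        rw [hT.symm_apply]
        exact hWT w hw _
    have h2 : PA T B y ∈ W := by
      intro a ha c hc
      rw [← PA_T hT, hc, map_smul]
    have h3 : ⟪y, x'⟫_ℂ = ⟪PA T B y, x'⟫_ℂ := by
      rw [PA_symm, PA_eq_self T hB']
    have h4 : ⟪PA T B y, x'⟫_ℂ = ⟪PA T B y, W.starProjection x'⟫_ℂ := by
      rw [← Submodule.inner_starProjection_left_eq_right,
        Submodule.starProjection_eq_self_iff.2 h2]
    rw [h3, h4]
    refine inner_eq_zero_of_mem_KA T (A := B) (fun z hz => ?_) _ (PA_mem T B y)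
    rw [← Submodule.inner_starProjection_left_eq_right]
    apply h0
    intro l hl
    obtain ⟨a, ha, b, hb, rfl⟩ := AddSubgroup.mem_sup.1 hl
    obtain ⟨c, hc⟩ := hy a ha
    obtain ⟨c', hc'⟩ := hz b hb
    have hz1 : T a (W.starProjection z) = c • W.starProjection z :=
      (Submodule.starProjection_apply_mem W z) a ha c hc
    refine ⟨c' * c, ?_⟩
    rw [hT.add, ← hWP b z, hc', map_smul, map_smul, hz1, smul_smul]
  have h2 : ⟪x', x'⟫_ℂ = 0 := inner_eq_zero_of_mem_KA T h1 x' hA'
  have h3 : x' = 0 := inner_self_eq_zero.1 h2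
  rw [hx', sub_eq_zero] at h3
  rw [h3]
  exact PA_mem T _ x

/-- If the subgroups `A i ≤ C` generate `C`, the product of the projections kills all vectors
which are orthogonal to the eigenvectors of `C`. -/
theorem foldr_PA_eq_zero {ι : Type*} (A : ι → AddSubgroup L) (C : AddSubgroup L)
    (hAC : ∀ i, A i ≤ C) {F : H}
    (hF : ∀ y ∈ Eig T C, ⟪y, F⟫_ℂ = 0) (l : List ι)
    (hl : ∀ B : AddSubgroup L, (∀ i ∈ l, A i ≤ B) → C ≤ B) :
    l.foldr (fun i v => PA T (A i) v) F = 0 := by
  have h1 : ∀ l : List ι, ∀ y ∈ Eig T C,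
      ⟪y, l.foldr (fun i v => PA T (A i) v) F⟫_ℂ = 0 := by
    intro l
    induction l with
    | nil => exact hF
    | cons i l ih =>
      intro y hy
      rw [List.foldr_cons, ← PA_symm,
        PA_eq_self T (Eig_le_KA T _ y (Eig_anti T (hAC i) hy))]
      exact ih y hy
  have h2 : ∀ l : List ι, ∃ B : AddSubgroup L, (∀ i ∈ l, A i ≤ B) ∧
      l.foldr (fun i v => PA T (A i) v) F ∈ KA T B := by
    intro l
    induction l with
    | nil =>
      refine ⟨⊥, by simp, ?_⟩
      rw [KA_bot T hT]
      exact Submodule.mem_top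
    | cons i l ih =>
      obtain ⟨B, hB, hm⟩ := ih
      refine ⟨A i ⊔ B, ?_, ?_⟩
      · intro j hj
        rcases List.mem_cons.1 hj with rfl | hj
        · exact le_sup_left
        · exact (hB j hj).trans le_sup_right
      · rw [List.foldr_cons]
        exact mem_KA_sup hT (PA_mem T _ _) (PA_KA hT _ hm)
  obtain ⟨B, hB, hm⟩ := h2 l
  exact inner_self_eq_zero.1 (inner_eq_zero_of_mem_KA T (h1 l) _ (KA_anti T (hl B hB) hm))

omit hT in
/-- Conjugation: `g T_l = T_{σ l} g` maps the eigenvectors of `A` to those of `σ A`. -/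
theorem PA_conj (g : H ≃ₗᵢ[ℂ] H) (σ : L ≃+ L) (hg : ∀ l x, g (T l x) = T (σ l) (g x))
    (A : AddSubgroup L) (x : H) : PA T (A.map (σ : L →+ L)) (g x) = g (PA T A x) := by
  have hs : ∀ l x, g.symm (T (σ l) x) = T l (g.symm x) := by
    intro l x
    rw [LinearIsometryEquiv.symm_apply_eq, hg, LinearIsometryEquiv.apply_symm_apply]
  apply starProjection_unitary
  · intro w hw
    have h1 : KA T A ≤ (KA T (A.map (σ : L →+ L))).comap (g.toLinearEquiv : H →ₗ[ℂ] H) := by
      refine KA_le T ((isClosed_KA T _).preimage g.continuous) fun y hy => ?_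
      refine Eig_le_KA T _ _ ?_
      intro b hb
      obtain ⟨a, ha, rfl⟩ := AddSubgroup.mem_map.1 hb
      obtain ⟨c, hc⟩ := hy a ha
      refine ⟨c, ?_⟩
      have h2 := hg a y
      rw [hc, map_smul] at h2
      exact h2.symm
    exact h1 hw
  · intro w hw
    have h1 : KA T (A.map (σ : L →+ L)) ≤ (KA T A).comap
        (g.symm.toLinearEquiv : H →ₗ[ℂ] H) := by
      refine KA_le T ((isClosed_KA T _).preimage g.symm.continuous) fun y hy => ?_
      refine Eig_le_KA T _ _ ?_
      intro a ha
      obtain ⟨c, hc⟩ := hy (σ a) (AddSubgroup.mem_map.2 ⟨a, ha, rfl⟩)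
      refine ⟨c, ?_⟩
      have h2 := hs a y
      rw [hc, map_smul] at h2
      exact h2.symm
    exact h1 hw

end complete

end

end Vale.Agent.P011.H983
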