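import Vale.Agent.P011.H983.ArtinSchreier
import Vale.Agent.P011.H983.GenPos2

/-!
The macroscopic move in characteristic two at a place where the quadratic extension is split.
For a symmetric unit `s₀` with small inverse and a dense set `P` of unitary elements there is a
sequence `t n ∈ P` with `t n + (t n)*` as close to `s₀` as one likes and in general position.
-/

open Module

set_option linter.unusedSectionVars false

namespace Vale.Agent.P011.H983

section functional

variable {F A : Type*} [Field F] [Ring A] [Algebra F A] {o : Type*} [Fintype o]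
  (b : Basis o F A) (a : AbsoluteValue F ℝ)

theorem exists_gr_functional (φ : A →ₗ[F] F) :
    ∃ K : ℝ, 0 ≤ K ∧ ∀ x, a (φ x) ≤ K * gr b a x := by
  refine ⟨∑ j, a (φ (b j)), Finset.sum_nonneg fun _ _ => a.nonneg _, fun x => ?_⟩
  have h1 : φ x = ∑ j, b.repr x j * φ (b j) := by
    conv_lhs => rw [← b.sum_repr x]
    rw [map_sum]
    exact Finset.sum_congr rfl fun j _ => by rw [map_smul, smul_eq_mul]
  rw [h1]
  refine (a.sum_le _ _).trans ?_
  rw [Finset.sum_mul]
  refine Finset.sum_le_sum fun j _ => ?_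
  rw [map_mul, mul_comm]
  exact mul_le_mul_of_nonneg_left (coord_le_gr b a x j) (a.nonneg _)

/-- The coordinates of a subspace are bounded by the gauge. -/
theorem exists_coord_bound {κ : Type*} [Fintype κ] {W : Submodule F A} (bS : Basis κ F W) :
    ∃ K : ℝ, 0 ≤ K ∧ ∀ (x : W) (k : κ), a (bS.repr x k) ≤ K * gr b a (x : A) := by
  have h1 : ∀ k, ∃ φ : A →ₗ[F] F, ∀ x : W, φ x = bS.repr x k := by
    intro k
    obtain ⟨φ, hφ⟩ := LinearMap.exists_extend (bS.coord k)
    exact ⟨φ, fun x => LinearMap.congr_fun hφ x⟩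
  choose φ hφ using h1
  choose K hK0 hK using fun k => exists_gr_functional b a (φ k)
  refine ⟨∑ k, K k, Finset.sum_nonneg fun k _ => hK0 k, fun x k => ?_⟩
  rw [← hφ k x]
  refine (hK k x).trans (mul_le_mul_of_nonneg_right ?_ (gr_nonneg b a _))
  exact Finset.single_le_sum (f := K) (fun k _ => hK0 k) (Finset.mem_univ k)

/-- The gauge of an element of a subspace is bounded by its coordinates. -/
theorem gr_le_coord {κ : Type*} [Fintype κ] {W : Submodule F A} (bS : Basis κ F W) (x : W)
    {r : ℝ} (hr : ∀ k, a (bS.repr x k) ≤ r) :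
    gr b a (x : A) ≤ r * ∑ k, gr b a (bS k : A) := by
  have h1 : (x : A) = ∑ k, bS.repr x k • (bS k : A) := by
    conv_lhs => rw [← bS.sum_repr x]
    push_cast
    rfl
  rw [h1, Finset.mul_sum]
  refine (gr_sum b a _ _).trans (Finset.sum_le_sum fun k _ => ?_)
  rw [gr_smul]
  exact mul_le_mul_of_nonneg_right (hr k) (gr_nonneg b a _)

end functional

section sym

variable (F A : Type*) [Field F] [Ring A] [Algebra F A] [StarRing A]

/-- The symmetric elements, a subspace over `F`. -/
def symR (hst : ∀ (r : F) (x : A), star (r • x) = r • star x) : Submodule F A where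
  carrier := {x | star x = x}
  zero_mem' := star_zero A
  add_mem' := by
    intro x y hx hy
    show star (x + y) = x + y
    rw [star_add, show star x = x from hx, show star y = y from hy]
  smul_mem' := by
    intro r x hx
    show star (r • x) = r • x
    rw [hst, show star x = x from hx]

variable {F A}

theorem mem_symR {hst : ∀ (r : F) (x : A), star (r • x) = r • star x} {x : A} :
    x ∈ symR F A hst ↔ star x = x := Iff.rfl

/-- `x + x*` as a symmetric element. -/
def trS (hst : ∀ (r : F) (x : A), star (r • x) = r • star x) (x : A) : symR F A hst :=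
  ⟨x + star x, by rw [mem_symR, star_add, star_star, add_comm]⟩

end sym

section main

variable {F A : Type*} [Field F] [CharP F 2] {X : F} (hX : TwoBasis F X) [Ring A] [Algebra F A]
  {o : Type*} [Fintype o] (b : Basis o F A) (a : AbsoluteValue F ℝ) [StarRing A]

/-- **The macroscopic move in characteristic two.** -/
theorem exists_macro_seq2 (hcont : HalfCont hX a) {z : F} (hz : z ≠ 0) (hz1 : a z < 1)
    (hst : ∀ (r : F) (x : A), star (r • x) = r • star x)
    (hu : ∀ x : A, (∀ y, x * y = 0 → y = 0) → IsUnit x)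
    (hsplit : ∀ ε : ℝ, 0 < ε → ∃ e : A, (∀ x, e * x = x * e) ∧ e + star e = 1 ∧
      gr b a (e * star e) < ε)
    {κ : Type*} [Fintype κ] (bS : Basis κ F (symR F A hst)) :
    ∃ η₀ : ℝ, 0 < η₀ ∧ ∀ {G : Type*} (ι : G → A)
      (_ : ∀ x : A, star x * x = 1 → x * star x = 1 → ∃ g, ι g = x) (P : Set G)
      (_ : ∀ g, ∀ ε : ℝ, 0 < ε → ∃ t ∈ P, gr b a (ι t - ι g) < ε)
      (s₀ s₀' : A), star s₀ = s₀ → s₀ * s₀' = 1 → s₀' * s₀ = 1 → gr b a s₀' ≤ η₀ →
      ∀ ε : ℝ, 0 < ε → ∃ t : ℕ → G, (∀ n, t n ∈ P) ∧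
        (∀ n, gr b a (ι (t n) + star (ι (t n)) - s₀) < ε) ∧
        ∀ S : Finset ℕ, S.card ≤ 3 * Fintype.card κ →
          LinearIndepOn F (fun n => Phi hX fun k => bS.repr (trS hst (ι (t n))) k) S := by
  obtain ⟨C, hC1, hC⟩ := exists_gr_mul b a
  have hC0 : 0 < C := by linarith
  have hg1 := gr_nonneg b a (1 : A)
  have hA2 : ∀ x : A, x + x = 0 := add_self_A F
  have hneg : ∀ x : A, -x = x := fun x => neg_eq_of_add_eq_zero_left (hA2 x)
  refine ⟨1 / (4 * C ^ 2 * (gr b a 1 + 1)), by positivity, ?_⟩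
  intro G ι hG P hP s₀ s₀' hs₀ h1 h1' hη ε hε
  -- the involution is bounded
  obtain ⟨K, hK0, hK⟩ := exists_gr_linear b a
    ({ toFun := star, map_add' := star_add, map_smul' := hst } : A →ₗ[F] A)
  obtain ⟨K₂, hK20, hK2⟩ := exists_coord_bound b a bS
  obtain ⟨B, hB⟩ : ∃ B : ℝ, B = 1 + ∑ k, gr b a (bS k : A) := ⟨_, rfl⟩
  have hB0 : 0 < B := by
    rw [hB]
    have : 0 ≤ ∑ k, gr b a (bS k : A) := Finset.sum_nonneg fun k _ => gr_nonneg b a _
    linarith
  have hs'0 := gr_nonneg b a s₀'
  obtain ⟨r, hr⟩ : ∃ r : ℝ, r = min (ε / B) (1 / (2 * (C * (C * gr b a s₀' * B) + 1))) :=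
    ⟨_, rfl⟩
  have hr0 : 0 < r := by rw [hr]; positivity
  have hrB : ∀ x : symR F A hst, (∀ k, a (bS.repr x k) < r) → gr b a (x : A) < r * B := by
    intro x hx
    refine lt_of_le_of_lt (gr_le_coord b a bS x (fun k => (hx k).le)) ?_
    refine mul_lt_mul_of_pos_left ?_ hr0
    rw [hB]
    linarith
  obtain ⟨t, htP, htr, hlin⟩ := exists_seq2 hX a hcont hz hz1
    (fun g k => bS.repr (trS hst (ι g)) k) P (fun k => bS.repr ⟨s₀, hs₀⟩ k) hr0
    (by
      intro c hc δ hδ
      -- the symmetric element with coordinates `c`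
      obtain ⟨s, hs⟩ : ∃ s : symR F A hst, ∀ k, bS.repr s k = c k :=
        ⟨bS.equivFun.symm c, fun k => by
          have := congrFun (bS.equivFun.apply_symm_apply c) k
          rwa [Basis.equivFun_apply] at this⟩
      have hsc : gr b a ((s : A) - s₀) < r * B := by
        have := hrB (s - ⟨s₀, hs₀⟩) fun k => by
          rw [map_sub, Finsupp.sub_apply, hs]
          exact hc k
        simpa using this
      obtain ⟨κ', hκ'⟩ : ∃ κ' : A, κ' = s₀' * ((s : A) - s₀) := ⟨_, rfl⟩
      have hκC : C * gr b a κ' ≤ 1 / 2 := by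
        have h3 : gr b a κ' ≤ C * gr b a s₀' * (r * B) := by
          rw [hκ']
          exact (hC _ _).trans (mul_le_mul_of_nonneg_left hsc.le (by positivity))
        have h4 : r ≤ 1 / (2 * (C * (C * gr b a s₀' * B) + 1)) := by
          rw [hr]
          exact min_le_right _ _
        have h5 : 0 ≤ C * (C * gr b a s₀' * B) := by positivity
        calc C * gr b a κ' ≤ C * (C * gr b a s₀' * (r * B)) :=
              mul_le_mul_of_nonneg_left h3 hC0.le
          _ = (C * (C * gr b a s₀' * B)) * r := by ring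
          _ ≤ (C * (C * gr b a s₀' * B)) * (1 / (2 * (C * (C * gr b a s₀' * B) + 1))) :=
              mul_le_mul_of_nonneg_left h4 h5
          _ ≤ 1 / 2 := by
              rw [mul_one_div, div_le_div_iff₀ (by positivity) (by norm_num)]
              nlinarith
      obtain ⟨v, hv1, hv2, hvg⟩ := gr_inv b a hC hu hκC
      rw [sub_eq_add_neg, hneg] at hv1 hv2
      have hse : (s : A) = s₀ * (1 + κ') := by
        rw [hκ', mul_add, mul_one, ← mul_assoc, h1, one_mul, add_sub_cancel]
      have e1 : (s : A) * (v * s₀') = 1 := by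
        rw [hse, mul_assoc, ← mul_assoc (1 + κ'), hv1, one_mul, h1]
      have e2 : (v * s₀') * (s : A) = 1 := by
        rw [hse, mul_assoc, ← mul_assoc s₀', h1', one_mul, hv2]
      have e3 : C * gr b a (v * s₀') ≤ 1 / 2 := by
        have h3 : gr b a (v * s₀') ≤ C * (2 * gr b a 1) * gr b a s₀' :=
          (hC _ _).trans (mul_le_mul_of_nonneg_right
            (mul_le_mul_of_nonneg_left hvg hC0.le) hs'0)
        calc C * gr b a (v * s₀') ≤ C * (C * (2 * gr b a 1) * gr b a s₀') :=
              mul_le_mul_of_nonneg_left h3 hC0.le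
          _ ≤ C * (C * (2 * gr b a 1) * (1 / (4 * C ^ 2 * (gr b a 1 + 1)))) := by
              have : 0 ≤ C * (2 * gr b a 1) := by positivity
              gcongr
          _ ≤ 1 / 2 := by
              have h4 : C * (C * (2 * gr b a 1) * (1 / (4 * C ^ 2 * (gr b a 1 + 1)))) =
                  gr b a 1 / (2 * (gr b a 1 + 1)) := by
                field_simp
                ring
              rw [h4, div_le_div_iff₀ (by positivity) (by norm_num)]
              linarith
      -- the unitary element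
      obtain ⟨δ', hδ', hδ'2⟩ : ∃ δ' : ℝ, 0 < δ' ∧ K₂ * (δ' + (1 + K) * δ') < δ := by
        refine ⟨δ / (2 * (K₂ * (2 + K) + 1)), by positivity, ?_⟩
        have h3 : 0 ≤ K₂ * (2 + K) := by positivity
        have h4 : K₂ * (δ / (2 * (K₂ * (2 + K) + 1)) + (1 + K) * (δ / (2 * (K₂ * (2 + K) + 1)))) =
            (K₂ * (2 + K)) * (δ / (2 * (K₂ * (2 + K) + 1))) := by ring
        rw [h4, mul_div_assoc', div_lt_iff₀ (by positivity)]
        nlinarith
      obtain ⟨x, hx1, hx2, hx3⟩ := exists_unitary_near b a hu hsplit hC1 hC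
        (mem_symR.1 s.2) e1 e2 e3 hδ'
      obtain ⟨g, hg⟩ := hG x hx1 hx2
      obtain ⟨t, htP, ht⟩ := hP g δ' hδ'
      refine ⟨t, htP, fun k => ?_⟩
      have h3 : bS.repr (trS hst (ι t)) k - c k = bS.repr (trS hst (ι t) - s) k := by
        rw [map_sub, Finsupp.sub_apply, hs]
      rw [h3]
      refine lt_of_le_of_lt (hK2 _ k) (lt_of_le_of_lt ?_ hδ'2)
      refine mul_le_mul_of_nonneg_left ?_ hK20
      have h4 : ((trS hst (ι t) - s : symR F A hst) : A) =
          (x + star x - s) + ((ι t - ι g) + star (ι t - ι g)) := by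
        rw [Submodule.coe_sub, star_sub, hg]
        show ι t + star (ι t) - (s : A) = _
        abel
      rw [h4]
      have h5 := gr_add b a (x + star x - s) ((ι t - ι g) + star (ι t - ι g))
      have h6 := gr_add b a (ι t - ι g) (star (ι t - ι g))
      have h7 : gr b a (star (ι t - ι g)) ≤ K * gr b a (ι t - ι g) := hK (ι t - ι g)
      nlinarith)
  refine ⟨t, htP, fun n => ?_, hlin⟩
  have h3 := hrB (trS hst (ι (t n)) - ⟨s₀, hs₀⟩) fun k => by
    rw [map_sub, Finsupp.sub_apply]
    exact htr n k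
  have h4 : r * B ≤ ε := by
    have : r ≤ ε / B := by rw [hr]; exact min_le_left _ _
    rwa [le_div_iff₀ hB0] at this
  refine lt_of_lt_of_le ?_ h4
  simpa [trS] using h3

end main

end Vale.Agent.P011.H983
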