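import Vale.Agent.P011.H983.OMfull
import Vale.Agent.P011.H983.GenPos2

/-!
# Operator mixing in characteristic two

`k` infinite of characteristic two with a 2-basis `{X}`, `x b = x₀ + b² + e₁ b`,
`g_b T_l = T_{x b / x 0 · l} g_b`, `g_c g_b = T_{e c b (b - c) / x 0} g_b g_c`, and the inverses of
`x b`, `b` in any large finite set, span `L` over `k`.
-/

open scoped InnerProductSpace
open Module

namespace Vale.Agent.P011.H983

open Vale.Agent.P011.H152

noncomputable section

section avoid

variable {K V G : Type*} [Field K] [AddCommGroup V] [Module K V] [FiniteDimensional K V]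

omit [FiniteDimensional K V] in
/-- General position from the avoidance of hyperplanes. -/
theorem exists_seq_avoid (φ : G → V) (P : Set G)
    (hav : ∀ 𝓛 : Finset (Dual K V), (∀ l ∈ 𝓛, l ≠ 0) → ∃ g ∈ P, ∀ l ∈ 𝓛, l (φ g) ≠ 0) :
    ∃ t : ℕ → G, (∀ n, t n ∈ P) ∧ ∀ S : Finset ℕ, S.card ≤ finrank K V →
      LinearIndepOn K (fun n => φ (t n)) S := by
  classical
  have hnext : ∀ T : Finset G, ∃ g : G, g ∈ P ∧
      ∀ s ⊆ T, s.card < finrank K V → φ g ∉ Submodule.span K (φ '' (s : Set G)) := by
    intro T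
    have hl : ∀ s : {s : Finset G // s ⊆ T ∧ s.card < finrank K V},
        ∃ c : Dual K V, c ≠ 0 ∧ ∀ x ∈ Submodule.span K (φ '' (s.1 : Set G)), c x = 0 := by
      intro s
      obtain ⟨l, hl0, hlk⟩ := Submodule.exists_le_ker_of_lt_top
        (Submodule.span K (φ '' (s.1 : Set G)))
        (lt_top_iff_ne_top.mpr fun h1 => by
          have h2 : finrank K V ≤ s.1.card := by
            have h3 : finrank K (⊤ : Submodule K V) ≤ s.1.card := by
              rw [← h1, ← Finset.coe_image]
              exact (finrank_span_finset_le_card _).trans Finset.card_image_le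
            rwa [finrank_top] at h3
          exact absurd s.2.2 (not_lt.mpr h2))
      exact ⟨l, hl0, fun x hx => hlk hx⟩
    choose c hc0 hck using hl
    have hfinite : Finite {s : Finset G // s ⊆ T ∧ s.card < finrank K V} := by
      refine Finite.of_injective (β := T.powerset)
        (fun s => ⟨s.1, Finset.mem_powerset.mpr s.2.1⟩) fun s s' h => ?_
      exact Subtype.ext (by simpa using h)
    have := Fintype.ofFinite {s : Finset G // s ⊆ T ∧ s.card < finrank K V}
    obtain ⟨g, hgP, hg⟩ := hav (Finset.univ.image c) (fun c' hc' => by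
      obtain ⟨s, -, rfl⟩ := Finset.mem_image.1 hc'
      exact hc0 s)
    exact ⟨g, hgP, fun s hs hcard hmem => hg (c ⟨s, hs, hcard⟩)
      (Finset.mem_image_of_mem _ (Finset.mem_univ _)) (hck ⟨s, hs, hcard⟩ _ hmem)⟩
  choose next hnext1 hnext2 using hnext
  let L : ℕ → Finset G := fun n => Nat.rec ∅ (fun _ T => insert (next T) T) n
  have hLs : ∀ n, L (n + 1) = insert (next (L n)) (L n) := fun n => rfl
  have hmem : ∀ n m, m < n → next (L m) ∈ L n := by
    intro n
    induction n with
    | zero => intro m hm; omega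
    | succ n ih =>
      intro m hm
      rw [hLs]
      rcases Nat.lt_succ_iff_lt_or_eq.mp hm with h1 | h1
      · exact Finset.mem_insert_of_mem (ih m h1)
      · rw [h1]
        exact Finset.mem_insert_self _ _
  refine ⟨fun n => next (L n), fun i => hnext1 _, fun s => ?_⟩
  induction s using Finset.induction_on_max with
  | empty => intro _; simp
  | insert m s ha ih =>
    intro hcard
    have hna : m ∉ s := fun h1 => (ha m h1).false
    rw [Finset.card_insert_of_notMem hna] at hcard
    rw [Finset.coe_insert]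
    refine (ih (by omega)).insert ?_
    have h1 := hnext2 (L m) (s.image fun i => next (L i))
      (fun x hx => by
        obtain ⟨i, hi, rfl⟩ := Finset.mem_image.mp hx
        exact hmem _ _ (ha i hi))
      (lt_of_le_of_lt Finset.card_image_le (by omega))
    rw [Finset.coe_image, Set.image_image] at h1
    exact h1

end avoid

section line

variable {k : Type*} [Field k] [CharP k 2] {X : k} (hX : TwoBasis k X)

/-- The vector `(u, v, γ²)`, `γ = u² + X v²`. -/
def phi3 (γ : k) : k × k × k := (evK hX γ, odK hX γ, γ ^ 2)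

/-- Three parameters in general position: the groups `γ b² + γ² b` generate `k`. -/
theorem exists_sum_eq (t : ℕ → k) (S : Finset ℕ)
    (hS : Submodule.span k ((fun i => phi3 hX (t i)) '' (S : Set ℕ)) = ⊤) (z : k) :
    ∃ b : ℕ → k, ∑ i ∈ S, (t i * b i ^ 2 + t i ^ 2 * b i) = z := by
  have h1 : ((evK hX z, odK hX z, 0) : k × k × k) ∈
      Submodule.span k ((fun i => phi3 hX (t i)) '' (S : Set ℕ)) := by
    rw [hS]
    exact Submodule.mem_top
  obtain ⟨b, hb⟩ := (Submodule.mem_span_image_finset_iff_exists_fun' k).1 h1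
  refine ⟨b, ?_⟩
  have h2 : ∑ i ∈ S, b i * evK hX (t i) = evK hX z := by
    have := congrArg Prod.fst hb
    rw [Prod.fst_sum] at this
    simpa [phi3] using this
  have h3 : ∑ i ∈ S, b i * odK hX (t i) = odK hX z := by
    have := congrArg (fun p : k × k × k => p.2.1) hb
    simp only [Prod.snd_sum, Prod.fst_sum] at this
    simpa [phi3] using this
  have h4 : ∑ i ∈ S, b i * t i ^ 2 = 0 := by
    have := congrArg (fun p : k × k × k => p.2.2) hb
    simp only [Prod.snd_sum] at this
    simpa [phi3] using this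
  have h5 : ∀ f : ℕ → k, (∑ i ∈ S, f i) ^ 2 = ∑ i ∈ S, f i ^ 2 := by
    intro f
    exact map_sum (frobenius k 2) f S
  have h6 : ∑ i ∈ S, (t i * b i ^ 2 + t i ^ 2 * b i) =
      ∑ i ∈ S, (b i * evK hX (t i)) ^ 2 + X * ∑ i ∈ S, (b i * odK hX (t i)) ^ 2 +
        ∑ i ∈ S, b i * t i ^ 2 := by
    rw [Finset.mul_sum, ← Finset.sum_add_distrib, ← Finset.sum_add_distrib]
    refine Finset.sum_congr rfl fun i _ => ?_
    have h7 := evod hX (t i)
    linear_combination b i ^ 2 * h7
  rw [h6, ← h5, ← h5, h2, h3, h4, add_zero]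
  exact (evod hX z).symm

variable [Infinite k] {m : (k → ℝ) → ℝ}

/-- A proper linear condition on `phi3 (c + c')` is satisfied for a null set of `c'` only. -/
theorem null_phi3 (h : IsMean m) (hinv : ∀ (b : k) (f), Bdd f → m (fun x => f (x + b)) = m f)
    (l : Dual k (k × k × k)) (hl : l ≠ 0) (c : k) : Null m {c' | l (phi3 hX (c + c')) = 0} := by
  classical
  obtain ⟨α, hα⟩ : ∃ α, α = l (1, 0, 0) := ⟨_, rfl⟩
  obtain ⟨β, hβ⟩ : ∃ β, β = l (0, 1, 0) := ⟨_, rfl⟩
  obtain ⟨κ, hκ⟩ : ∃ κ, κ = l (0, 0, 1) := ⟨_, rfl⟩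
  have hlv : ∀ x y z : k, l (x, y, z) = x * α + y * β + z * κ := by
    intro x y z
    have h1 : ((x, y, z) : k × k × k) = x • (1, 0, 0) + y • (0, 1, 0) + z • (0, 0, 1) := by
      simp
    rw [h1, map_add, map_add, map_smul, map_smul, map_smul, ← hα, ← hβ, ← hκ, smul_eq_mul,
      smul_eq_mul, smul_eq_mul]
  have hev0 : evK hX 0 = 0 := evK_eq hX (v := 0) (by ring)
  have hod0 : odK hX 0 = 0 := odK_eq hX (u := 0) (by ring)
  by_cases hcase : α = 0 ∧ κ = 0
  · have hβ0 : β ≠ 0 := by
      intro hβ0
      apply hl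
      refine LinearMap.ext fun p => ?_
      obtain ⟨x, y, z⟩ := p
      rw [hlv, hcase.1, hcase.2, hβ0, LinearMap.zero_apply]
      ring
    refine null_of_fibers h hinv (fun t : k => X * t ^ 2) _ 1 fun x s hs => ?_
    rw [Finset.card_le_one]
    have h1 : ∀ t ∈ s, t = odK hX (c + x) := by
      intro t ht
      have h2 : l (phi3 hX (c + (x + X * t ^ 2))) = 0 := hs t ht
      have h3 : odK hX (c + (x + X * t ^ 2)) = odK hX (c + x) + t := by
        apply odK_eq hX (u := evK hX (c + x))
        have h4 := evod hX (c + x)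
        have h5 : (odK hX (c + x) + t) ^ 2 = odK hX (c + x) ^ 2 + t ^ 2 := CharTwo.add_sq _ _
        rw [h5]
        linear_combination h4
      rw [phi3, hlv, hcase.1, hcase.2, h3, mul_zero, mul_zero, zero_add, add_zero] at h2
      exact (CharTwo.add_eq_zero.1 ((mul_eq_zero.1 h2).resolve_right hβ0)).symm
    intro i hi j hj
    rw [h1 i hi, h1 j hj]
  · refine null_of_fibers h hinv (fun t : k => t ^ 2) _ 4 fun x s hs => ?_
    obtain ⟨C₀, hC₀⟩ : ∃ C₀, C₀ = l (phi3 hX (c + x)) := ⟨_, rfl⟩
    obtain ⟨p, hp⟩ : ∃ p : Polynomial k, p = Polynomial.C C₀ +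
      Polynomial.C α * Polynomial.X + Polynomial.C κ * Polynomial.X ^ 4 := ⟨_, rfl⟩
    have hp0 : p ≠ 0 := by
      intro h0
      apply hcase
      have h1 : p.coeff 1 = α := by
        rw [hp]
        simp [Polynomial.coeff_X_pow, Polynomial.coeff_C]
      have h2 : p.coeff 4 = κ := by
        rw [hp]
        simp
      rw [h0, Polynomial.coeff_zero] at h1 h2
      exact ⟨h1.symm, h2.symm⟩
    have hdeg : p.natDegree ≤ 4 := by
      rw [hp]
      compute_degree
    have hroot : ∀ t ∈ s, t ∈ p.roots.toFinset := by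
      intro t ht
      rw [Multiset.mem_toFinset, Polynomial.mem_roots hp0, Polynomial.IsRoot]
      have h2 : l (phi3 hX (c + (x + t ^ 2))) = 0 := hs t ht
      have h5 : (evK hX (c + x) + t) ^ 2 = evK hX (c + x) ^ 2 + t ^ 2 := CharTwo.add_sq _ _
      have h4 := evod hX (c + x)
      have h3 : evK hX (c + (x + t ^ 2)) = evK hX (c + x) + t := by
        apply evK_eq hX (v := odK hX (c + x))
        rw [h5]
        linear_combination h4
      have h3' : odK hX (c + (x + t ^ 2)) = odK hX (c + x) := by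
        apply odK_eq hX (u := evK hX (c + x) + t)
        rw [h5]
        linear_combination h4
      have h6 : (c + (x + t ^ 2)) ^ 2 = (c + x) ^ 2 + t ^ 4 := by
        have h7 : c + (x + t ^ 2) = (c + x) + t ^ 2 := by ring
        rw [h7, CharTwo.add_sq]
        ring
      rw [phi3, hlv, h3, h3', h6] at h2
      rw [hp, hC₀, phi3, hlv]
      simp only [Polynomial.eval_add, Polynomial.eval_C, Polynomial.eval_mul, Polynomial.eval_X,
        Polynomial.eval_pow]
      rw [← h2]
      ring
    calc s.card ≤ p.roots.toFinset.card := Finset.card_le_card fun t ht => hroot t ht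
      _ ≤ Multiset.card p.roots := Multiset.toFinset_card_le _
      _ ≤ p.natDegree := Polynomial.card_roots' p
      _ ≤ 4 := hdeg

include hX in
/-- Nonnull sets contain sequences in general position. -/
theorem exists_seq_phi3 (h : IsMean m)
    (hinv : ∀ (b : k) (f), Bdd f → m (fun x => f (x + b)) = m f) (c : k) (Z : Set k)
    (hZ : ¬ Null m Z) : ∃ t : ℕ → k, (∀ i, t i ∈ Z) ∧ ∀ S : Finset ℕ, S.card = 3 →
      ∀ z : k, ∃ b : ℕ → k, ∑ i ∈ S, ((c + t i) * b i ^ 2 + (c + t i) ^ 2 * b i) = z := by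
  classical
  obtain ⟨t, ht1, ht2⟩ := exists_seq_avoid (K := k) (fun c' => phi3 hX (c + c')) Z (by
    intro 𝓛 h𝓛
    obtain ⟨x, hx1, hx2⟩ := exists_notMem_of_null h hZ
      (Null.biUnion h 𝓛 (Z := fun l => {c' | l (phi3 hX (c + c')) = 0})
        fun l hl => null_phi3 hX h hinv l (h𝓛 l hl) c)
    exact ⟨x, hx1, fun l hl h0 => hx2 (Set.mem_biUnion hl h0)⟩)
  refine ⟨t, ht1, fun S hS z => ?_⟩
  have hfr : finrank k (k × k × k) = 3 := by
    rw [Module.finrank_prod, Module.finrank_prod, Module.finrank_self]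
  refine exists_sum_eq hX (fun i => c + t i) S ?_ z
  have h1 := ht2 S (by rw [hS, hfr])
  have h2 : LinearIndependent k (fun i : S => phi3 hX (c + t i)) := h1
  have h3 := h2.span_eq_top_of_card_eq_finrank' (by rw [Fintype.card_coe, hS, hfr])
  rw [← h3]
  congr 1
  ext p
  simp

end line

end

end Vale.Agent.P011.H983
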