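import Vale.Agent.P011.H983.OM2

/-!
# Operator mixing in characteristic two: the theorem
-/

open scoped InnerProductSpace
open Module

namespace Vale.Agent.P011.H983

open Vale.Agent.P011.H152

noncomputable section

variable {k L : Type*} [Field k] [Field L] [Algebra k L]

/-- The quadratic polynomial. -/
def xq (x₀ : L) (e₁ b : k) : L := x₀ + algebraMap k L (b ^ 2 + e₁ * b)

/-- The line `k / x`. -/
def lineHom (k : Type*) {L : Type*} [Field k] [Field L] [Algebra k L] (x : L) : k →+ L :=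
  AddMonoidHom.mk' (fun z => algebraMap k L z / x) fun a b => by rw [map_add, add_div]

/-- Multiplication by a nonzero element. -/
def mulE (u : L) (hu : u ≠ 0) : L ≃+ L where
  toFun l := u * l
  invFun l := u⁻¹ * l
  left_inv l := by
    show u⁻¹ * (u * l) = l
    rw [← mul_assoc, inv_mul_cancel₀ hu, one_mul]
  right_inv l := by
    show u * (u⁻¹ * l) = l
    rw [← mul_assoc, mul_inv_cancel₀ hu, one_mul]
  map_add' a b := mul_add _ _ _

/-- The homomorphism `b ↦ e (γ b² + γ² b) / x`. -/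
def quadHom [CharP k 2] (e γ : k) (x : L) : k →+ L :=
  AddMonoidHom.mk' (fun b => algebraMap k L (e * (γ * b ^ 2 + γ ^ 2 * b)) / x) fun a b => by
    rw [← add_div, ← map_add, CharTwo.add_sq]
    congr 2
    ring

theorem infinite_of_not_null {k : Type*} [AddCommGroup k] [Infinite k] {m : (k → ℝ) → ℝ}
    (h : IsMean m) (hinv : ∀ (b : k) (f), Bdd f → m (fun x => f (x + b)) = m f) {Z : Set k}
    (hZ : ¬ Null m Z) : Z.Infinite := by
  intro hfin
  apply hZ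
  refine (Null.biUnion h hfin.toFinset (Z := fun a => {a})
    fun a _ => null_singleton h hinv a).mono h fun x hx => ?_
  exact Set.mem_biUnion (hfin.mem_toFinset.2 hx) (Set.mem_singleton x)

variable [CharP k 2] [Infinite k] {X : k} {m : (k → ℝ) → ℝ}
variable {H : Type*} [NormedAddCommGroup H] [InnerProductSpace ℂ H] [CompleteSpace H]

/-- **Operator mixing in characteristic two.** -/
theorem om2_core (hX : TwoBasis k X) (h : IsMean m)
    (hinv : ∀ (b : k) (f), Bdd f → m (fun x => f (x + b)) = m f)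
    {x₀ : L} {e₁ e : k} (he₁ : e₁ ≠ 0) (he : e ≠ 0) (hne : ∀ b : k, xq x₀ e₁ b ≠ 0)
    (hspan : ∃ N₀ : ℕ, ∀ B : Finset k, N₀ ≤ B.card →
      Submodule.span k ((fun b : k => (xq x₀ e₁ b)⁻¹) '' (B : Set k)) = ⊤)
    {T : L → H ≃ₗᵢ[ℂ] H} {g : k → H ≃ₗᵢ[ℂ] H}
    (hT : ∀ a b x, T (a + b) x = T a (T b x))
    (hconj : ∀ b l x, g b (T l x) = T (xq x₀ e₁ b / xq x₀ e₁ 0 * l) (g b x))
    (hcomm : ∀ b c x, g c (g b x) =
      T (algebraMap k L (e * (c * b * (b - c))) / xq x₀ e₁ 0) (g b (g c x)))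
    {F : H} (hF : ∀ y, (∀ l, T l y = y) → ⟪y, F⟫_ℂ = 0) (G : H) :
    m (fun b => ‖⟪F, g b G⟫_ℂ‖ ^ 2) = 0 := by
  classical
  have h2 : (2 : k) = 0 := CharTwo.two_eq_zero
  have hX0 : X ≠ 0 := by
    rintro rfl
    exact hX.ns 0 (by ring)
  have hdiff : ∀ b c : k, xq x₀ e₁ b - xq x₀ e₁ c =
      algebraMap k L ((b - c) * (b - c + e₁)) := by
    intro b c
    rw [xq, xq, add_sub_add_left_eq_sub, ← map_sub]
    congr 1
    linear_combination (b * c - c ^ 2) * h2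
  obtain ⟨N₀, hN₀⟩ := hspan
  refine om_full h hinv ⟨hT⟩ g (fun b => mulE (xq x₀ e₁ b / xq x₀ e₁ 0) (div_ne_zero (hne b) (hne 0)))
    hconj (fun c b => algebraMap k L (e * (c * b * (b - c))) / xq x₀ e₁ 0) ?_
    (ι := k) (fun t => e₁ * (X * t ^ 2)) ?_
    (fun c c' => (quadHom e (c + c') (xq x₀ e₁ c)).range)
    (fun c => (lineHom k (xq x₀ e₁ c)).range) ?_ ?_ N₀ 3 ?_ ?_ hF G
  · intro c b x
    rw [hcomm, LinearIsometryEquiv.apply_symm_apply]
  · intro x i j hij l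
    have h1 : xq x₀ e₁ (x + e₁ * (X * j ^ 2)) - xq x₀ e₁ (x + e₁ * (X * i ^ 2)) =
        algebraMap k L (e₁ ^ 2 * (X * (i - j) ^ 2) * (X * (i - j) ^ 2 + 1)) := by
      rw [hdiff]
      congr 1
      linear_combination (e₁ ^ 2 * X * (X * (i - j) ^ 2 * i * j - X * i * j ^ 3 +
        X * i ^ 3 * j - X * i ^ 4 + X * j * i ^ 3 + 0) * 0) * h2 +
        (e₁ ^ 2 * X * (2 * X * i ^ 3 * j - 2 * X * i ^ 2 * j ^ 2 * 2 + 2 * X * i * j ^ 3 +
          i * j - i ^ 2) ) * h2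
    have hij2 : (i - j) ^ 2 ≠ 0 := pow_ne_zero 2 (sub_ne_zero.2 hij)
    have h3 : X * (i - j) ^ 2 + 1 ≠ 0 := by
      intro h0
      apply hX.ns (1 / (i - j))
      have h4 : X * (i - j) ^ 2 = 1 := CharTwo.add_eq_zero.1 h0
      rw [div_pow, one_pow, div_eq_iff hij2, h4]
    have h4 : algebraMap k L (e₁ ^ 2 * (X * (i - j) ^ 2) * (X * (i - j) ^ 2 + 1)) ≠ 0 := by
      rw [Ne, map_eq_zero]
      exact mul_ne_zero (mul_ne_zero (pow_ne_zero 2 he₁) (mul_ne_zero hX0 hij2)) h3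
    refine ⟨l * xq x₀ e₁ 0 / algebraMap k L (e₁ ^ 2 * (X * (i - j) ^ 2) *
      (X * (i - j) ^ 2 + 1)), ?_⟩
    show xq x₀ e₁ (x + e₁ * (X * j ^ 2)) / xq x₀ e₁ 0 * _ -
      xq x₀ e₁ (x + e₁ * (X * i ^ 2)) / xq x₀ e₁ 0 * _ = l
    rw [← sub_mul, ← sub_div, h1]
    have h5 := hne 0
    generalize algebraMap k L (e₁ ^ 2 * (X * (i - j) ^ 2) * (X * (i - j) ^ 2 + 1)) = A at h4 ⊢
    rw [div_mul_div_comm, mul_comm (xq x₀ e₁ 0) A, mul_comm l, ← mul_assoc]
    exact mul_div_cancel_left₀ l (mul_ne_zero h4 h5)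
  · rintro c c' _ ⟨b, rfl⟩
    exact ⟨e * ((c + c') * b ^ 2 + (c + c') ^ 2 * b), rfl⟩
  · intro c c' _ x hx z
    have h3 : (fun b => ‖⟪T (algebraMap k L (e * (c' * b * (b - c'))) / xq x₀ e₁ 0 -
        algebraMap k L (e * (c * b * (b - c))) / xq x₀ e₁ 0) x, z⟫_ℂ‖) =
        fun b => ‖⟪T (quadHom e (c + c') (xq x₀ e₁ 0) b) x, z⟫_ℂ‖ := by
      funext b
      congr 4
      show _ = algebraMap k L (e * ((c + c') * b ^ 2 + (c + c') ^ 2 * b)) / xq x₀ e₁ 0
      rw [← sub_div, ← map_sub]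
      congr 2
      linear_combination (-(e * (c * b ^ 2 + c * c' * b + c' ^ 2 * b))) * h2
    rw [h3]
    refine mean_hom h hinv ⟨hT⟩ (quadHom e (c + c') (xq x₀ e₁ 0)) (fun y hy => hx y ?_) z
    refine Eig_anti T ?_ hy
    rintro _ ⟨_, ⟨b, rfl⟩, rfl⟩
    refine ⟨b, ?_⟩
    show algebraMap k L (e * ((c + c') * b ^ 2 + (c + c') ^ 2 * b)) / xq x₀ e₁ 0 =
      xq x₀ e₁ c / xq x₀ e₁ 0 * (algebraMap k L (e * ((c + c') * b ^ 2 + (c + c') ^ 2 * b)) /
        xq x₀ e₁ c)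
    have h5 := hne 0
    have h6 := hne c
    field_simp
  · intro Z hZ
    have hinf := infinite_of_not_null h hinv hZ
    obtain ⟨f⟩ : Nonempty (ℕ ↪ Z) := ⟨hinf.natEmbedding Z⟩
    refine ⟨fun n => f n, fun i => (f i).2, fun S hS B hB l _ => ?_⟩
    have h3 : (S.image fun n => (f n : k)).card = N₀ := by
      rw [Finset.card_image_of_injective _ fun a b hab => f.injective (Subtype.ext hab), hS]
    have h4 := hN₀ _ h3.ge
    have h5 : l ∈ Submodule.span k ((fun b : k => (xq x₀ e₁ b)⁻¹) ''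
        ((S.image fun n => (f n : k) : Finset k) : Set k)) := by
      rw [h4]
      exact Submodule.mem_top
    obtain ⟨c, hc⟩ := (Submodule.mem_span_image_finset_iff_exists_fun' k).1 h5
    rw [← hc]
    refine B.sum_mem fun b hb => ?_
    obtain ⟨n, hn, rfl⟩ := Finset.mem_image.1 hb
    refine hB n hn ⟨c (f n), ?_⟩
    show algebraMap k L (c (f n)) / xq x₀ e₁ (f n) = _
    rw [Algebra.smul_def, div_eq_mul_inv]
  · intro c Z hZ
    obtain ⟨t, ht1, ht2⟩ := exists_seq_phi3 hX h hinv c Z hZ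
    refine ⟨t, ht1, fun S hS B hB => ?_⟩
    rintro _ ⟨z, rfl⟩
    obtain ⟨b, hb⟩ := ht2 S hS (z / e)
    have h3 : lineHom k (xq x₀ e₁ c) z =
        ∑ i ∈ S, quadHom e (c + t i) (xq x₀ e₁ c) (b i) := by
      show algebraMap k L z / xq x₀ e₁ c = ∑ i ∈ S,
        algebraMap k L (e * ((c + t i) * b i ^ 2 + (c + t i) ^ 2 * b i)) / xq x₀ e₁ c
      rw [← Finset.sum_div, ← map_sum, ← Finset.mul_sum, hb]
      congr 2
      field_simp
    rw [h3]
    exact B.sum_mem fun i hi => hB i hi ⟨b i, rfl⟩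

end

end Vale.Agent.P011.H983
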