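import Vale.Agent.P011.H983.Kron
import Vale.Agent.P011.H152.MeanH
import Vale.Agent.P011.H219.MeanOp

/-!
# Operator mixing, abstract form

`m` an invariant mean on an abelian group `k`, `T : L → unitary operators` additive, `g b`, `b : k`,
unitary with `g_b T_l = T_{s_b l} g_b` and `g_c g_b g_c⁻¹ = T_{q_c(b)} g_b`.  If `F` is almost
orthogonal to the eigenvectors of most of the subgroups `A c c'`, which control the oscillation of
`b ↦ q_c(b) - q_{c'}(b)`, then `m (b ↦ |⟨F, g_b G⟩|²) = 0` for all `G`.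
-/

open scoped InnerProductSpace

namespace Vale.Agent.P011.H983

open Vale.Agent.P011.H152

noncomputable section

section null

variable {X : Type*} {m : (X → ℝ) → ℝ}

/-- The indicator function. -/
def ind (Z : Set X) : X → ℝ := Z.indicator 1

theorem ind_nonneg (Z : Set X) (x : X) : 0 ≤ ind Z x :=
  Set.indicator_nonneg (fun _ _ => zero_le_one) x

theorem ind_le_one (Z : Set X) (x : X) : ind Z x ≤ 1 := by
  classical
  rw [ind, Set.indicator_apply]
  split_ifs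
  · exact le_rfl
  · exact zero_le_one

theorem ind_mem {Z : Set X} {x : X} (h : x ∈ Z) : ind Z x = 1 := by
  rw [ind, Set.indicator_of_mem h, Pi.one_apply]

theorem ind_notMem {Z : Set X} {x : X} (h : x ∉ Z) : ind Z x = 0 := by
  rw [ind, Set.indicator_of_notMem h]

theorem ind_mono {Z Z' : Set X} (h : Z ⊆ Z') (x : X) : ind Z x ≤ ind Z' x := by
  by_cases hx : x ∈ Z
  · rw [ind_mem hx, ind_mem (h hx)]
  · rw [ind_notMem hx]
    exact ind_nonneg _ _

theorem bdd_ind (Z : Set X) : Bdd (ind Z) :=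
  ⟨1, fun x => by rw [abs_of_nonneg (ind_nonneg Z x)]; exact ind_le_one Z x⟩

/-- Null sets of a mean. -/
def Null (m : (X → ℝ) → ℝ) (Z : Set X) : Prop := m (ind Z) = 0

theorem Null.mono (h : IsMean m) {Z Z' : Set X} (hZ : Null m Z') (hle : Z ⊆ Z') : Null m Z := by
  have h1 := h.mono (bdd_ind Z) (bdd_ind Z') (ind_mono hle)
  have h2 := h.nonneg _ (bdd_ind Z) (ind_nonneg Z)
  unfold Null at *
  linarith

theorem Null.union (h : IsMean m) {Z Z' : Set X} (hZ : Null m Z) (hZ' : Null m Z') :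
    Null m (Z ∪ Z') := by
  have h1 := h.mono (bdd_ind (Z ∪ Z')) ((bdd_ind Z).add (bdd_ind Z')) (fun x => by
    by_cases hx : x ∈ Z
    · rw [ind_mem hx, ind_mem (Set.mem_union_left _ hx)]
      have := ind_nonneg Z' x
      linarith
    · by_cases hx' : x ∈ Z'
      · rw [ind_mem hx', ind_mem (Set.mem_union_right _ hx')]
        have := ind_nonneg Z x
        linarith
      · rw [ind_notMem (by simp [hx, hx'] : x ∉ Z ∪ Z')]
        have := ind_nonneg Z x
        have := ind_nonneg Z' x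
        linarith)
  rw [h.add _ _ (bdd_ind Z) (bdd_ind Z')] at h1
  have h2 := h.nonneg _ (bdd_ind (Z ∪ Z')) (ind_nonneg _)
  unfold Null at *
  linarith

theorem Null.empty (h : IsMean m) : Null m (∅ : Set X) := by
  have h1 : ind (∅ : Set X) = fun _ => 0 := by
    funext x
    exact ind_notMem (Set.notMem_empty x)
  rw [Null, h1, h.zero]

theorem Null.biUnion (h : IsMean m) {ι : Type*} (s : Finset ι) {Z : ι → Set X}
    (hZ : ∀ i ∈ s, Null m (Z i)) : Null m (⋃ i ∈ s, Z i) := by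
  classical
  induction s using Finset.induction_on with
  | empty =>
    refine (Null.empty h).mono h ?_
    simp
  | insert a s ha ih =>
    rw [Finset.set_biUnion_insert]
    exact (hZ a (Finset.mem_insert_self _ _)).union h
      (ih fun i hi => hZ i (Finset.mem_insert_of_mem hi))

theorem exists_notMem_of_null (h : IsMean m) {Z Z' : Set X} (hZ : ¬ Null m Z) (hZ' : Null m Z') :
    ∃ x ∈ Z, x ∉ Z' := by
  by_contra hcon
  push Not at hcon
  exact hZ (hZ'.mono h hcon)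

/-- Markov's inequality. -/
theorem null_of_mean_zero (h : IsMean m) {f : X → ℝ} (hf : Bdd f) (h0 : ∀ x, 0 ≤ f x)
    (hm : m f = 0) {η : ℝ} (hη : 0 < η) : Null m {x | η ≤ f x} := by
  have h1 := h.mono ((bdd_ind {x | η ≤ f x}).const_mul η) hf (fun x => by
    by_cases hx : x ∈ {x | η ≤ f x}
    · rw [ind_mem hx, mul_one]
      exact hx
    · rw [ind_notMem hx, mul_zero]
      exact h0 x)
  rw [h.smul _ _ (bdd_ind _), hm] at h1
  have h2 := h.nonneg _ (bdd_ind {x | η ≤ f x}) (ind_nonneg _)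
  unfold Null
  nlinarith

theorem mean_zero_of_null (h : IsMean m) {f : X → ℝ} (hf : Bdd f) (h0 : ∀ x, 0 ≤ f x)
    (hm : ∀ η : ℝ, 0 < η → Null m {x | η ≤ f x}) : m f = 0 := by
  obtain ⟨C, hC⟩ := id hf
  have hpos := h.nonneg f hf h0
  by_contra hne
  have hpos' : 0 < m f := lt_of_le_of_ne hpos (Ne.symm hne)
  have h1 := hm (m f / 2) (by linarith)
  have h2 := h.mono hf ((Bdd.const (m f / 2)).add ((bdd_ind {x | m f / 2 ≤ f x}).const_mul C))
    (fun x => by
      by_cases hx : x ∈ {x | m f / 2 ≤ f x}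
      · rw [ind_mem hx, mul_one]
        have := hC x
        have := le_abs_self (f x)
        linarith
      · rw [ind_notMem hx, mul_zero]
        have h3 : f x < m f / 2 := not_le.1 hx
        linarith)
  rw [h.add _ _ (Bdd.const _) ((bdd_ind _).const_mul _), h.const, h.smul _ _ (bdd_ind _)] at h2
  unfold Null at h1
  rw [h1] at h2
  linarith

/-- A set which meets all translates of an infinite set in a bounded number of points is null. -/
theorem null_of_fibers {k : Type*} [AddCommGroup k] {m : (k → ℝ) → ℝ} (h : IsMean m)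
    (hinv : ∀ (b : k) (f), Bdd f → m (fun x => f (x + b)) = m f) {ι : Type*} [Infinite ι]
    (v : ι → k) (Z : Set k) (B : ℕ)
    (hB : ∀ (x : k) (s : Finset ι), (∀ i ∈ s, x + v i ∈ Z) → s.card ≤ B) : Null m Z := by
  classical
  have h0 := h.nonneg _ (bdd_ind Z) (ind_nonneg _)
  by_contra hne
  have hpos : 0 < m (ind Z) := lt_of_le_of_ne h0 (Ne.symm hne)
  obtain ⟨N, hN⟩ := exists_nat_gt ((B : ℝ) / m (ind Z))
  obtain ⟨s, hs⟩ := Infinite.exists_subset_card_eq ι N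
  have h1 : m (fun x => ∑ i ∈ s, ind Z (x + v i)) = (N : ℝ) * m (ind Z) := by
    rw [h.sum s (f := fun i x => ind Z (x + v i)) (fun i _ => (bdd_ind Z).comp _),
      Finset.sum_congr rfl (fun i _ => hinv (v i) (ind Z) (bdd_ind Z)),
      Finset.sum_const, hs, nsmul_eq_mul]
  have h2 : m (fun x => ∑ i ∈ s, ind Z (x + v i)) ≤ B := by
    refine h.le_const (Bdd.sum s fun i _ => (bdd_ind Z).comp _) (fun x => ?_)
    have h3 := hB x (s.filter fun i => x + v i ∈ Z) (fun i hi => (Finset.mem_filter.1 hi).2)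
    have h4 : ∑ i ∈ s, ind Z (x + v i) = (s.filter fun i => x + v i ∈ Z).card := by
      rw [Finset.card_filter]
      push_cast
      refine Finset.sum_congr rfl fun i _ => ?_
      split_ifs with hi
      · rw [ind_mem hi]
      · rw [ind_notMem hi]
    rw [h4]
    exact_mod_cast h3
  rw [h1] at h2
  rw [div_lt_iff₀ hpos] at hN
  linarith

theorem null_singleton {k : Type*} [AddCommGroup k] [Infinite k] {m : (k → ℝ) → ℝ} (h : IsMean m)
    (hinv : ∀ (b : k) (f), Bdd f → m (fun x => f (x + b)) = m f) (a : k) : Null m {a} := by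
  refine null_of_fibers h hinv (id : k → k) {a} 1 (fun x s hs => ?_)
  rw [Finset.card_le_one]
  intro i hi j hj
  have h1 : x + i = a := hs i hi
  have h2 : x + j = a := hs j hj
  exact add_left_cancel (h1.trans h2.symm)

end null

/-- Conversion to the letters of `H219`. -/
theorem toMn {X : Type*} {m : (X → ℝ) → ℝ} (h : IsMean m) : Vale.Agent.P011.H219.Mn m where
  add := fun f g hf hg => h.add f g hf hg
  smul := fun c f hf => h.smul c f hf
  nonneg := fun f hf h0 => h.nonneg f hf h0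
  one := h.one

/-- The linear case for a homomorphism `ψ : k → L`. -/
theorem mean_hom {k L : Type*} [AddCommGroup k] [AddCommGroup L] {m : (k → ℝ) → ℝ}
    (h : IsMean m) (hinv : ∀ (b : k) (f), Bdd f → m (fun x => f (x + b)) = m f)
    {H : Type*} [NormedAddCommGroup H] [InnerProductSpace ℂ H] [CompleteSpace H]
    {T : L → H ≃ₗᵢ[ℂ] H} (hT : URep T) (ψ : k →+ L) {x : H}
    (hx : ∀ y ∈ Eig T ψ.range, ⟪y, x⟫_ℂ = 0) (z : H) :
    m (fun b => ‖⟪T (ψ b) x, z⟫_ℂ‖) = 0 := by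
  have h1 := Vale.Agent.P011.H219.mean_linear (toMn h) hinv (τ := fun b => T (ψ b))
    (fun a b x => by rw [map_add, hT.add]) (x := x) (fun y hy => hx y (by
      rintro a ⟨b, rfl⟩
      exact hy b)) z
  have hb : Bdd (fun b => ‖⟪T (ψ b) x, z⟫_ℂ‖) := ⟨‖x‖ * ‖z‖, fun b => by
    rw [abs_norm]
    refine (norm_inner_le_norm _ _).trans ?_
    rw [LinearIsometryEquiv.norm_map]⟩
  have h2 := h.sq_le hb
  rw [h1] at h2
  exact pow_eq_zero_iff (two_ne_zero) |>.1 (le_antisymm h2 (sq_nonneg _))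

section om

variable {k L : Type*} [AddCommGroup k] [Infinite k] [AddCommGroup L] {m : (k → ℝ) → ℝ}
variable {H : Type*} [NormedAddCommGroup H] [InnerProductSpace ℂ H] [CompleteSpace H]

/-- **Operator mixing, abstract form.** -/
theorem om_abstract (h : IsMean m) (hinv : ∀ (b : k) (f), Bdd f → m (fun x => f (x + b)) = m f)
    {T : L → H ≃ₗᵢ[ℂ] H} (hT : URep T) (g : k → H ≃ₗᵢ[ℂ] H) (s : k → L ≃+ L)
    (hs : ∀ b l x, g b (T l x) = T (s b l) (g b x)) (q : k → k → L)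
    (hq : ∀ c b x, g c (g b ((g c).symm x)) = T (q c b) (g b x))
    (A : k → k → AddSubgroup L)
    (hW : ∀ c c' : k, c ≠ c' → ∀ x, (∀ y ∈ Eig T ((A c c').map (s c : L →+ L)), ⟪y, x⟫_ℂ = 0) →
      ∀ z, m (fun b => ‖⟪T (q c' b - q c b) x, z⟫_ℂ‖) = 0)
    {F : H} (hF : ∀ δ : ℝ, 0 < δ → ∃ E₀ : Set k, Null m E₀ ∧ ∀ c' ∉ E₀,
      Null m {c | δ < ‖PA T (A c' c) F‖}) (G : H) :
    m (fun b => ‖⟪F, g b G⟫_ℂ‖ ^ 2) = 0 := by
  classical
  obtain ⟨f, hf⟩ : ∃ f : k → H, f = fun b => (g b).symm F := ⟨_, rfl⟩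
  have hfn : ∀ b, ‖f b‖ = ‖F‖ := fun b => by rw [hf]; exact LinearIsometryEquiv.norm_map _ _
  have hfG : ∀ b G, ⟪F, g b G⟫_ℂ = ⟪f b, G⟫_ℂ := by
    intro b G
    rw [hf]
    conv_lhs => rw [← (g b).apply_symm_apply F]
    exact LinearIsometryEquiv.inner_map_map _ _ _
  have hvb : VBdd f := ⟨‖F‖, fun b => (hfn b).le⟩
  obtain ⟨ψ, hψ⟩ : ∃ ψ : k → ℝ, ψ = fun c => m (fun b => ‖⟪f b, f c⟫_ℂ‖) := ⟨_, rfl⟩
  have hψ0 : ∀ c, 0 ≤ ψ c := fun c => by
    rw [hψ]
    exact h.nonneg _ (hvb.inner_left (f c)).norm fun b => norm_nonneg _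
  have hψb : Bdd ψ := ⟨‖F‖ * ‖F‖, fun c => by
    rw [abs_of_nonneg (hψ0 c), hψ]
    refine h.le_const (hvb.inner_left (f c)).norm fun b => ?_
    refine (norm_inner_le_norm _ _).trans ?_
    rw [hfn, hfn]⟩
  simp only [hfG]
  -- step 1
  by_cases hψm : m ψ = 0
  · obtain ⟨V, hV⟩ := exists_vm h (hvb.smul (hvb.inner_left G))
    have hV' : ∀ v, ⟪V, v⟫_ℂ = cm m fun b => (starRingEnd ℂ) ⟪f b, G⟫_ℂ * ⟪f b, v⟫_ℂ := by
      intro v
      rw [hV]
      congr 1
      funext b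
      rw [inner_smul_left]
    have hVG : ⟪V, G⟫_ℂ = ((m (fun b => ‖⟪f b, G⟫_ℂ‖ ^ 2) : ℝ) : ℂ) := by
      rw [hV', ← cm_ofReal h]
      congr 1
      funext b
      rw [Complex.conj_mul']
      push_cast
      rfl
    have hVf : ∀ c, ‖⟪V, f c⟫_ℂ‖ ≤ ‖F‖ * ‖G‖ * ψ c := by
      intro c
      have hb1 : CBdd fun b => (starRingEnd ℂ) ⟪f b, G⟫_ℂ * ⟪f b, f c⟫_ℂ :=
        (hvb.inner_left G).conj.mul (hvb.inner_left (f c))
      rw [hV']
      refine (norm_cm_le h hb1).trans ?_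
      rw [hψ]
      simp only
      rw [← h.smul _ _ (hvb.inner_left (f c)).norm]
      refine h.mono hb1.norm ((hvb.inner_left (f c)).norm.const_mul _) fun b => ?_
      rw [norm_mul, RCLike.norm_conj]
      refine mul_le_mul_of_nonneg_right ?_ (norm_nonneg _)
      refine (norm_inner_le_norm _ _).trans ?_
      rw [hfn]
    have hVV : ‖V‖ ^ 2 ≤ 0 := by
      have hb1 : CBdd fun b => (starRingEnd ℂ) ⟪f b, G⟫_ℂ * ⟪f b, V⟫_ℂ :=
        (hvb.inner_left G).conj.mul (hvb.inner_left V)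
      have h1 : ‖V‖ ^ 2 = ‖⟪V, V⟫_ℂ‖ := by
        rw [inner_self_eq_norm_sq_to_K]
        simp
      rw [h1]
      conv_lhs => rw [hV']
      refine (norm_cm_le h hb1).trans ?_
      have h2 : m (fun b => ‖F‖ * ‖G‖ * (‖F‖ * ‖G‖) * ψ b) = 0 := by
        rw [h.smul _ _ hψb, hψm, mul_zero]
      rw [← h2]
      refine h.mono hb1.norm (hψb.const_mul _) fun b => ?_
      rw [norm_mul, RCLike.norm_conj, norm_inner_symm (f b) V, mul_assoc (‖F‖ * ‖G‖)]
      refine mul_le_mul ?_ (hVf b) (norm_nonneg _) (by positivity)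
      refine (norm_inner_le_norm _ _).trans ?_
      rw [hfn]
    have hV0 : V = 0 := by
      rw [← norm_eq_zero]
      exact pow_eq_zero_iff (two_ne_zero) |>.1 (le_antisymm hVV (sq_nonneg _))
    rw [hV0, inner_zero_left] at hVG
    exact_mod_cast hVG.symm
  -- step 2
  exfalso
  obtain ⟨η, hη, hE'⟩ : ∃ η : ℝ, 0 < η ∧ ¬ Null m {c | η ≤ ψ c} := by
    by_contra hcon
    push Not at hcon
    exact hψm (mean_zero_of_null h hψb hψ0 hcon)
  obtain ⟨R, hR⟩ : ∃ R : ℝ, R = ‖F‖ := ⟨_, rfl⟩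
  have hR0 : 0 ≤ R := by rw [hR]; exact norm_nonneg _
  obtain ⟨δ, hδ⟩ : ∃ δ : ℝ, δ = η ^ 4 / (4 * (R ^ 7 + 1)) := ⟨_, rfl⟩
  have hδ0 : 0 < δ := by rw [hδ]; positivity
  obtain ⟨E₀, hE₀, hcc⟩ := hF δ hδ0
  -- step 3
  obtain ⟨t, ht1, ht2⟩ := exists_seq_of_forall_finset_exists
    (fun c => η ≤ ψ c ∧ c ∉ E₀) (fun c' c => ‖PA T (A c' c) F‖ ≤ δ ∧ c' ≠ c) (by
      intro S hS
      have h1 : Null m (E₀ ∪ ⋃ c' ∈ S, ({c | δ < ‖PA T (A c' c) F‖} ∪ {c'})) :=
        hE₀.union h (Null.biUnion h S fun c' hc' =>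
          (hcc c' (hS c' hc').2).union h (null_singleton h hinv c'))
      obtain ⟨c, hc1, hc2⟩ := exists_notMem_of_null h hE' h1
      rw [Set.mem_union, not_or] at hc2
      refine ⟨c, ⟨hc1, hc2.1⟩, fun c' hc' => ?_⟩
      have h2 : c ∉ ({c | δ < ‖PA T (A c' c) F‖} ∪ {c'} : Set k) := fun h3 =>
        hc2.2 (Set.mem_biUnion hc' h3)
      rw [Set.mem_union, not_or] at h2
      exact ⟨not_lt.1 h2.1, fun h3 => h2.2 h3.symm⟩)
  -- step 4
  obtain ⟨J, hJ⟩ := exists_nat_gt (2 * R ^ 4 / η ^ 2)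
  obtain ⟨u, hu⟩ : ∃ u : Fin J → k → H, 
      u = fun (i : Fin J) b => T (-q (t i) b) (g (t i) F) := ⟨_, rfl⟩
  have hun : ∀ i b, ‖u i b‖ ≤ R := by
    intro i b
    rw [hu, hR]
    simp only
    rw [LinearIsometryEquiv.norm_map, LinearIsometryEquiv.norm_map]
  have hzn : ∀ b, ‖g b F‖ ≤ R := fun b => by rw [LinearIsometryEquiv.norm_map, hR]
  have hbes := mean_bessel h u (fun b => g b F) hun hzn
  -- the coefficients
  have hcoef : ∀ i : Fin J, ∀ b, ⟪u i b, g b F⟫_ℂ = ⟪f b, f (t i)⟫_ℂ := by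
    intro i b
    have h1 : ⟪u i b, g b F⟫_ℂ = ⟪g (t i) F, T (q (t i) b) (g b F)⟫_ℂ := by
      rw [hu]
      simp only
      rw [hT.inner_left, neg_neg]
    rw [h1, ← hq, LinearIsometryEquiv.inner_map_map, hfG, hf]
  have hcoef2 : ∀ i : Fin J, η ^ 2 ≤ m (fun b => ‖⟪u i b, g b F⟫_ℂ‖ ^ 2) := by
    intro i
    simp only [hcoef]
    have h1 := h.sq_le (hvb.inner_left (f (t i))).norm
    have h2 : η ≤ m (fun b => ‖⟪f b, f (t i)⟫_ℂ‖) := by
      have := (ht1 i).1
      rw [hψ] at this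
      exact this
    exact (pow_le_pow_left₀ hη.le h2 2).trans h1
  have hvu : ∀ i, VBdd (u i) := fun i => ⟨R, hun i⟩
  have hbuu : ∀ i j : Fin J, Bdd fun b => ‖⟪u i b, u j b⟫_ℂ‖ := fun i j => ⟨R * R, fun b => by
    rw [abs_norm]
    exact (norm_inner_le_norm _ _).trans
      (mul_le_mul (hun i b) (hun j b) (norm_nonneg _) hR0)⟩
  have hlt : ∀ i j : Fin J, i < j → m (fun b => ‖⟪u i b, u j b⟫_ℂ‖) ≤ R * δ := by
    intro i j hij
    obtain ⟨h1, h2⟩ := ht2 i j hij
    set c := t j with hc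
    set c' := t i with hc'
    set B := (A c' c).map (s c' : L →+ L) with hB
    set x := g c' F with hx
    set y := x - PA T B x with hy
    have hPx : PA T B x = g c' (PA T (A c' c) F) :=
      PA_conj (g c') (s c') (hs c') (A c' c) F
    have hPn : ‖PA T B x‖ ≤ δ := by
      rw [hPx, LinearIsometryEquiv.norm_map]
      exact h1
    have h3 := hW c' c h2 y (fun w hw => sub_PA_perp T B x hw) (g c F)
    have hby : Bdd fun b => ‖⟪T (q c b - q c' b) y, g c F⟫_ℂ‖ := ⟨‖y‖ * R, fun b => by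
      rw [abs_norm]
      refine (norm_inner_le_norm _ _).trans ?_
      rw [LinearIsometryEquiv.norm_map]
      exact mul_le_mul_of_nonneg_left (hzn c) (norm_nonneg _)⟩
    have h4 : m (fun b => ‖⟪u i b, u j b⟫_ℂ‖) ≤
        m (fun b => R * δ + ‖⟪T (q c b - q c' b) y, g c F⟫_ℂ‖) := by
      refine h.mono (hbuu i j) ((Bdd.const _).add hby) fun b => ?_
      have h5 : ⟪u i b, u j b⟫_ℂ = ⟪T (q c b - q c' b) x, g c F⟫_ℂ := by
        rw [hu]
        simp only
        rw [hT.sub, hT.inner_left]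
        congr 3
        abel
      have h6 : x = PA T B x + y := by rw [hy, add_sub_cancel]
      have h7 : ‖⟪T (q c b - q c' b) (PA T B x), g c F⟫_ℂ‖ ≤ R * δ := by
        refine (norm_inner_le_norm _ _).trans ?_
        rw [LinearIsometryEquiv.norm_map (T _), mul_comm R]
        exact mul_le_mul hPn (hzn c) (norm_nonneg _) hδ0.le
      rw [h5]
      conv_lhs => rw [h6]
      rw [map_add, inner_add_left]
      exact (norm_add_le _ _).trans (add_le_add h7 le_rfl)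
    rw [h.add _ _ (Bdd.const _) hby, h.const, h3, add_zero] at h4
    exact h4
  have hoff : ∀ i j : Fin J, i ≠ j → m (fun b => ‖⟪u i b, u j b⟫_ℂ‖) ≤ R * δ := by
    intro i j hij
    rcases lt_or_gt_of_ne hij with h1 | h1
    · exact hlt i j h1
    · have h2 := hlt j i h1
      have h3 : (fun b => ‖⟪u i b, u j b⟫_ℂ‖) = fun b => ‖⟪u j b, u i b⟫_ℂ‖ := by
        funext b
        exact norm_inner_symm _ _
      rw [h3]
      exact h2
  -- step 5
  have hsum2 : ∑ i : Fin J, ∑ j ∈ Finset.univ.erase i, m (fun b => ‖⟪u i b, u j b⟫_ℂ‖) ≤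
      (J : ℝ) ^ 2 * (R * δ) := by
    have h1 : ∀ i : Fin J, ∑ j ∈ Finset.univ.erase i, m (fun b => ‖⟪u i b, u j b⟫_ℂ‖) ≤
        (J : ℝ) * (R * δ) := by
      intro i
      refine (Finset.sum_le_sum fun j hj => hoff i j (Ne.symm (Finset.ne_of_mem_erase hj))).trans ?_
      rw [Finset.sum_const, nsmul_eq_mul]
      refine mul_le_mul_of_nonneg_right ?_ (by positivity)
      have h2 : (Finset.univ.erase i).card ≤ J := by
        refine (Finset.card_le_card (Finset.erase_subset _ _)).trans ?_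
        simp
      exact_mod_cast h2
    refine (Finset.sum_le_sum fun i _ => h1 i).trans ?_
    rw [Finset.sum_const, nsmul_eq_mul, Finset.card_univ, Fintype.card_fin]
    apply le_of_eq
    ring
  obtain ⟨S, hS⟩ : ∃ S : ℝ, S = ∑ i : Fin J, m (fun b => ‖⟪u i b, g b F⟫_ℂ‖ ^ 2) := ⟨_, rfl⟩
  have hSge : (J : ℝ) * η ^ 2 ≤ S := by
    rw [hS]
    have h1 := Finset.sum_le_sum fun i (_ : i ∈ (Finset.univ : Finset (Fin J))) => hcoef2 i
    rw [Finset.sum_const, nsmul_eq_mul, Finset.card_univ, Fintype.card_fin] at h1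
    exact h1
  rw [← hS] at hbes
  have hη2 : 0 < η ^ 2 := by positivity
  rw [div_lt_iff₀ hη2] at hJ
  have hJpos : (0 : ℝ) < J := by
    by_contra hcon
    have h1 : (J : ℝ) ≤ 0 := not_lt.1 hcon
    have h2 : 0 ≤ R ^ 4 := by positivity
    nlinarith
  have hSpos : 0 < S := lt_of_lt_of_le (by positivity) hSge
  have h1 : R ^ 2 * R ^ 2 * S ≤ S ^ 2 / 2 := by
    have h2 : R ^ 4 ≤ S / 2 := by linarith
    have h3 : R ^ 2 * R ^ 2 = R ^ 4 := by ring
    rw [h3]
    nlinarith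
  have h2 : R ^ 4 * R ^ 2 * ∑ i : Fin J, ∑ j ∈ Finset.univ.erase i,
      m (fun b => ‖⟪u i b, u j b⟫_ℂ‖) ≤ R ^ 7 * δ * (J : ℝ) ^ 2 := by
    calc _ ≤ R ^ 4 * R ^ 2 * ((J : ℝ) ^ 2 * (R * δ)) :=
          mul_le_mul_of_nonneg_left hsum2 (by positivity)
      _ = R ^ 7 * δ * (J : ℝ) ^ 2 := by ring
  have h3 : R ^ 7 * δ ≤ η ^ 4 / 4 := by
    rw [hδ, mul_div_assoc', div_le_div_iff₀ (by positivity) (by norm_num)]
    have h4 : 0 ≤ η ^ 4 := by positivity
    nlinarith
  have h4 : R ^ 7 * δ * (J : ℝ) ^ 2 ≤ S ^ 2 / 4 := by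
    have h5 : ((J : ℝ) * η ^ 2) ^ 2 ≤ S ^ 2 := pow_le_pow_left₀ (by positivity) hSge 2
    calc R ^ 7 * δ * (J : ℝ) ^ 2 ≤ η ^ 4 / 4 * (J : ℝ) ^ 2 :=
          mul_le_mul_of_nonneg_right h3 (by positivity)
      _ = ((J : ℝ) * η ^ 2) ^ 2 / 4 := by ring
      _ ≤ S ^ 2 / 4 := by linarith
  nlinarith

end om

end

end Vale.Agent.P011.H983
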