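import Vale.Agent.P011.H983.OMabs

/-!
# Operator mixing for vectors orthogonal to the invariant vectors

The eigenvectors of `L` with a nontrivial character are treated directly; together with
`om_abstract` this gives the statement for all vectors orthogonal to the invariant vectors.
-/

open scoped InnerProductSpace

namespace Vale.Agent.P011.H983

open Vale.Agent.P011.H152

noncomputable section

variable {k L : Type*} [AddCommGroup k] [AddCommGroup L] {m : (k → ℝ) → ℝ}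
variable {H : Type*} [NormedAddCommGroup H] [InnerProductSpace ℂ H]

omit [AddCommGroup k] in
theorem bdd_inner_unitary (g : k → H ≃ₗᵢ[ℂ] H) (F G : H) : Bdd fun b => ‖⟪F, g b G⟫_ℂ‖ :=
  ⟨‖F‖ * ‖G‖, fun b => by
    rw [abs_norm]
    refine (norm_inner_le_norm _ _).trans ?_
    rw [LinearIsometryEquiv.norm_map]⟩

/-- The vectors `F` with `m (b ↦ |⟨F, g_b G⟩|²) = 0` for all `G`. -/
def good (h : IsMean m) (g : k → H ≃ₗᵢ[ℂ] H) : Submodule ℂ H where
  carrier := {F | ∀ G, m (fun b => ‖⟪F, g b G⟫_ℂ‖ ^ 2) = 0}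
  zero_mem' := fun G => by
    simp only [inner_zero_left, norm_zero]
    have := h.zero
    simpa using this
  add_mem' := fun {F F'} hF hF' G => by
    refine le_antisymm ?_ (h.nonneg _ (bdd_inner_unitary g _ G).sq fun b => sq_nonneg _)
    have h1 := h.mono (bdd_inner_unitary g (F + F') G).sq
      (((bdd_inner_unitary g F G).sq.const_mul 2).add
        ((bdd_inner_unitary g F' G).sq.const_mul 2)) (fun b => by
        rw [inner_add_left]
        have h2 := norm_add_le ⟪F, g b G⟫_ℂ ⟪F', g b G⟫_ℂ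
        have h3 := norm_nonneg (⟪F, g b G⟫_ℂ + ⟪F', g b G⟫_ℂ)
        nlinarith [sq_nonneg (‖⟪F, g b G⟫_ℂ‖ - ‖⟪F', g b G⟫_ℂ‖)])
    rw [h.add _ _ ((bdd_inner_unitary g F G).sq.const_mul 2)
      ((bdd_inner_unitary g F' G).sq.const_mul 2), h.smul _ _ (bdd_inner_unitary g F G).sq,
      h.smul _ _ (bdd_inner_unitary g F' G).sq, hF G, hF' G] at h1
    linarith
  smul_mem' := fun c F hF G => by
    have h1 : (fun b => ‖⟪c • F, g b G⟫_ℂ‖ ^ 2) = fun b => ‖c‖ ^ 2 * ‖⟪F, g b G⟫_ℂ‖ ^ 2 := by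
      funext b
      rw [inner_smul_left, norm_mul, RCLike.norm_conj, mul_pow]
    rw [h1, h.smul _ _ (bdd_inner_unitary g F G).sq, hF G, mul_zero]

omit [AddCommGroup k] in
theorem mem_good {h : IsMean m} {g : k → H ≃ₗᵢ[ℂ] H} {F : H} :
    F ∈ good h g ↔ ∀ G, m (fun b => ‖⟪F, g b G⟫_ℂ‖ ^ 2) = 0 := Iff.rfl

omit [AddCommGroup k] in
theorem isClosed_good (h : IsMean m) (g : k → H ≃ₗᵢ[ℂ] H) : IsClosed (good h g : Set H) := by
  rw [← isSeqClosed_iff_isClosed]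
  intro u F hu hF G
  refine le_antisymm ?_ (h.nonneg _ (bdd_inner_unitary g _ G).sq fun b => sq_nonneg _)
  have h1 : ∀ n, m (fun b => ‖⟪F, g b G⟫_ℂ‖ ^ 2) ≤ 2 * (‖F - u n‖ ^ 2 * ‖G‖ ^ 2) := by
    intro n
    have h2 := h.mono (bdd_inner_unitary g F G).sq
      (((bdd_inner_unitary g (u n) G).sq.const_mul 2).add
        (Bdd.const (2 * (‖F - u n‖ ^ 2 * ‖G‖ ^ 2)))) (fun b => by
        have h3 : ⟪F, g b G⟫_ℂ = ⟪u n, g b G⟫_ℂ + ⟪F - u n, g b G⟫_ℂ := by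
          rw [← inner_add_left, add_sub_cancel]
        have h4 : ‖⟪F - u n, g b G⟫_ℂ‖ ≤ ‖F - u n‖ * ‖G‖ := by
          refine (norm_inner_le_norm _ _).trans ?_
          rw [LinearIsometryEquiv.norm_map]
        have h5 : ‖⟪F - u n, g b G⟫_ℂ‖ ^ 2 ≤ ‖F - u n‖ ^ 2 * ‖G‖ ^ 2 := by
          rw [← mul_pow]
          exact pow_le_pow_left₀ (norm_nonneg _) h4 2
        rw [h3]
        have h6 := norm_add_le ⟪u n, g b G⟫_ℂ ⟪F - u n, g b G⟫_ℂ
        have h7 := norm_nonneg (⟪u n, g b G⟫_ℂ + ⟪F - u n, g b G⟫_ℂ)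
        nlinarith [sq_nonneg (‖⟪u n, g b G⟫_ℂ‖ - ‖⟪F - u n, g b G⟫_ℂ‖)])
    rw [h.add _ _ ((bdd_inner_unitary g (u n) G).sq.const_mul 2) (Bdd.const _),
      h.smul _ _ (bdd_inner_unitary g (u n) G).sq, h.const, hu n G] at h2
    linarith
  have h2 : Filter.Tendsto (fun n => 2 * (‖F - u n‖ ^ 2 * ‖G‖ ^ 2)) Filter.atTop (nhds 0) := by
    have h3 : Filter.Tendsto (fun n => ‖F - u n‖) Filter.atTop (nhds 0) := by
      have h4 := (tendsto_const_nhds (x := F)).sub hF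
      rw [sub_self] at h4
      simpa using h4.norm
    have h4 := ((h3.pow 2).mul_const (‖G‖ ^ 2)).const_mul 2
    simpa using h4
  exact ge_of_tendsto' h2 h1

/-- Bessel's inequality for orthogonal vectors of equal norm. -/
theorem bessel_orth {ι : Type*} (s : Finset ι) (f : ι → H) {R : ℝ} (hR : ∀ i, ‖f i‖ = R)
    (ho : ∀ i ∈ s, ∀ j ∈ s, i ≠ j → ⟪f i, f j⟫_ℂ = 0) (G : H) :
    ∑ i ∈ s, ‖⟪f i, G⟫_ℂ‖ ^ 2 ≤ R ^ 2 * ‖G‖ ^ 2 := by
  classical
  by_cases hR0 : R = 0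
  · have h1 : ∀ i, f i = 0 := fun i => norm_eq_zero.1 (by rw [hR, hR0])
    simp only [h1, inner_zero_left, norm_zero]
    rw [hR0]
    simp
  have hRpos : 0 < R ∨ s = ∅ := by
    rcases s.eq_empty_or_nonempty with h1 | ⟨i, hi⟩
    · exact Or.inr h1
    · left
      exact lt_of_le_of_ne (by rw [← hR i]; exact norm_nonneg _) (Ne.symm hR0)
  rcases hRpos with hRpos | rfl
  swap
  · rw [Finset.sum_empty]
    positivity
  have hRc : (R : ℂ) ≠ 0 := by exact_mod_cast hR0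
  have hon : Orthonormal ℂ fun i : s => (((R⁻¹ : ℝ) : ℂ) • f i : H) := by
    constructor
    · intro i
      rw [norm_smul, hR, Complex.norm_real, norm_inv, Real.norm_of_nonneg hRpos.le,
        inv_mul_cancel₀ hR0]
    · intro i j hij
      show ⟪((R⁻¹ : ℝ) : ℂ) • f i, ((R⁻¹ : ℝ) : ℂ) • f j⟫_ℂ = 0
      rw [inner_smul_left, inner_smul_right, ho i i.2 j j.2 fun h => hij (Subtype.ext h),
        mul_zero, mul_zero]
  have h1 := hon.sum_inner_products_le G (s := Finset.univ)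
  have h2 : ∑ i ∈ s, ‖⟪f i, G⟫_ℂ‖ ^ 2 = R ^ 2 * ∑ i : s, ‖⟪((R⁻¹ : ℝ) : ℂ) • f i, G⟫_ℂ‖ ^ 2 := by
    rw [Finset.mul_sum, ← Finset.sum_coe_sort s]
    refine Finset.sum_congr rfl fun i _ => ?_
    rw [inner_smul_left, norm_mul, mul_pow, RCLike.norm_conj, Complex.norm_real, norm_inv,
      Real.norm_of_nonneg hRpos.le]
    field_simp
  rw [h2]
  exact mul_le_mul_of_nonneg_left h1 (sq_nonneg _)

/-- Eigenvectors of `L` with a nontrivial character. -/
theorem om_eig (h : IsMean m) (hinv : ∀ (b : k) (f), Bdd f → m (fun x => f (x + b)) = m f)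
    {T : L → H ≃ₗᵢ[ℂ] H} (hT : URep T) (g : k → H ≃ₗᵢ[ℂ] H) (s : k → L → L)
    (hs : ∀ b l x, g b (T l x) = T (s b l) (g b x)) {ι : Type*} [Infinite ι] (v : ι → k)
    (hv : ∀ (x : k) (i j : ι), i ≠ j → ∀ l, ∃ l', s (x + v j) l' - s (x + v i) l' = l)
    {F : H} (hF : F ∈ Eig T (⊤ : AddSubgroup L)) (hF1 : ∃ l, T l F ≠ F) (G : H) :
    m (fun b => ‖⟪F, g b G⟫_ℂ‖ ^ 2) = 0 := by
  classical
  obtain ⟨f, hf⟩ : ∃ f : k → H, f = fun b => (g b).symm F := ⟨_, rfl⟩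
  have hfn : ∀ b, ‖f b‖ = ‖F‖ := fun b => by rw [hf]; exact LinearIsometryEquiv.norm_map _ _
  have hfG : ∀ b G, ⟪F, g b G⟫_ℂ = ⟪f b, G⟫_ℂ := by
    intro b G
    rw [hf]
    conv_lhs => rw [← (g b).apply_symm_apply F]
    exact LinearIsometryEquiv.inner_map_map _ _ _
  have hfT : ∀ (b : k) (l : L) (c : ℂ), T (s b l) F = c • F → T l (f b) = c • f b := by
    intro b l c hc
    apply (g b).injective
    rw [hs, map_smul, hf]
    simp only
    rw [LinearIsometryEquiv.apply_symm_apply, hc]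
  obtain ⟨l₀, hl₀⟩ := hF1
  obtain ⟨c₀, hc₀⟩ := hF l₀ (AddSubgroup.mem_top _)
  have hF0 : F ≠ 0 := by
    rintro rfl
    exact hl₀ (map_zero _)
  have hc1 : c₀ ≠ 1 := by
    rintro rfl
    exact hl₀ (by rw [hc₀, one_smul])
  have ho : ∀ (x : k) (i j : ι), i ≠ j → ⟪f (x + v i), f (x + v j)⟫_ℂ = 0 := by
    intro x i j hij
    obtain ⟨l, hl⟩ := hv x i j hij l₀
    obtain ⟨a, ha⟩ := hF (s (x + v i) l) (AddSubgroup.mem_top _)
    have ha1 : ‖a‖ = 1 := by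
      have h1 := (T (s (x + v i) l)).norm_map F
      rw [ha, norm_smul] at h1
      have h2 : ‖F‖ ≠ 0 := norm_ne_zero_iff.2 hF0
      exact mul_right_cancel₀ h2 (h1.trans (one_mul _).symm)
    have hb : T (s (x + v j) l) F = (c₀ * a) • F := by
      have h1 : s (x + v j) l = s (x + v i) l + l₀ := by rw [← hl, add_sub_cancel]
      rw [h1, hT.add, hc₀, map_smul, ha, smul_smul]
    have h1 : ⟪f (x + v i), f (x + v j)⟫_ℂ = c₀ * ⟪f (x + v i), f (x + v j)⟫_ℂ := by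
      conv_lhs => rw [← (T l).inner_map_map]
      rw [hfT _ _ _ ha, hfT _ _ _ hb, inner_smul_left, inner_smul_right]
      have h3 : (starRingEnd ℂ) a * a = 1 := by
        rw [Complex.conj_mul', ha1]
        norm_num
      linear_combination (c₀ * ⟪f (x + v i), f (x + v j)⟫_ℂ) * h3
    have h2 : (1 - c₀) * ⟪f (x + v i), f (x + v j)⟫_ℂ = 0 := by
      rw [sub_mul, one_mul, sub_eq_zero]
      exact h1
    exact (mul_eq_zero.1 h2).resolve_left (sub_ne_zero.2 (Ne.symm hc1))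
  simp only [hfG]
  have hb : Bdd fun b => ‖⟪f b, G⟫_ℂ‖ ^ 2 := by
    have h1 := (bdd_inner_unitary g F G).sq
    simpa only [hfG] using h1
  have h0 := h.nonneg _ hb fun b => sq_nonneg _
  by_contra hne
  have hpos := lt_of_le_of_ne h0 (Ne.symm hne)
  obtain ⟨N, hN⟩ := exists_nat_gt (‖F‖ ^ 2 * ‖G‖ ^ 2 / m (fun b => ‖⟪f b, G⟫_ℂ‖ ^ 2))
  obtain ⟨S, hS⟩ := Infinite.exists_subset_card_eq ι N
  have h1 : m (fun x => ∑ i ∈ S, ‖⟪f (x + v i), G⟫_ℂ‖ ^ 2) =
      (N : ℝ) * m (fun b => ‖⟪f b, G⟫_ℂ‖ ^ 2) := by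
    rw [h.sum S (f := fun i x => ‖⟪f (x + v i), G⟫_ℂ‖ ^ 2) (fun i _ => hb.comp _),
      Finset.sum_congr rfl (fun i _ => hinv (v i) (fun b => ‖⟪f b, G⟫_ℂ‖ ^ 2) hb),
      Finset.sum_const, hS, nsmul_eq_mul]
  have h2 : m (fun x => ∑ i ∈ S, ‖⟪f (x + v i), G⟫_ℂ‖ ^ 2) ≤ ‖F‖ ^ 2 * ‖G‖ ^ 2 := by
    refine h.le_const (Bdd.sum S fun i _ => hb.comp _) (fun x => ?_)
    exact bessel_orth S (fun i => f (x + v i)) (fun i => hfn _)
      (fun i _ j _ hij => ho x i j hij) G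
  rw [h1] at h2
  rw [div_lt_iff₀ hpos] at hN
  linarith

section complete

variable [CompleteSpace H]

omit [AddCommGroup k] in
/-- Vectors orthogonal to the eigenvectors of `C` have small projections to the eigenvectors of
most of the subgroups of a family in general position. -/
theorem null_of_gen {T : L → H ≃ₗᵢ[ℂ] H} (hT : URep T) (C : AddSubgroup L) {F : H}
    (hF : ∀ y ∈ Eig T C, ⟪y, F⟫_ℂ = 0) (A : k → AddSubgroup L) (hAC : ∀ c, A c ≤ C) (N : ℕ)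
    (hgen : ∀ Z : Set k, ¬ Null m Z → ∃ t : ℕ → k, (∀ i, t i ∈ Z) ∧ ∀ S : Finset ℕ, S.card = N →
      ∀ B : AddSubgroup L, (∀ i ∈ S, A (t i) ≤ B) → C ≤ B) {δ : ℝ} (hδ : 0 < δ) :
    Null m {c | δ < ‖PA T (A c) F‖} := by
  classical
  by_contra hcon
  obtain ⟨t, ht1, ht2⟩ := hgen _ hcon
  obtain ⟨M, hM⟩ := exists_nat_gt (((N : ℝ) - 1) * ‖F‖ ^ 2 / δ ^ 2)
  have hδ2 : 0 < δ ^ 2 := by positivity
  rw [div_lt_iff₀ hδ2] at hM
  have h1 := sum_norm_sq_le_of_commute (fun i => PA T (A (t i)))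
    (fun i j x => PA_comm hT _ _ x) (fun i x y => PA_orth T _ x y) (Finset.range M) N F
    (fun l hl hlN _ => foldr_PA_eq_zero hT (fun i => A (t i)) C (fun i => hAC _) hF l fun B hB =>
      ht2 l.toFinset (by rw [List.toFinset_card_of_nodup hl, hlN]) B fun i hi =>
        hB i (List.mem_toFinset.1 hi))
  have h2 : (M : ℝ) * δ ^ 2 ≤ ∑ i ∈ Finset.range M, ‖PA T (A (t i)) F‖ ^ 2 := by
    have h3 : ∀ i ∈ Finset.range M, δ ^ 2 ≤ ‖PA T (A (t i)) F‖ ^ 2 := fun i _ =>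
      pow_le_pow_left₀ hδ.le (le_of_lt (ht1 i)) 2
    have h4 := Finset.sum_le_sum h3
    rw [Finset.sum_const, Finset.card_range, nsmul_eq_mul] at h4
    exact h4
  linarith

/-- **Operator mixing.** -/
theorem om_full [Infinite k] (h : IsMean m)
    (hinv : ∀ (b : k) (f), Bdd f → m (fun x => f (x + b)) = m f)
    {T : L → H ≃ₗᵢ[ℂ] H} (hT : URep T) (g : k → H ≃ₗᵢ[ℂ] H) (s : k → L ≃+ L)
    (hs : ∀ b l x, g b (T l x) = T (s b l) (g b x)) (q : k → k → L)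
    (hq : ∀ c b x, g c (g b ((g c).symm x)) = T (q c b) (g b x))
    {ι : Type*} [Infinite ι] (v : ι → k)
    (hv : ∀ (x : k) (i j : ι), i ≠ j → ∀ l, ∃ l', s (x + v j) l' - s (x + v i) l' = l)
    (A : k → k → AddSubgroup L) (C : k → AddSubgroup L) (hAC : ∀ c c', A c c' ≤ C c)
    (hW : ∀ c c' : k, c ≠ c' → ∀ x, (∀ y ∈ Eig T ((A c c').map (s c : L →+ L)), ⟪y, x⟫_ℂ = 0) →
      ∀ z, m (fun b => ‖⟪T (q c' b - q c b) x, z⟫_ℂ‖) = 0)
    (N₁ N₂ : ℕ)
    (hgen₁ : ∀ Z : Set k, ¬ Null m Z → ∃ t : ℕ → k, (∀ i, t i ∈ Z) ∧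
      ∀ S : Finset ℕ, S.card = N₁ → ∀ B : AddSubgroup L, (∀ i ∈ S, C (t i) ≤ B) → ⊤ ≤ B)
    (hgen₂ : ∀ c, ∀ Z : Set k, ¬ Null m Z → ∃ t : ℕ → k, (∀ i, t i ∈ Z) ∧
      ∀ S : Finset ℕ, S.card = N₂ → ∀ B : AddSubgroup L, (∀ i ∈ S, A c (t i) ≤ B) → C c ≤ B)
    {F : H} (hF : ∀ y, (∀ l, T l y = y) → ⟪y, F⟫_ℂ = 0) (G : H) :
    m (fun b => ‖⟪F, g b G⟫_ℂ‖ ^ 2) = 0 := by
  classical
  have hB : ∀ F : H, (∀ y ∈ Eig T (⊤ : AddSubgroup L), ⟪y, F⟫_ℂ = 0) → F ∈ good h g := by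
    intro F hF
    rw [mem_good]
    intro G
    refine om_abstract h hinv hT g s hs q hq A hW (fun δ hδ =>
      ⟨{c | δ / 2 < ‖PA T (C c) F‖}, null_of_gen hT ⊤ hF C (fun c => le_top) N₁ hgen₁ (half_pos hδ),
        fun c hc => ?_⟩) G
    have h1 : ‖PA T (C c) F‖ ≤ δ / 2 := not_lt.1 hc
    have h2 := null_of_gen (m := m) hT (C c) (F := F - PA T (C c) F)
      (fun y hy => sub_PA_perp T (C c) F hy) (A c) (hAC c) N₂ (hgen₂ c) (half_pos hδ)
    refine h2.mono h fun c' hc' => ?_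
    have h3 : δ < ‖PA T (A c c') F‖ := hc'
    have h4 : PA T (A c c') F = PA T (A c c') (PA T (C c) F) +
        PA T (A c c') (F - PA T (C c) F) := by
      rw [← map_add, add_sub_cancel]
    have h5 := norm_add_le (PA T (A c c') (PA T (C c) F)) (PA T (A c c') (F - PA T (C c) F))
    rw [← h4] at h5
    have h6 := PA_norm_le T (A c c') (PA T (C c) F)
    show δ / 2 < ‖PA T (A c c') (F - PA T (C c) F)‖
    linarith
  obtain ⟨NT, hNT⟩ : ∃ NT : Set H, NT = {y | y ∈ Eig T (⊤ : AddSubgroup L) ∧ ∃ l, T l y ≠ y} :=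
    ⟨_, rfl⟩
  set W : Submodule ℂ H := (Submodule.span ℂ NT).topologicalClosure with hW0
  have hWg : W ≤ good h g := by
    refine Submodule.topologicalClosure_minimal _ (Submodule.span_le.2 ?_) (isClosed_good h g)
    intro y hy
    rw [hNT] at hy
    intro G
    exact om_eig h hinv hT g (fun b => s b) hs v hv hy.1 hy.2 G
  have hWF : ∀ y, (∀ l, T l y = y) → ∀ w ∈ W, ⟪w, y⟫_ℂ = 0 := by
    intro y hy w hw
    have h1 : W ≤ (ℂ ∙ y)ᗮ := by
      refine Submodule.topologicalClosure_minimal _ (Submodule.span_le.2 ?_)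
        (Submodule.isClosed_orthogonal _)
      intro z hz
      rw [hNT] at hz
      obtain ⟨hz1, l, hl⟩ := hz
      rw [SetLike.mem_coe, Submodule.mem_orthogonal_singleton_iff_inner_left]
      obtain ⟨c, hc⟩ := hz1 l (AddSubgroup.mem_top _)
      have h2 : ⟪z, y⟫_ℂ = (starRingEnd ℂ) c * ⟪z, y⟫_ℂ := by
        conv_lhs => rw [← (T l).inner_map_map, hc, hy l, inner_smul_left]
      have h3 : (1 - (starRingEnd ℂ) c) * ⟪z, y⟫_ℂ = 0 := by
        rw [sub_mul, one_mul, sub_eq_zero]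
        exact h2
      refine (mul_eq_zero.1 h3).resolve_left fun h4 => hl ?_
      have h5 : c = 1 := by
        have h6 := congrArg (starRingEnd ℂ) (sub_eq_zero.1 h4)
        rw [map_one, Complex.conj_conj] at h6
        exact h6.symm
      rw [hc, h5, one_smul]
    exact Submodule.mem_orthogonal_singleton_iff_inner_left.1 (h1 hw)
  have h1 : F - W.starProjection F ∈ good h g := by
    apply hB
    intro y hy
    by_cases hy1 : ∃ l, T l y ≠ y
    · have h2 : y ∈ W := Submodule.le_topologicalClosure _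
        (Submodule.subset_span (by rw [hNT]; exact ⟨hy, hy1⟩))
      rw [← inner_conj_symm, Submodule.starProjection_inner_eq_zero F y h2, map_zero]
    · push Not at hy1
      rw [inner_sub_right, hF y hy1, zero_sub, neg_eq_zero, ← inner_conj_symm,
        hWF y hy1 _ (Submodule.starProjection_apply_mem W F), map_zero]
  have h2 : W.starProjection F ∈ good h g := hWg (Submodule.starProjection_apply_mem W F)
  have h3 := (good h g).add_mem h1 h2
  rw [sub_add_cancel] at h3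
  exact h3 G

end complete

end

end Vale.Agent.P011.H983
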